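import Vale.Agent.P286EK.Tw

/-!
# Quasi-isomorphisms of twisted matrix algebras and of cones; products
-/

set_option linter.unusedSectionVars false

namespace Vale.Agent.P286EK

open CategoryTheory Vale.Agent.P286.H353 Vale.Agent.P286E Vale.Agent.P286EG
open Vale.Agent.P286.H847 Vale.Agent.P286.H847.GD Vale.Agent.P286.H710

noncomputable section

universe u v

variable {A B : DGA}

/-! ### Relative quasi-isomorphisms and extensions -/

/-- The map `u` is a quasi-isomorphism onto the image of the projector `l`. -/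
def RQ {X Y : GD} (u : Y.V →ₗ[ℂ] X.V) (l : X.V →ₗ[ℂ] X.V) : Prop := ∀ m : ℤ,
  (∀ y ∈ Y.gr m, Y.d y = 0 → (∃ x ∈ X.gr (m - 1), X.d x = u y) →
    ∃ y' ∈ Y.gr (m - 1), Y.d y' = y) ∧
  (∀ x ∈ X.gr m, X.d x = 0 → ∃ y ∈ Y.gr m, Y.d y = 0 ∧ ∃ x' ∈ X.gr (m - 1), X.d x' = l x - u y)

/-- The space `X` consists of the pairs `(p, q)` with `d (p, q) = (s d p, s' d q + φ p)`. -/
structure Ex (X P Q : GD) where
  p : X.V →ₗ[ℂ] P.V
  q : X.V →ₗ[ℂ] Q.V
  mk' : P.V → Q.V → X.V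
  p_mk : ∀ a b, p (mk' a b) = a
  q_mk : ∀ a b, q (mk' a b) = b
  ext : ∀ x, p x = 0 → q x = 0 → x = 0
  i : ℤ
  j : ℤ
  mem : ∀ m x, x ∈ X.gr m ↔ p x ∈ P.gr (m + i) ∧ q x ∈ Q.gr (m + j)
  s : ℤˣ
  s' : ℤˣ
  φ : P.V →ₗ[ℂ] Q.V
  p_d : ∀ x, p (X.d x) = (s : ℤ) • P.d (p x)
  q_d : ∀ x, q (X.d x) = (s' : ℤ) • Q.d (q x) + φ (p x)

theorem usm {V : Type} [AddCommGroup V] (s : ℤˣ) (x : V) : (s : ℤ) • (s : ℤ) • x = x := by
  rw [smul_smul, ← Units.val_mul, Int.units_mul_self, Units.val_one, one_smul]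

theorem usm_zero {V : Type} [AddCommGroup V] {s : ℤˣ} {x : V} (h : (s : ℤ) • x = 0) : x = 0 := by
  rw [← usm s x, h, smul_zero]

theorem Ex.ext' {X P Q : GD} (E : Ex X P Q) {x y : X.V} (h : E.p x = E.p y) (h' : E.q x = E.q y) :
    x = y := sub_eq_zero.1 (E.ext _ (by rw [map_sub, h, sub_self]) (by rw [map_sub, h', sub_self]))

/-- The five lemma. -/
theorem Ex.rq {X P Q X' P' Q' : GD} (E : Ex X P Q) (E' : Ex X' P' Q') (hi : E'.i = E.i)
    (hj : E'.j = E.j) (u : Hom X X') (l : Hom X' X') (hlu : ∀ x, l.f (u.f x) = u.f x)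
    (hll : ∀ x, l.f (l.f x) = l.f x)
    {a : P.V →ₗ[ℂ] P'.V} {b : Q.V →ₗ[ℂ] Q'.V} {la : P'.V →ₗ[ℂ] P'.V} {lb : Q'.V →ₗ[ℂ] Q'.V}
    (hs : E'.s = E.s) (hs' : E'.s' = E.s')
    (pu : ∀ x, E'.p (u.f x) = a (E.p x)) (qu : ∀ x, E'.q (u.f x) = b (E.q x))
    (pl : ∀ x, E'.p (l.f x) = la (E'.p x)) (ql : ∀ x, E'.q (l.f x) = lb (E'.q x))
    (ha : RQ a la) (hb : RQ b lb) : RQ u.f l.f := by
  have sur : ∀ m, ∀ x ∈ X'.gr m, ∀ y ∈ X.gr (m + 1), X.d y = 0 → X'.d (l.f x) = u.f y →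
      ∃ y' ∈ X.gr m, X.d y' = y ∧ ∃ x' ∈ X'.gr (m - 1), X'.d x' = l.f x - u.f y' := by
    intro m x hx y hy hd e
    have hx' := (E'.mem _ _).1 (l.deg _ _ hx)
    have hy' := (E.mem _ _).1 hy
    rw [hi, hj] at hx'
    -- first step: kill the component `p` of `y`
    obtain ⟨c, hc, ec⟩ := (ha (m + 1 + E.i)).1 (E.p y) hy'.1
      (usm_zero ((E.p_d y).symm.trans (by rw [hd, map_zero])))
      ⟨(E.s : ℤ) • E'.p (l.f x), zsmul_mem (by rw [show m + 1 + E.i - 1 = m + E.i by ring]; exact hx'.1) _,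
        by rw [map_zsmul, ← hs, ← E'.p_d, e, pu]⟩
    let y1 := E.mk' ((E.s : ℤ) • c) 0
    have hy1 : y1 ∈ X.gr m := (E.mem _ _).2 ⟨by
      rw [E.p_mk, show m + E.i = m + 1 + E.i - 1 by ring]; exact zsmul_mem hc _,
      by rw [E.q_mk]; exact zero_mem _⟩
    have e1 : E.p (y - X.d y1) = 0 := by rw [map_sub, E.p_d, E.p_mk, map_zsmul, usm, ec, sub_self]
    have e2 : X'.d (l.f x - u.f y1) = u.f (y - X.d y1) := by rw [map_sub, map_sub, e, u.comm]
    have hz := (E'.mem _ _).1 (sub_mem (l.deg _ _ hx) (u.deg _ _ hy1))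
    rw [hi, hj] at hz
    -- second step: kill the component `p` of `l x - u y1`
    obtain ⟨c2, hc2, dc2, w, hw, ew⟩ := (ha (m + E.i)).2 _ hz.1
      (usm_zero ((E'.p_d _).symm.trans (by rw [e2, pu, e1, map_zero])))
    let y2 := E.mk' c2 0
    let x2 := l.f (E'.mk' ((E.s : ℤ) • w) 0)
    have hy2 : y2 ∈ X.gr m := (E.mem _ _).2 ⟨by rwa [E.p_mk], by rw [E.q_mk]; exact zero_mem _⟩
    have hx2 : x2 ∈ X'.gr (m - 1) := l.deg _ _ ((E'.mem _ _).2 ⟨by
      rw [E'.p_mk, hi, show m - 1 + E.i = m + E.i - 1 by ring]; exact zsmul_mem hw _,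
      by rw [E'.q_mk]; exact zero_mem _⟩)
    have fx : l.f (l.f x - u.f y1) = l.f x - u.f y1 := by rw [map_sub, hll, hlu]
    have e3 : E'.p (l.f x - u.f y1 - u.f y2 - X'.d x2) = 0 := by
      have h1 : E'.p (X'.d x2) = E'.p (l.f x - u.f y1) - E'.p (u.f y2) := by
        have h2 : a c2 = E'.p (u.f y2) := by rw [pu, E.p_mk]
        rw [← l.comm, pl, E'.p_d, E'.p_mk, map_zsmul P'.d, hs, usm, ew, h2, map_sub la]
        simp only [← pl, fx, hlu]
      rw [map_sub, map_sub _ _ (u.f y2), h1, sub_self]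
    have e4 : E.p (y - X.d y1 - X.d y2) = 0 := by
      rw [map_sub, e1, E.p_d, E.p_mk, dc2, smul_zero, sub_zero]
    have e5 : X'.d (l.f x - u.f y1 - u.f y2 - X'.d x2) = u.f (y - X.d y1 - X.d y2) := by
      rw [map_sub, map_sub _ _ (u.f y2), e2, X'.dd, sub_zero, map_sub _ _ (X.d y2), u.comm y2]
    have fz : l.f (l.f x - u.f y1 - u.f y2 - X'.d x2) = l.f x - u.f y1 - u.f y2 - X'.d x2 := by
      rw [map_sub, map_sub _ _ (u.f y2), fx, hlu, l.comm, hll]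
    have hz2 := sub_mem (sub_mem (sub_mem (l.deg _ _ hx) (u.deg _ _ hy1)) (u.deg _ _ hy2))
      (X'.dgr' (n := m) (by ring) hx2)
    have hy3 := sub_mem (sub_mem hy (X.dgr _ _ hy1)) (X.dgr _ _ hy2)
    have dy3 : X.d (y - X.d y1 - X.d y2) = 0 := by simp [hd, X.dd]
    generalize hZ : l.f x - u.f y1 - u.f y2 - X'.d x2 = Z at e3 e5 fz hz2
    generalize hY : y - X.d y1 - X.d y2 = Y at e4 e5 hy3 dy3
    have hZ' := ((E'.mem _ _).1 hz2).2
    rw [hj] at hZ'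
    -- third step: the component `q`
    obtain ⟨c3, hc3, ec3⟩ := (hb (m + 1 + E.j)).1 (E.q Y) ((E.mem _ _).1 hy3).2
      (usm_zero (s := E.s') (by
        have := E.q_d Y
        rw [dy3, e4, map_zero, map_zero, add_zero] at this
        exact this.symm))
      ⟨(E.s' : ℤ) • E'.q Z, zsmul_mem (by rw [show m + 1 + E.j - 1 = m + E.j by ring]; exact hZ') _,
        by
          have := E'.q_d Z
          rw [e3, map_zero, add_zero, e5, qu, hs'] at this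
          rw [map_zsmul, this]⟩
    let y3 := E.mk' 0 ((E.s' : ℤ) • c3)
    have hy3' : y3 ∈ X.gr m := (E.mem _ _).2 ⟨by rw [E.p_mk]; exact zero_mem _, by
      rw [E.q_mk, show m + E.j = m + 1 + E.j - 1 by ring]; exact zsmul_mem hc3 _⟩
    have e6 : X.d y3 = Y := E.ext' (by rw [E.p_d, E.p_mk, map_zero, smul_zero, e4])
      (by rw [E.q_d, E.p_mk, E.q_mk, map_zero, add_zero, map_zsmul, usm, ec3])
    have e7 : E'.p (Z - u.f y3) = 0 := by rw [map_sub, e3, pu, E.p_mk, map_zero, sub_zero]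
    have hW := ((E'.mem _ _).1 (sub_mem hz2 (u.deg _ _ hy3'))).2
    rw [hj] at hW
    obtain ⟨c4, hc4, dc4, w4, hw4, ew4⟩ := (hb (m + E.j)).2 _ hW (usm_zero (s := E'.s') (by
      have := E'.q_d (Z - u.f y3)
      rw [e7, map_zero, add_zero, map_sub, e5, ← u.comm, e6, sub_self, map_zero] at this
      exact this.symm))
    let y4 := E.mk' 0 c4
    let x4 := E'.mk' 0 ((E.s' : ℤ) • w4)
    have hy4 : y4 ∈ X.gr m := (E.mem _ _).2 ⟨by rw [E.p_mk]; exact zero_mem _, by rwa [E.q_mk]⟩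
    have hx4 : x4 ∈ X'.gr (m - 1) := (E'.mem _ _).2 ⟨by rw [E'.p_mk]; exact zero_mem _, by
      rw [E'.q_mk, hj, show m - 1 + E.j = m + E.j - 1 by ring]; exact zsmul_mem hw4 _⟩
    have e8 : X.d y4 = 0 := E.ext _ (by rw [E.p_d, E.p_mk, map_zero, smul_zero])
      (by rw [E.q_d, E.p_mk, E.q_mk, map_zero, add_zero, dc4, smul_zero])
    have e9 : X'.d x4 = Z - u.f y3 - u.f y4 := E'.ext'
      (by rw [E'.p_d, E'.p_mk, map_zero, smul_zero, map_sub, e7, pu, E.p_mk, map_zero, sub_zero])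
      (by rw [E'.q_d, E'.p_mk, E'.q_mk, map_zero, add_zero, map_zsmul, hs', usm, ew4, ← ql,
        map_sub l.f, fz, hlu, map_sub _ _ (u.f y4), qu y4, E.q_mk])
    refine ⟨y1 + y2 + y3 + y4, add_mem (add_mem (add_mem hy1 hy2) hy3') hy4, ?_, x2 + x4,
      add_mem hx2 hx4, ?_⟩
    · simp only [map_add, e6, e8, ← hY]
      abel
    · simp only [map_add, e9, ← hZ]
      abel
  intro m
  refine ⟨?_, fun x hx hd => ?_⟩
  · rintro y hy hd ⟨x, hx, e⟩
    obtain ⟨y', hy', e', -⟩ := sur (m - 1) x hx y (by simpa using hy) hd (by rw [← l.comm, e, hlu])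
    exact ⟨y', hy', e'⟩
  · exact sur m x hx 0 (zero_mem _) (map_zero _) (by rw [← l.comm, hd, map_zero, map_zero])

theorem qis_iff_rq {X Y : GD} (u : Hom Y X) : Qis u ↔ RQ u.f LinearMap.id := Iff.rfl

/-- The five lemma for quasi-isomorphisms. -/
theorem Ex.qis {X P Q X' P' Q' : GD} (E : Ex X P Q) (E' : Ex X' P' Q') (hi : E'.i = E.i)
    (hj : E'.j = E.j) (hs : E'.s = E.s) (hs' : E'.s' = E.s') (u : Hom X X') {a : Hom P P'}
    {b : Hom Q Q'} (pu : ∀ x, E'.p (u.f x) = a.f (E.p x)) (qu : ∀ x, E'.q (u.f x) = b.f (E.q x))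
    (ha : Qis a) (hb : Qis b) : Qis u :=
  E.rq E' hi hj u (Hom.id _) (fun _ => rfl) (fun _ => rfl) (la := LinearMap.id)
    (lb := LinearMap.id) hs hs' pu qu (fun _ => rfl) (fun _ => rfl) ((qis_iff_rq a).1 ha)
    ((qis_iff_rq b).1 hb)

/-! ### Cones and twisted matrices -/

/-- The cone of the right multiplication, as an extension. -/
def RM.ex (P : RM A) (F : CZ A) : Ex (P.cone F).toGD P.toGD P.toGD where
  p := LinearMap.proj 0
  q := LinearMap.proj 1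
  mk' a b := ![a, b]
  p_mk _ _ := rfl
  q_mk _ _ := rfl
  ext x h h' := funext fun k => by
    fin_cases k
    · exact h
    · exact h'
  i := 0
  j := -1
  mem m x := by rw [add_zero]; exact P.cone_mem F m x
  s := 1
  s' := 1
  φ := - (P.ra F.x).comp P.sg
  p_d x := (P.cone_d0 F x).trans (one_smul _ _).symm
  q_d x := (P.cone_d1 F x).trans (by simp [sub_eq_add_neg])

/-- The columns `(a, b)`, `d (a, b) = (d a + F b, - d b)`. -/
abbrev col (F : CZ A) : GD := Cone (M := A.G) (N := A.G)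
  ⟨LinearMap.mulLeft ℂ F.x, fun a => by
    change F.x * A.d a = A.d (F.x * a)
    rw [A.leib, F.d, F.sg, zero_mul, zero_add], fun m a h => by
    simpa using A.mul_gr 0 m _ a F.gr h⟩

/-- The columns, as an extension. -/
def colEx (F : CZ A) : Ex (col F) A.G A.G where
  p := LinearMap.snd ℂ _ _
  q := LinearMap.fst ℂ _ _
  mk' a b := (b, a)
  p_mk _ _ := rfl
  q_mk _ _ := rfl
  ext _ h h' := Prod.ext h' h
  i := 1
  j := 0
  mem m x := by rw [add_zero]; exact and_comm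
  s := -1
  s' := 1
  φ := LinearMap.mulLeft ℂ F.x
  p_d x := by simp
  q_d x := by simp

/-- The column `l` of a matrix. -/
def TwA.cl (F : CZ A) (l : Fin 2) : (TwA F).R →ₗ[ℂ] A.R × A.R where
  toFun a := (TwA.m a 0 l, TwA.m a 1 l)
  map_add' _ _ := rfl
  map_smul' _ _ := rfl

/-- The twisted matrices, as an extension of the columns. -/
def twEx (F : CZ A) : Ex (TwA F).G (col F) (col F) where
  p := TwA.cl F 0
  q := TwA.cl F 1
  mk' a b := TwA.of F !![a.1, b.1; a.2, b.2]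
  p_mk _ _ := rfl
  q_mk _ _ := rfl
  ext _ h h' := TwA.ext4 (F := F) (congrArg Prod.fst h) (congrArg Prod.fst h') (congrArg Prod.snd h)
    (congrArg Prod.snd h')
  i := 0
  j := -1
  mem m (x : (TwA F).R) := by
    refine (TwA.mem4 m x).trans ?_
    change _ ↔ (TwA.m x 0 0 ∈ A.gr (m + 0) ∧ TwA.m x 1 0 ∈ A.gr (m + 0 + 1)) ∧
      (TwA.m x 0 1 ∈ A.gr (m + -1) ∧ TwA.m x 1 1 ∈ A.gr (m + -1 + 1))
    rw [add_zero, neg_add_cancel_right, ← sub_eq_add_neg]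
    tauto
  s := 1
  s' := 1
  φ := (- (LinearMap.mulRight ℂ F.x).comp A.sg.toLinearMap).prodMap
    ((LinearMap.mulRight ℂ F.x).comp A.sg.toLinearMap)
  p_d x := (Prod.ext (TwA.d00 x) (TwA.d10 x)).trans (one_smul _ _).symm
  q_d x := (Prod.ext ((TwA.d01 x).trans (sub_eq_add_neg _ _)) (TwA.d11 x)).trans
    (congrArg (· + _) (one_smul ℤ ((col F).d (TwA.cl F 1 x))).symm)

section Tw1

variable (φ : NHom A B) {F : CZ A} {F' : CZ B} (hl : ∀ a, φ.f (F.x * a) = F'.x * φ.f a)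
  (hr : ∀ a, φ.f (a * F.x) = φ.f a * F'.x)

theorem NHom.tw1_e : (φ.tw1 F F' hl hr).e = TwA.sc F' φ.e := by
  refine TwA.ext4 ?_ ?_ ?_ ?_ <;> simp [NHom.e, NHom.tw1_m, TwA.sc_m]

theorem NHom.tw1_sc (a : A.R) : (φ.tw1 F F' hl hr).f (TwA.sc F a) = TwA.sc F' (φ.f a) := by
  refine TwA.ext4 ?_ ?_ ?_ ?_ <;> simp [NHom.tw1_m, TwA.sc_m]

include hl hr in
theorem NHom.F_e : F'.x * φ.e = φ.e * F'.x := by rw [NHom.e, ← hl, ← hr, mul_one, one_mul]

/-- The map `b ↦ e b e`. -/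
def NHom.sw : Hom B.G B.G := (φ.L.comp φ.rm.r1).t

theorem NHom.sw_f (b : B.R) : φ.sw.f b = φ.e * (b * φ.e) := rfl

theorem NHom.sw_sw (b : B.R) : φ.sw.f (φ.sw.f b) = φ.sw.f b := by
  have e : φ.e * φ.e = φ.e := φ.e_mul 1
  rw [φ.sw_f, φ.sw_f, mul_assoc, mul_assoc, e, ← mul_assoc, e]

theorem NHom.sw_φ (a : A.R) : φ.sw.f (φ.f a) = φ.f a := φ.L_j a

theorem morH_iff : MorH φ ↔ RQ (X := B.G) (Y := A.G) φ.f φ.sw.f := Iff.rfl

/-- The homomorphism of twisted matrices inherits the property. -/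
theorem MorH.tw1 (h : MorH φ) : MorH (φ.tw1 F F' hl hr) := by
  have hc : RQ (X := col F') (Y := col F) (φ.f.prodMap φ.f) (φ.sw.f.prodMap φ.sw.f) :=
    (colEx F).rq (colEx F') rfl rfl
      ⟨φ.f.prodMap φ.f, fun x => Prod.ext
        ((map_add φ.f _ _).trans (congrArg₂ (· + ·) (φ.comm _) (hl _)))
        ((map_neg φ.f _).trans (congrArg Neg.neg (φ.comm _))),
        fun m x hx => ⟨φ.deg _ _ hx.1, φ.deg _ _ hx.2⟩⟩
      ⟨φ.sw.f.prodMap φ.sw.f, fun x => Prod.ext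
        ((map_add φ.sw.f _ _).trans (congrArg₂ (· + ·) (φ.sw.comm _) (by
          change φ.e * (F'.x * x.2 * φ.e) = F'.x * (φ.e * (x.2 * φ.e))
          rw [← mul_assoc F'.x φ.e, φ.F_e hl hr, mul_assoc, mul_assoc])))
        ((map_neg φ.sw.f _).trans (congrArg Neg.neg (φ.sw.comm _))),
        fun m x hx => ⟨φ.sw.deg _ _ hx.1, φ.sw.deg _ _ hx.2⟩⟩
      (fun x => Prod.ext (φ.sw_φ _) (φ.sw_φ _)) (fun x => Prod.ext (φ.sw_sw _) (φ.sw_sw _))
      rfl rfl (fun _ => rfl) (fun _ => rfl) (fun _ => rfl) (fun _ => rfl) ((morH_iff φ).1 h)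
      ((morH_iff φ).1 h)
  have e : ∀ (x : (TwA F').R) k l,
      TwA.m (F := F') ((φ.tw1 F F' hl hr).sw.f x) k l = φ.sw.f (TwA.m x k l) := by
    intro x k l
    rw [NHom.sw_f, φ.tw1_e]
    exact (Matrix.diagonal_mul (fun _ => φ.e) (TwA.m x * Matrix.diagonal fun _ => φ.e) k l).trans
      (congrArg (φ.e * ·) (Matrix.mul_diagonal (fun _ => φ.e) (TwA.m x) k l))
  exact (twEx F).rq (twEx F') rfl rfl (φ.tw1 F F' hl hr).hom (φ.tw1 F F' hl hr).sw
    (φ.tw1 F F' hl hr).sw_φ (φ.tw1 F F' hl hr).sw_sw (la := φ.sw.f.prodMap φ.sw.f)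
    (lb := φ.sw.f.prodMap φ.sw.f) rfl rfl (fun _ => rfl) (fun _ => rfl)
    (fun x => Prod.ext (e x 0 0) (e x 1 0)) (fun x => Prod.ext (e x 0 1) (e x 1 1)) hc hc

theorem qis_tw1 (h : Qis φ.hom) : Qis (φ.tw1 F F' hl hr).hom := by
  let c : Hom (col F) (col F') := ⟨φ.f.prodMap φ.f, fun x => Prod.ext
    ((map_add φ.f _ _).trans (congrArg₂ (· + ·) (φ.comm _) (hl _)))
    ((map_neg φ.f _).trans (congrArg Neg.neg (φ.comm _))),
    fun m x hx => ⟨φ.deg _ _ hx.1, φ.deg _ _ hx.2⟩⟩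
  have hc : Qis c := (colEx F).qis (colEx F') rfl rfl rfl rfl c (fun _ => rfl) (fun _ => rfl) h h
  exact (twEx F).qis (twEx F') rfl rfl rfl rfl _ (fun _ => rfl) (fun _ => rfl) hc hc

end Tw1

/-- The morphism of cones. -/
def coneH {P : RM A} {P' : RM B} {F : CZ A} {F' : CZ B} (t : Hom P.toGD P'.toGD)
    (h : ∀ p, t.f (P.ra F.x (P.sg p)) = P'.ra F'.x (P'.sg (t.f p))) :
    Hom (P.cone F).toGD (P'.cone F').toGD where
  f := t.f.compLeft (Fin 2)
  comm x := (P'.ex F').ext' ((congrArg t.f (P.cone_d0 F x)).trans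
      ((t.comm _).trans (P'.cone_d0 F' (t.f.compLeft (Fin 2) x)).symm))
    ((congrArg t.f (P.cone_d1 F x)).trans ((map_sub t.f _ _).trans
      ((congrArg₂ (· - ·) (t.comm _) (h _)).trans
        (P'.cone_d1 F' (t.f.compLeft (Fin 2) x)).symm)))
  deg _ _ hx k hk := t.deg _ _ (hx k hk)

theorem qis_coneH {P : RM A} {P' : RM B} {F : CZ A} {F' : CZ B} (t : Hom P.toGD P'.toGD) (h)
    (ht : Qis t) : Qis (coneH (F := F) (F' := F') t h) :=
  (P.ex F).qis (P'.ex F') rfl rfl rfl rfl _ (fun _ => rfl) (fun _ => rfl) ht ht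

section Col

variable {P : RM A} {F : CZ A} (y : P.V) (h0 : y ∈ P.gr 0) (hd : P.d y = 0)
  (hF : P.ra F.x y = 0)

/-- The map `(a, b) ↦ y a`. -/
def colH : Hom (col F) P.toGD where
  f := (P.ra.flip y).comp (LinearMap.fst ℂ _ _)
  comm x := by
    change P.ra (A.d x.1 + F.x * x.2) y = P.d (P.ra x.1 y)
    rw [P.leib, hd, map_zero, zero_add, P.sg_gr 0 y h0, map_add, LinearMap.add_apply, P.ra_mul, hF]
    simp
  deg m x hx := by simpa using P.ra_gr 0 m y _ h0 hx.1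

/-- The map `a ↦ (y, 0) a`. -/
def twH : Hom (TwA F).G (P.cone F).toGD where
  f := LinearMap.pi fun l => (colH y h0 hd hF).f.comp (TwA.cl F l)
  comm (a : (TwA F).R) := (P.ex F).ext'
    ((congrArg (colH y h0 hd hF).f (((twEx F).p_d a).trans (one_smul _ _))).trans
      (((colH y h0 hd hF).comm _).trans (P.cone_d0 F
        fun l => (colH y h0 hd hF).f (TwA.cl F l a)).symm))
    ((congrArg (colH y h0 hd hF).f ((twEx F).q_d a)).trans (by
      refine Eq.trans ?_ (P.cone_d1 F fun l => (colH y h0 hd hF).f (TwA.cl F l a)).symm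
      rw [map_add, map_zsmul, (colH y h0 hd hF).comm]
      change (1 : ℤ) • P.d (P.ra (TwA.m a 0 1) y) + P.ra (- (A.sg (TwA.m a 0 0) * F.x)) y =
        P.d (P.ra (TwA.m a 0 1) y) - P.ra F.x (P.sg (P.ra (TwA.m a 0 0) y))
      rw [P.sg_ra, P.sg_gr 0 y h0, map_neg, LinearMap.neg_apply, P.ra_mul]
      simp [sub_eq_add_neg]))
  deg m a ha := ((P.ex F).mem _ _).2 ⟨(colH y h0 hd hF).deg _ _ (((twEx F).mem m a).1 ha).1,
    (colH y h0 hd hF).deg _ _ (((twEx F).mem m a).1 ha).2⟩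

theorem twH_f (a : (TwA F).R) : (twH y h0 hd hF).f a = (P.cone F).ra a ![y, 0] :=
  funext fun l => Eq.symm ((P.cone_ra F a _ l).trans (by
    change P.ra _ y + P.ra _ 0 = P.ra _ y
    rw [map_zero, add_zero]
    rfl))

/-- If `P` is the cone of the left multiplication, then `(y, 0)` is a free generator. -/
theorem qis_twH (h : Qis (colH y h0 hd hF)) : Qis (twH y h0 hd hF) :=
  (twEx F).qis (P.ex F) rfl rfl rfl rfl _ (fun _ => rfl) (fun _ => rfl) h h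

end Col

/-! ### Diagrams -/

variable {I : Type u} [Category.{v} I] {D DA DB' : DD I} {R : RD I}

theorem DHom.tw_φ (f : DHom DA DB') (T : TD DA) (T' : TD DB') (hl hr ul ur) (i : I) :
    (f.tw T T' hl hr ul ur).φ i = (f.φ i).tw1 _ _ (hl i) (hr i) := rfl

theorem DHom.Over.tw {f : DHom DA DB'} {b : Base DA R} {b' : Base DB' R} (h : f.Over b b')
    (T : TD DA) (T' : TD DB') (hl hr ul ur hF hu hF' hu') :
    (f.tw T T' hl hr ul ur).Over (b.tw T hF hu) (b'.tw T' hF' hu') :=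
  ⟨fun i z => ((f.φ i).tw1_sc (hl i) (hr i) _).trans ((congrArg _ (h.l i z)).trans
      ((map_mul _ _ _).trans (congrArg (· * _) ((f.φ i).tw1_e (hl i) (hr i)).symm))),
    fun i z => ((f.φ i).tw1_sc (hl i) (hr i) _).trans ((congrArg _ (h.r i z)).trans
      ((map_mul _ _ _).trans (congrArg (_ * ·) ((f.φ i).tw1_e (hl i) (hr i)).symm)))⟩

/-- The Morita theorem for cartesian modules, with the reflection as a hypothesis. -/
theorem DHom.eqc' (f : DHom DA DB') {b : Base DA R} {b' : Base DB' R} (h : ∀ i, MorH (f.φ i))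
    (hg : ∀ ⦃X Y : Z0 (mdc DB')⦄ (u : X ⟶ Y), mqis DA (f.Xi.z0.map u) → mqis DB' u)
    (ho : f.Over b b') (hc : ∀ M, Cart b (f.xi M) → Cart b' M) : EQV (wc b) (wc b') :=
  P286EK.eqv_full (X := wm DA) (Y := wm DB') (f.mor' h (t3_mqis DA) (fun _ _ _ h => h)
    fun _ _ u => ⟨fun h i => Img.qis_map ((f.φ i).le_le _) ((f.φ i).le_le _) (mh u i)
      (mh_act u i _) (h i), hg u⟩) (invt_cart b) fun M => ⟨f.cart_xi ho M, hc M⟩

/-- Unital quasi-isomorphisms induce equivalences for the twisted matrix algebras. -/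
theorem DHom.eqc1_tw (f : DHom DA DB') {b : Base DA R} {b' : Base DB' R} (T : TD DA) (T' : TD DB')
    (h1 : ∀ i, (f.φ i).f 1 = 1) (hq : ∀ i, Qis (f.φ i).hom)
    (h : ∀ i z, (f.φ i).f (b.ι i z) = b'.ι i z) (eF : ∀ i, (f.φ i).f (T.F i).x = (T'.F i).x)
    (eu : ∀ {i j : I} (α : i ⟶ j), (f.φ j).f (T.u α) = T'.u α) (hF hu hF' hu') :
    EQV (wc (b.tw T hF hu)) (wc (b'.tw T' hF' hu')) := by
  have hl : ∀ i a, (f.φ i).f ((T.F i).x * a) = (T'.F i).x * (f.φ i).f a := fun i a => by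
    rw [(f.φ i).mul, eF]
  have hr : ∀ i a, (f.φ i).f (a * (T.F i).x) = (f.φ i).f a * (T'.F i).x := fun i a => by
    rw [(f.φ i).mul, eF]
  exact (f.tw T T' hl hr (fun α a => by rw [NHom.mul, eu]) fun α a => by rw [NHom.mul, eu]).eqc1
    (fun i => ((f.φ i).tw1_e (hl i) (hr i)).trans ((congrArg _ (h1 i)).trans (map_one _)))
    (fun i => qis_tw1 _ (hl i) (hr i) (hq i))
    fun i z => ((f.φ i).tw1_sc (hl i) (hr i) _).trans (congrArg _ (h i z))

end

end Vale.Agent.P286EK
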