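import Vale.Agent.P286EK.Mor
import Vale.Agent.P286EG.Ag3

/-!
# Cartesian modules over a diagram of DG algebras; products
-/

namespace Vale.Agent.P286EK

open CategoryTheory Vale.Agent.P286.H353 Vale.Agent.P286E Vale.Agent.P286EG
open Vale.Agent.P286.H847 Vale.Agent.P286.H847.GD Vale.Agent.P286.H710

noncomputable section

universe u v

/-- A diagram of smooth base rings. -/
structure RD (I : Type u) [Category.{v} I] : Type (max 1 u v) where
  C : I → Type
  [cr : ∀ i, CommRing (C i)]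
  [alg : ∀ i, Algebra ℂ (C i)]
  [sm : ∀ i, Algebra.Smooth ℂ (C i)]
  κ : ∀ {i j : I}, (i ⟶ j) → (C i →ₐ[ℂ] C j)

attribute [instance] RD.cr RD.alg RD.sm

variable {I : Type u} [Category.{v} I] {D DA DB' : DD I} {R : RD I}

/-- The base rings map to the closed elements of degree `0`. -/
structure Base (D : DD I) (R : RD I) : Type u where
  ι : ∀ i, R.C i →ₐ[ℂ] (D.A i).R
  gr : ∀ i z, ι i z ∈ (D.A i).gr 0
  d : ∀ i z, (D.A i).d (ι i z) = 0
  τ_ι : ∀ {i j : I} (α : i ⟶ j) z, (D.τ α).f (ι i z) = ι j (R.κ α z)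

theorem sg_zero {A : DGA} {x : A.R} (h : x ∈ A.gr 0) : A.sg x = x := by
  rw [A.sg_gr 0 x h]; simp

/-- A module, as a complex over the base ring. -/
def Base.ag (b : Base D R) (i : I) (N : DGM (D.A i)) : AG (R.C i) where
  G := N.toGD
  fn := N.act.toRingHom.comp (b.ι i).toRingHom
  gr z := (N.lm _ (b.gr i z) (b.d i z)).deg
  d z x := ((N.lm _ (b.gr i z) (b.d i z)).comm x).symm

theorem Base.fn (b : Base D R) (i : I) (N : DGM (D.A i)) (z : R.C i) (x : N.V) :
    (b.ag i N).fn z x = N.act (b.ι i z) x := rfl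

theorem Base.sl (b : Base D R) (M : DM D) {i j : I} (α : i ⟶ j) :
    Sl (R.κ α).toRingHom (b.ag i (M.M i)) (b.ag j (M.M j)) (M.ρ α) := fun z x =>
  (M.ρ_act α _ x).trans (congrArg ((M.M j).act · _) (b.τ_ι α z))

/-- The module is cartesian. -/
def Cart (b : Base D R) (M : DM D) : Prop := ∀ (i j : I) (α : i ⟶ j),
  DB (R.κ α).toRingHom (b.ag i (M.M i)) (b.ag j (M.M j)) (M.ρ α)

/-- The cartesian modules. -/
def wc (b : Base D R) : WD.{max 1 u v, u} := wfull (wm D) (Cart b)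

/-- Comparison of two modules over two diagrams. -/
theorem cart_iff {b : Base DA R} {b' : Base DB' R} {M : DM DA} {M' : DM DB'}
    (u : ∀ i, Hom (M.M i).toGD (M'.M i).toGD) (q : ∀ i, Qis (u i))
    (l : ∀ i z x, (u i).f ((M.M i).act (b.ι i z) x) = (M'.M i).act (b'.ι i z) ((u i).f x))
    (e : ∀ {i j : I} (α : i ⟶ j) x, (u j).f ((M.ρ α).f x) = (M'.ρ α).f ((u i).f x)) :
    Cart b M ↔ Cart b' M' :=
  ⟨fun h i j α => (h i j α).fwd (b'.sl M' α) (l i) (l j) (q i) (q j) (e α),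
    fun h i j α => (h i j α).rev (b.sl M α) (l i) (l j) (q i) (q j) (e α)⟩

theorem invt_cart (b : Base D R) : Invt (mqis D) (Cart b) := fun _ _ a ha =>
  cart_iff (mh a) ha (fun i _ => mh_act a i _) (mh_tr a)

/-- Retracts. -/
theorem cart_retract {b : Base DA R} {b' : Base DB' R} {M : DM DA} {M' : DM DB'}
    (u : ∀ i, Hom (M.M i).toGD (M'.M i).toGD) (r : ∀ i, Hom (M'.M i).toGD (M.M i).toGD)
    (l : ∀ i z x, (u i).f ((M.M i).act (b.ι i z) x) = (M'.M i).act (b'.ι i z) ((u i).f x))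
    (l' : ∀ i z x, (r i).f ((M'.M i).act (b'.ι i z) x) = (M.M i).act (b.ι i z) ((r i).f x))
    (e : ∀ {i j : I} (α : i ⟶ j) x, (u j).f ((M.ρ α).f x) = (M'.ρ α).f ((u i).f x))
    (e' : ∀ {i j : I} (α : i ⟶ j) x, (r j).f ((M'.ρ α).f x) = (M.ρ α).f ((r i).f x))
    (ru : ∀ i x, (r i).f ((u i).f x) = x) (h : Cart b' M') : Cart b M := fun i j α =>
  (h i j α).retract (b.sl M α) (l i) (l j) (l' i) (l' j) (e α) (e' α) (ru i) (ru j)

namespace DHom

variable (f : DHom DA DB') {b : Base DA R} {b' : Base DB' R}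

/-- The homomorphism is compatible with the base rings. -/
structure Over (b : Base DA R) (b' : Base DB' R) : Prop where
  l : ∀ i z, (f.φ i).f (b.ι i z) = (f.φ i).e * b'.ι i z
  r : ∀ i z, (f.φ i).f (b.ι i z) = b'.ι i z * (f.φ i).e

theorem Over.of_one (h1 : ∀ i, (f.φ i).f 1 = 1) (h : ∀ i z, (f.φ i).f (b.ι i z) = b'.ι i z) :
    f.Over b b' :=
  ⟨fun i z => by rw [NHom.e, h1, one_mul, h], fun i z => by rw [NHom.e, h1, mul_one, h]⟩

theorem Over.incl (h : f.Over b b') (M : DM DB') (i : I) (z : R.C i) (x : ((f.xi M).M i).V) :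
    (Img.incl ((f.φ i).le (M.M i))).f (((f.xi M).M i).act (b.ι i z) x) =
      (M.M i).act (b'.ι i z) ((Img.incl ((f.φ i).le (M.M i))).f x) :=
  (congrArg ((M.M i).act · x.1) (h.r i z)).trans (((M.M i).act_mul _ _ _).trans
    (congrArg ((M.M i).act (b'.ι i z)) (Img.fix x)))

theorem cart_xi (h : f.Over b b') (M : DM DB') (hM : Cart b' M) : Cart b (f.xi M) :=
  cart_retract (fun i => Img.incl ((f.φ i).le (M.M i)))
    (fun i => Img.proj _ ((f.φ i).le_le (M.M i))) (h.incl f M)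
    (fun i z x => Subtype.ext (((M.M i).act_mul _ _ x).symm.trans (by
      change (M.M i).act ((f.φ i).e * b'.ι i z) x =
        (M.M i).act ((f.φ i).f (b.ι i z)) ((M.M i).act (f.φ i).e x)
      rw [← DGM.act_mul, (f.φ i).mul_e, h.l])))
    (fun _ _ => rfl)
    (fun α x => Subtype.ext ((M.ρ_act α _ x).trans (by rw [f.τ_e]; rfl)).symm)
    (fun _ x => Subtype.ext (Img.fix x)) hM

theorem cart_xi_one (h1 : ∀ i, (f.φ i).f 1 = 1) (h : f.Over b b') (M : DM DB') :
    Cart b (f.xi M) ↔ Cart b' M :=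
  cart_iff (fun i => Img.incl ((f.φ i).le (M.M i)))
    (fun i => qis_of_inv _ (Img.proj _ ((f.φ i).le_le (M.M i))) (fun x => Subtype.ext (Img.fix x))
      fun x => (congrArg ((M.M i).act · x) (h1 i)).trans ((M.M i).act_one x))
    (h.incl f M) fun _ _ => rfl

/-- The Morita theorem for cartesian modules. -/
theorem eqc (h : ∀ i, MorH (f.φ i)) (hg : ∀ i, GenE (f.φ i).e) (ho : f.Over b b')
    (hc : ∀ M, Cart b (f.xi M) → Cart b' M) : EQV (wc b) (wc b') :=
  f.eqv_full h hg (invt_cart b) fun M => ⟨f.cart_xi ho M, hc M⟩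

/-- Invariance under quasi-isomorphisms of diagrams of DG algebras. -/
theorem eqc1 (h1 : ∀ i, (f.φ i).f 1 = 1) (hq : ∀ i, Qis (f.φ i).hom)
    (h : ∀ i z, (f.φ i).f (b.ι i z) = b'.ι i z) : EQV (wc b) (wc b') :=
  f.eqc (fun i => morH_of_qis _ (h1 i) (hq i))
    (fun i => by rw [NHom.e, h1]; exact genE_one _) (Over.of_one f h1 h)
    fun M => (f.cart_xi_one h1 (Over.of_one f h1 h) M).1

end DHom

end

end Vale.Agent.P286EK
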