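import Vale.Agent.P286EK.Cart

/-!
# Matrix algebras, twisting, the endomorphisms of a cone
-/

set_option linter.unusedSectionVars false

namespace Vale.Agent.P286EK

open CategoryTheory Vale.Agent.P286.H353 Vale.Agent.P286E
open Vale.Agent.P286.H847 Vale.Agent.P286.H847.GD Vale.Agent.P286.H710

noncomputable section

universe u v

variable {A B : DGA}

/-! ### Twisting by a Maurer-Cartan element -/

/-- A Maurer-Cartan element. -/
structure MC (A : DGA) where
  δ : A.R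
  gr : δ ∈ A.gr 1
  mc : A.d δ + δ * δ = 0

theorem MC.sg (δ : MC A) : A.sg δ.δ = - δ.δ := by
  rw [A.sg_gr 1 _ δ.gr]; simp

theorem MC.d (δ : MC A) : A.d δ.δ = - (δ.δ * δ.δ) := eq_neg_of_add_eq_zero_left δ.mc

/-- The twisted differential. -/
def MC.dt (δ : MC A) : A.R →ₗ[ℂ] A.R :=
  A.d + LinearMap.mulLeft ℂ δ.δ - (LinearMap.mulRight ℂ δ.δ).comp A.sg.toLinearMap

theorem MC.dt_apply (δ : MC A) (x : A.R) : δ.dt x = A.d x + δ.δ * x - A.sg x * δ.δ := rfl

/-- The twisted DG algebra. -/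
abbrev DGA.tw (A : DGA) (δ : MC A) : DGA where
  R := A.R
  d := δ.dt
  gr := A.gr
  sg := A.sg
  dd x := by
    simp only [MC.dt_apply, map_add, map_sub, map_mul, A.leib, A.dd, δ.sg, δ.d, A.sg_sg, A.d_sg]
    noncomm_ring
  dgr m x hx := sub_mem (add_mem (A.dgr m x hx) (add_comm 1 m ▸ A.mul_gr 1 m _ x δ.gr hx))
    (A.mul_gr m 1 _ _ (A.sg_mem hx) δ.gr)
  sg_gr := A.sg_gr
  leib a b := by
    simp only [MC.dt_apply, A.leib, map_mul]
    noncomm_ring
  mul_gr := A.mul_gr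
  one_gr := A.one_gr
  int := A.int

/-- The twisted right module. -/
abbrev RM.tw (P : RM A) (δ : MC A) : RM (A.tw δ) where
  V := P.V
  d := P.d - (P.ra δ.δ).comp P.sg
  dd x := by
    simp only [LinearMap.sub_apply, LinearMap.comp_apply, map_sub, P.dd, P.leib, P.sg_ra, P.sg_sg,
      δ.sg, δ.d, map_neg, LinearMap.neg_apply, P.ra_mul, P.sg_d]
    abel
  gr := P.gr
  dgr m x hx := sub_mem (P.dgr m x hx) (P.ra_gr m 1 _ _ (P.toSGD.sg_mem hx) δ.gr)
  sg := P.sg
  sg_sg := P.sg_sg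
  sg_d x := by
    simp only [LinearMap.sub_apply, LinearMap.comp_apply, map_sub, P.sg_ra, δ.sg, map_neg,
      LinearMap.neg_apply, P.sg_d]
    abel
  sg_gr := P.sg_gr
  ra := P.ra
  ra_mul := P.ra_mul
  leib a p := by
    simp only [LinearMap.sub_apply, LinearMap.comp_apply, map_sub, map_add, P.leib, P.sg_ra,
      MC.dt_apply, P.ra_mul, LinearMap.add_apply]
    abel
  sg_ra := P.sg_ra
  ra_gr := P.ra_gr

/-! ### Matrices -/

section Mat

variable {ι : Type} [Fintype ι] [DecidableEq ι] (w : ι → ℤ)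

/-- The sign of an index. -/
def sn (k : ι) : ℤ := ((w k).negOnePow : ℤ)

theorem sn_sq (k : ι) : sn w k * sn w k = 1 := neg1_sq _

theorem sn_sub (n : ℤ) (k l : ι) :
    sn w k * sn w l * ((n + w l - w k).negOnePow : ℤ) = (n.negOnePow : ℤ) := by
  rw [Int.negOnePow_sub, Int.negOnePow_add, Units.val_mul, Units.val_mul, ← sn, ← sn]
  linear_combination ((n.negOnePow : ℤ) * sn w l * sn w l) * sn_sq w k +
    (n.negOnePow : ℤ) * sn_sq w l

theorem sn_sub' (n : ℤ) (l : ι) : sn w l * ((n - w l).negOnePow : ℤ) = (n.negOnePow : ℤ) := by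
  rw [Int.negOnePow_sub, Units.val_mul, ← sn]
  linear_combination (n.negOnePow : ℤ) * sn_sq w l

/-- An entrywise operation on matrices. -/
def mlin {V W : Type} [AddCommGroup V] [Module ℂ V] [AddCommGroup W] [Module ℂ W]
    (f : ι → ι → V →ₗ[ℂ] W) : Matrix ι ι V →ₗ[ℂ] Matrix ι ι W where
  toFun a := Matrix.of fun k l => f k l (a k l)
  map_add' _ _ := Matrix.ext fun k l => map_add (f k l) _ _
  map_smul' c _ := Matrix.ext fun k l => map_smul (f k l) c _

omit [Fintype ι] [DecidableEq ι] in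
theorem mlin_apply {V W : Type} [AddCommGroup V] [Module ℂ V] [AddCommGroup W] [Module ℂ W]
    (f : ι → ι → V →ₗ[ℂ] W) (a : Matrix ι ι V) (k l : ι) : mlin f a k l = f k l (a k l) := rfl

/-- The grading of the matrices. -/
def mgr (A : DGA) (n : ℤ) : Submodule ℂ (Matrix ι ι A.R) where
  carrier := {a | ∀ k l, a k l ∈ A.gr (n + w k - w l)}
  add_mem' ha hb k l := add_mem (ha k l) (hb k l)
  zero_mem' _ _ := zero_mem _
  smul_mem' c _ ha k l := Submodule.smul_mem _ c (ha k l)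

theorem single_mem {n : ℤ} {k l : ι} {x : A.R} (h : x ∈ A.gr (n + w k - w l)) :
    Matrix.single k l x ∈ mgr w A n := fun k' l' => by
  by_cases e : k = k' ∧ l = l'
  · obtain ⟨rfl, rfl⟩ := e
    rwa [Matrix.single_apply_same]
  · rw [Matrix.single_apply_of_ne _ _ _ _ _ e]
    exact zero_mem _

/-- The matrices with entries in a DG algebra; the index `k` has the weight `w k`. -/
def Mat (A : DGA) : DGA where
  R := Matrix ι ι A.R
  d := mlin fun k _ => sn w k • A.d
  gr := mgr w A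
  sg := AlgHom.ofLinearMap (mlin fun k l => (sn w k * sn w l) • A.sg.toLinearMap)
    (Matrix.ext fun k l => by
      by_cases h : k = l
      · subst h
        rw [mlin_apply, sn_sq, one_smul, Matrix.one_apply_eq]
        exact map_one A.sg
      · simp [mlin_apply, h])
    fun a b => Matrix.ext fun k l => by
      simp only [mlin_apply, Matrix.mul_apply, LinearMap.smul_apply, AlgHom.toLinearMap_apply,
        map_sum, map_mul, smul_mul_smul_comm]
      refine Finset.sum_congr rfl fun m _ => congrArg (· • _) ?_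
      linear_combination (- sn w k * sn w l) * sn_sq w m
  dd a := Matrix.ext fun k l => by
    change sn w k • A.d (sn w k • A.d (a k l)) = 0
    rw [map_zsmul, A.dd, smul_zero, smul_zero]
  dgr m a ha k l := zsmul_mem (A.G.dgr' (by omega) (ha k l)) _
  sg_gr m a ha := Matrix.ext fun k l => by
    change (sn w k * sn w l) • A.sg (a k l) = (m.negOnePow : ℤ) • a k l
    rw [A.sg_gr _ _ (ha k l), smul_smul, mul_comm (sn w k), sn_sub]
  leib a b := Matrix.ext fun k l => by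
    simp only [AlgHom.ofLinearMap_apply, Matrix.add_apply, mlin_apply, Matrix.mul_apply,
      LinearMap.smul_apply, AlgHom.toLinearMap_apply, map_sum, A.leib, smul_add,
      smul_mul_assoc, ← Finset.sum_add_distrib, mul_smul_comm, smul_smul]
    refine Finset.sum_congr rfl fun m _ => congrArg (_ + ·) (congrArg (· • _) ?_)
    linear_combination (- sn w k) * sn_sq w m
  mul_gr i j a b ha hb k l := by
    rw [Matrix.mul_apply]
    refine sum_mem fun m _ => ?_
    have := A.mul_gr _ _ _ _ (ha k m) (hb m l)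
    rwa [show i + w k - w m + (j + w m - w l) = i + j + w k - w l by ring] at this
  one_gr k l := by
    by_cases h : k = l
    · subst h
      simpa using A.one_gr
    · rw [Matrix.one_apply_ne h]
      exact zero_mem _
  int := by
    obtain ⟨P⟩ := Prj.nonempty (M := A.G) A.int
    refine Prj.internal (M := ⟨Matrix ι ι A.R, 0, fun _ => rfl, mgr w A, fun _ _ _ => zero_mem _⟩)
      ⟨fun n => mlin fun k l => P.P (n + w k - w l), fun n a k l => P.mem _ _,
        fun n a ha => Matrix.ext fun k l => P.eq _ _ (ha k l),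
        fun m n h a ha => Matrix.ext fun k l => P.ne _ _ (by omega) _ (ha k l), ?_⟩
    refine eq_top_iff.2 fun a _ => ?_
    rw [Matrix.matrix_eq_sum_single a]
    refine sum_mem fun k _ => sum_mem fun l _ => ?_
    induction a k l using A.ind with
    | zero => rw [Matrix.single_zero]; exact zero_mem _
    | hom m x hx => exact Submodule.mem_iSup_of_mem (m - w k + w l) (single_mem w (by
        rwa [show m - w k + w l + w k - w l = m by ring]))
    | add x y hx hy => rw [Matrix.single_add]; exact add_mem hx hy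

/-- The matrix of an element. -/
def Mat.m {w : ι → ℤ} (a : (Mat w A).R) : Matrix ι ι A.R := a

/-- The element of a matrix. -/
def Mat.of (a : Matrix ι ι A.R) : (Mat w A).R := a

theorem Mat.d_m (a : (Mat w A).R) (k l : ι) :
    Mat.m ((Mat w A).d a) k l = sn w k • A.d (Mat.m a k l) := rfl

theorem Mat.sg_m (a : (Mat w A).R) (k l : ι) :
    Mat.m ((Mat w A).sg a) k l = (sn w k * sn w l) • A.sg (Mat.m a k l) := rfl

theorem Mat.mul_m (a b : (Mat w A).R) : Mat.m (a * b) = Mat.m a * Mat.m b := rfl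

theorem Mat.mem (n : ℤ) (a : (Mat w A).R) :
    a ∈ (Mat w A).gr n ↔ ∀ k l, Mat.m a k l ∈ A.gr (n + w k - w l) := Iff.rfl

/-- The entrywise homomorphism. -/
def NHom.mat (φ : NHom A B) : NHom (Mat w A) (Mat w B) where
  f := mlin fun _ _ => φ.f
  mul a b := Matrix.ext fun k l => by
    change φ.f ((Mat.m a * Mat.m b) k l) = ∑ m, φ.f (Mat.m a k m) * φ.f (Mat.m b m l)
    simp only [Matrix.mul_apply, map_sum, φ.mul]
  comm a := Matrix.ext fun k l => (map_zsmul φ.f _ _).trans (congrArg (sn w k • ·) (φ.comm _))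
  deg m a ha k l := φ.deg _ _ (ha k l)

/-- The row vectors. -/
abbrev RM.row (P : RM A) : RM (Mat w A) where
  V := ι → P.V
  d := P.d.compLeft ι
  dd x := funext fun l => P.dd (x l)
  gr m := Submodule.pi Set.univ fun l => P.gr (m - w l)
  dgr m x hx l hl := P.toGD.dgr' (by omega) (hx l hl)
  sg := LinearMap.pi fun l => sn w l • P.sg.comp (LinearMap.proj l)
  sg_sg x := funext fun l => by
    change sn w l • P.sg (sn w l • P.sg (x l)) = x l
    rw [map_zsmul, smul_smul, sn_sq, one_smul, P.sg_sg]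
  sg_d x := funext fun l => by
    change sn w l • P.sg (P.d (x l)) = - P.d (sn w l • P.sg (x l))
    rw [map_zsmul, P.sg_d, smul_neg]
  sg_gr m x hx := funext fun l => by
    change sn w l • P.sg (x l) = (m.negOnePow : ℤ) • x l
    rw [P.sg_gr _ _ (hx l trivial), smul_smul, sn_sub']
  ra :=
    { toFun := fun a => LinearMap.pi fun m => ∑ l, (P.ra (Mat.m a l m)).comp (LinearMap.proj l)
      map_add' := fun a b => LinearMap.ext fun x => funext fun m => by
        change (∑ l, (P.ra (Mat.m a l m + Mat.m b l m)).comp (LinearMap.proj l)) x = _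
        simp [Finset.sum_add_distrib]
      map_smul' := fun c a => LinearMap.ext fun x => funext fun m => by
        change (∑ l, (P.ra (c • Mat.m a l m)).comp (LinearMap.proj l)) x = _
        simp [Finset.smul_sum] }
  ra_mul a b x := funext fun m => by
    simp only [LinearMap.coe_mk, AddHom.coe_mk, LinearMap.pi_apply, LinearMap.sum_apply,
      LinearMap.comp_apply, LinearMap.proj_apply, Mat.mul_m, Matrix.mul_apply, map_sum, P.ra_mul]
    exact Finset.sum_comm
  leib a x := funext fun m => by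
    simp only [LinearMap.coe_mk, AddHom.coe_mk, LinearMap.pi_apply, LinearMap.sum_apply,
      LinearMap.comp_apply, LinearMap.proj_apply, LinearMap.compLeft_apply, Function.comp_apply,
      Pi.add_apply, map_sum, P.leib, Mat.d_m, map_zsmul, LinearMap.smul_apply, smul_smul, sn_sq,
      one_smul, Finset.sum_add_distrib]
  sg_ra a x := funext fun m => by
    simp only [LinearMap.coe_mk, AddHom.coe_mk, LinearMap.pi_apply, LinearMap.sum_apply,
      LinearMap.comp_apply, LinearMap.proj_apply, map_sum, P.sg_ra, Mat.sg_m, map_zsmul,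
      LinearMap.smul_apply, smul_smul, Finset.smul_sum]
    refine Finset.sum_congr rfl fun l _ => congrArg (· • _) ?_
    linear_combination (- sn w m) * sn_sq w l
  ra_gr m i x a hx ha l _ := by
    simp only [LinearMap.coe_mk, AddHom.coe_mk, LinearMap.pi_apply, LinearMap.sum_apply,
      LinearMap.comp_apply, LinearMap.proj_apply]
    refine sum_mem fun k _ => ?_
    have := P.ra_gr _ _ _ _ (hx k trivial) (ha k l)
    rwa [show m - w k + (i + w k - w l) = m + i - w l by ring] at this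

theorem RM.row_ra (P : RM A) (a : (Mat w A).R) (x : ι → P.V) (m : ι) :
    (P.row w).ra a x m = ∑ l, P.ra (Mat.m a l m) (x l) := by
  simp only [LinearMap.coe_mk, AddHom.coe_mk, LinearMap.pi_apply, LinearMap.sum_apply,
    LinearMap.comp_apply, LinearMap.proj_apply]

end Mat

/-! ### The endomorphisms of the cone of a closed element -/

/-- A closed element of degree `0`. -/
structure CZ (A : DGA) where
  x : A.R
  gr : x ∈ A.gr 0
  d : A.d x = 0

theorem CZ.sg (F : CZ A) : A.sg F.x = F.x := sg_zero F.gr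

/-- The weights. -/
def w2 : Fin 2 → ℤ := ![0, 1]

@[simp] theorem w2_zero : w2 0 = 0 := rfl
@[simp] theorem w2_one : w2 1 = 1 := rfl
@[simp] theorem sn_zero : sn w2 0 = 1 := rfl
@[simp] theorem sn_one : sn w2 1 = -1 := rfl

/-- The Maurer-Cartan element `F E₀₁`. -/
def CZ.mc (F : CZ A) : MC (Mat w2 A) where
  δ := Mat.of w2 (Matrix.single 0 1 F.x)
  gr := single_mem w2 (by simpa using F.gr)
  mc := Matrix.ext fun k l : Fin 2 => by
    have h : (Matrix.single 0 1 F.x * Matrix.single 0 1 F.x : Matrix (Fin 2) (Fin 2) A.R) = 0 :=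
      Matrix.single_mul_single_of_ne _ _ _ _ (by decide) _
    refine (congrArg₂ (· + ·) (?_ : sn w2 k • A.d ((Matrix.single 0 1 F.x :
      Matrix (Fin 2) (Fin 2) A.R) k l) = 0) (congrFun (congrFun h k) l)).trans (add_zero _)
    fin_cases k <;> fin_cases l <;> simp [F.d]

/-- The matrices of size two, twisted by `F E₀₁`. -/
def TwA (F : CZ A) : DGA := (Mat w2 A).tw F.mc

namespace TwA

variable {F : CZ A}

/-- The matrix of an element. -/
def m (a : (TwA F).R) : Matrix (Fin 2) (Fin 2) A.R := a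

/-- The element of a matrix. -/
def of (F : CZ A) : Matrix (Fin 2) (Fin 2) A.R ≃ₐ[ℂ] (TwA F).R := AlgEquiv.refl

@[simp] theorem m_of (a : Matrix (Fin 2) (Fin 2) A.R) : m (of F a) = a := rfl
theorem of_m (a : (TwA F).R) : of F (m a) = a := rfl
theorem ext {a b : (TwA F).R} (h : ∀ k l, m a k l = m b k l) : a = b := Matrix.ext h

theorem ext4 {a b : (TwA F).R} (h00 : m a 0 0 = m b 0 0) (h01 : m a 0 1 = m b 0 1)
    (h10 : m a 1 0 = m b 1 0) (h11 : m a 1 1 = m b 1 1) : a = b := ext fun k l => by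
  fin_cases k <;> fin_cases l <;> assumption

@[simp] theorem m_mul (a b : (TwA F).R) : m (a * b) = m a * m b := rfl
@[simp] theorem m_add (a b : (TwA F).R) : m (a + b) = m a + m b := rfl
@[simp] theorem m_sub (a b : (TwA F).R) : m (a - b) = m a - m b := rfl
@[simp] theorem m_neg (a : (TwA F).R) : m (- a) = - m a := rfl
@[simp] theorem m_smul (c : ℂ) (a : (TwA F).R) : m (c • a) = c • m a := rfl
@[simp] theorem m_one : m (1 : (TwA F).R) = 1 := rfl
@[simp] theorem m_zero : m (0 : (TwA F).R) = 0 := rfl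

theorem mem (n : ℤ) (a : (TwA F).R) :
    a ∈ (TwA F).gr n ↔ ∀ k l, m a k l ∈ A.gr (n + w2 k - w2 l) := Iff.rfl

theorem mem4 (n : ℤ) (a : (TwA F).R) : a ∈ (TwA F).gr n ↔ m a 0 0 ∈ A.gr n ∧
    m a 0 1 ∈ A.gr (n - 1) ∧ m a 1 0 ∈ A.gr (n + 1) ∧ m a 1 1 ∈ A.gr n := by
  rw [mem]
  simp only [Fin.forall_fin_two, w2_zero, w2_one, add_zero, sub_zero, add_sub_cancel_right,
    and_assoc]

theorem sg_m (a : (TwA F).R) (k l : Fin 2) :
    m ((TwA F).sg a) k l = (sn w2 k * sn w2 l) • A.sg (m a k l) := rfl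

theorem d_m (a : (TwA F).R) (k l : Fin 2) : m ((TwA F).d a) k l = sn w2 k • A.d (m a k l) +
    (Matrix.single 0 1 F.x * m a : Matrix _ _ _) k l -
      (m ((TwA F).sg a) * Matrix.single 0 1 F.x : Matrix _ _ _) k l := rfl

theorem d00 (a : (TwA F).R) : m ((TwA F).d a) 0 0 = A.d (m a 0 0) + F.x * m a 1 0 := by
  simp [d_m]

theorem d01 (a : (TwA F).R) :
    m ((TwA F).d a) 0 1 = A.d (m a 0 1) + F.x * m a 1 1 - A.sg (m a 0 0) * F.x := by
  simp [d_m, sg_m]

theorem d10 (a : (TwA F).R) : m ((TwA F).d a) 1 0 = - A.d (m a 1 0) := by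
  simp [d_m]

theorem d11 (a : (TwA F).R) :
    m ((TwA F).d a) 1 1 = - A.d (m a 1 1) + A.sg (m a 1 0) * F.x := by
  simp [d_m, sg_m]

end TwA

open TwA in
/-- The entrywise homomorphism, conjugated with the diagonal matrix `(1, u)`. -/
def NHom.tw (φ : NHom A B) (F : CZ A) (F' : CZ B) (u : B.Rˣ) (h0 : u.1 ∈ B.gr 0)
    (h0' : u⁻¹.1 ∈ B.gr 0) (hd : B.d u.1 = 0) (hl : ∀ a, φ.f (F.x * a) = F'.x * u * φ.f a)
    (hr : ∀ a, φ.f (a * F.x) = φ.f a * (F'.x * u)) : NHom (TwA F) (TwA F') where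
  f := mlin fun k l => ((LinearMap.mulLeft ℂ (![1, u] k : B.Rˣ).1).comp
    (LinearMap.mulRight ℂ (![1, u] l : B.Rˣ)⁻¹.1)).comp φ.f
  mul a b := Matrix.ext fun k l => by
    change (![1, u] k : B.Rˣ).1 * (φ.f ((m a * m b) k l) * (![1, u] l : B.Rˣ)⁻¹.1) =
      ∑ n, ((![1, u] k : B.Rˣ).1 * (φ.f (m a k n) * (![1, u] n : B.Rˣ)⁻¹.1)) *
        ((![1, u] n : B.Rˣ).1 * (φ.f (m b n l) * (![1, u] l : B.Rˣ)⁻¹.1))
    simp only [Matrix.mul_apply, map_sum, φ.mul, Finset.sum_mul, Finset.mul_sum, mul_assoc,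
      Units.inv_mul_cancel_left]
  comm a := by
    have e1 := sg_zero h0
    have e2 := sg_zero h0'
    have hd' : B.d u⁻¹.1 = 0 := by
      have := B.leib u.1 u⁻¹.1
      rw [Units.mul_inv, B.d_one, hd, zero_mul, zero_add, e1] at this
      exact (Units.mul_right_eq_zero u).1 this.symm
    refine ext4 ?_ ?_ ?_ ?_
    · rw [d00]
      change (1 : B.R) * (φ.f (m ((TwA F).d a) 0 0) * 1) =
        B.d (1 * (φ.f (m a 0 0) * 1)) + F'.x * (u * (φ.f (m a 1 0) * 1))
      simp only [d00, one_mul, mul_one, map_add, φ.comm, hl, mul_assoc]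
    · rw [d01]
      change (1 : B.R) * (φ.f (m ((TwA F).d a) 0 1) * u⁻¹.1) = B.d (1 * (φ.f (m a 0 1) * u⁻¹.1)) +
        F'.x * (u * (φ.f (m a 1 1) * u⁻¹.1)) - B.sg (1 * (φ.f (m a 0 0) * 1)) * F'.x
      simp only [d01, one_mul, mul_one, map_add, map_sub, φ.comm, hl, hr, mul_assoc, B.leib, hd',
        mul_zero, add_zero, φ.sg, add_mul, sub_mul, Units.mul_inv]
    · rw [d10]
      change u.1 * (φ.f (m ((TwA F).d a) 1 0) * 1) = - B.d (u * (φ.f (m a 1 0) * 1))
      simp only [d10, mul_one, map_neg, φ.comm, B.leib, hd, e1, zero_mul, zero_add, mul_neg]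
    · rw [d11]
      change u.1 * (φ.f (m ((TwA F).d a) 1 1) * u⁻¹.1) =
        - B.d (u * (φ.f (m a 1 1) * u⁻¹.1)) + B.sg (u * (φ.f (m a 1 0) * 1)) * F'.x
      simp only [d11, mul_one, map_add, map_neg, φ.comm, hr, mul_assoc, B.leib, hd, hd', e1,
        mul_zero, add_zero, zero_mul, zero_add, φ.sg, add_mul, mul_add, neg_mul, mul_neg,
        Units.mul_inv, map_mul]
  deg n a ha k l := by
    have h1 : ∀ k : Fin 2, (![1, u] k : B.Rˣ).1 ∈ B.gr 0 := fun k => by
      fin_cases k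
      · exact B.one_gr
      · exact h0
    have h2 : ∀ k : Fin 2, (![1, u] k : B.Rˣ)⁻¹.1 ∈ B.gr 0 := fun k => by
      fin_cases k
      · exact B.one_gr
      · exact h0'
    have := B.mul_gr _ _ _ _ (h1 k) (B.mul_gr _ _ _ _ (φ.deg _ _ (ha k l)) (h2 l))
    rwa [zero_add, add_zero] at this

theorem NHom.tw_m (φ : NHom A B) (F : CZ A) (F' : CZ B) (u : B.Rˣ) (h0 h0' hd hl hr)
    (a : (TwA F).R) (k l : Fin 2) : TwA.m ((φ.tw F F' u h0 h0' hd hl hr).f a) k l =
      (![1, u] k : B.Rˣ).1 * (φ.f (TwA.m a k l) * (![1, u] l : B.Rˣ)⁻¹.1) := rfl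

/-- The entrywise linear map. -/
def twl (f : A.R →ₗ[ℂ] B.R) (F : CZ A) (F' : CZ B) : (TwA F).R →ₗ[ℂ] (TwA F').R :=
  mlin fun _ _ => f

theorem twl_m (f : A.R →ₗ[ℂ] B.R) (F : CZ A) (F' : CZ B) (a : (TwA F).R) (k l : Fin 2) :
    TwA.m (twl f F F' a) k l = f (TwA.m a k l) := rfl

/-- The entrywise homomorphism. -/
def NHom.tw1 (φ : NHom A B) (F : CZ A) (F' : CZ B) (hl : ∀ a, φ.f (F.x * a) = F'.x * φ.f a)
    (hr : ∀ a, φ.f (a * F.x) = φ.f a * F'.x) : NHom (TwA F) (TwA F') where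
  f := twl φ.f F F'
  mul := (φ.mat w2).mul
  comm a := by
    refine TwA.ext4 ?_ ?_ ?_ ?_ <;>
      simp only [twl_m, TwA.d00, TwA.d01, TwA.d10, TwA.d11, map_add, map_sub, map_neg, φ.comm, hl, hr,
        φ.sg]
  deg := (φ.mat w2).deg

theorem NHom.tw1_m (φ : NHom A B) (F : CZ A) (F' : CZ B) (hl hr) (a : (TwA F).R) (k l : Fin 2) :
    TwA.m ((φ.tw1 F F' hl hr).f a) k l = φ.f (TwA.m a k l) := rfl

/-- The rows `(p, q)`, `d (p, q) = (d p, d q - sg p F)`. -/
abbrev RM.cone (P : RM A) (F : CZ A) : RM (TwA F) := (P.row w2).tw F.mc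

theorem RM.cone_ra (P : RM A) (F : CZ A) (a : (TwA F).R) (x : Fin 2 → P.V) (k : Fin 2) :
    (P.cone F).ra a x k = P.ra (TwA.m a 0 k) (x 0) + P.ra (TwA.m a 1 k) (x 1) :=
  (P.row_ra w2 a x k).trans (Fin.sum_univ_two _)

theorem RM.cone_sg (P : RM A) (F : CZ A) (x : Fin 2 → P.V) (k : Fin 2) :
    (P.cone F).sg x k = sn w2 k • P.sg (x k) := rfl

theorem RM.cone_mem (P : RM A) (F : CZ A) (m : ℤ) (x : Fin 2 → P.V) :
    x ∈ (P.cone F).gr m ↔ x 0 ∈ P.gr m ∧ x 1 ∈ P.gr (m - 1) := by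
  simp [Submodule.mem_pi, Fin.forall_fin_two]

theorem RM.cone_d0 (P : RM A) (F : CZ A) (x : Fin 2 → P.V) : (P.cone F).d x 0 = P.d (x 0) := by
  change P.d (x 0) - (P.cone F).ra (TwA.of F (Matrix.single 0 1 F.x)) ((P.cone F).sg x) 0 = _
  rw [RM.cone_ra]
  simp

theorem RM.cone_d1 (P : RM A) (F : CZ A) (x : Fin 2 → P.V) :
    (P.cone F).d x 1 = P.d (x 1) - P.ra F.x (P.sg (x 0)) := by
  change P.d (x 1) - (P.cone F).ra (TwA.of F (Matrix.single 0 1 F.x)) ((P.cone F).sg x) 1 = _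
  rw [RM.cone_ra, RM.cone_sg, RM.cone_sg]
  simp

/-! ### Diagrams -/

variable {I : Type u} [Category.{v} I] {D DA DB' : DD I} {R : RD I}

/-- Closed elements `F i` with `τ (F i) = F j * u`. -/
structure TD (D : DD I) : Type (max u v) where
  F : ∀ i, CZ (D.A i)
  u : ∀ {i j : I}, (i ⟶ j) → (D.A j).Rˣ
  gr : ∀ {i j : I} (α : i ⟶ j), (u α).1 ∈ (D.A j).gr 0
  gr' : ∀ {i j : I} (α : i ⟶ j), (u α)⁻¹.1 ∈ (D.A j).gr 0
  d : ∀ {i j : I} (α : i ⟶ j), (D.A j).d (u α).1 = 0
  u_id : ∀ i, u (𝟙 i) = 1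
  u_comp : ∀ {i j k : I} (α : i ⟶ j) (β : j ⟶ k), (u (α ≫ β)).1 = u β * (D.τ β).f (u α)
  τ_F : ∀ {i j : I} (α : i ⟶ j), (D.τ α).f (F i).x = (F j).x * u α

/-- The diagonal entries of the conjugating matrix. -/
def TD.g (T : TD D) {i j : I} (α : i ⟶ j) (k : Fin 2) : (D.A j).Rˣ := ![1, T.u α] k

@[simp] theorem TD.g_zero (T : TD D) {i j : I} (α : i ⟶ j) : T.g α 0 = 1 := rfl
@[simp] theorem TD.g_one (T : TD D) {i j : I} (α : i ⟶ j) : T.g α 1 = T.u α := rfl

theorem TD.g_id (T : TD D) (i : I) (k : Fin 2) : T.g (𝟙 i) k = 1 := by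
  fin_cases k
  · rfl
  · exact T.u_id i

theorem TD.g_comp (T : TD D) {i j k : I} (α : i ⟶ j) (β : j ⟶ k) (l : Fin 2) :
    T.g (α ≫ β) l = T.g β l * Units.map (D.τ β).f.toMonoidHom (T.g α l) := by
  fin_cases l
  · exact ((one_mul _).trans (map_one _)).symm
  · exact Units.ext (T.u_comp α β)

/-- The transition map. -/
def TD.n (T : TD D) {i j : I} (α : i ⟶ j) : NHom (TwA (T.F i)) (TwA (T.F j)) :=
  (D.τ α).n.tw _ _ (T.u α) (T.gr α) (T.gr' α) (T.d α)
    (fun a => (map_mul (D.τ α).f _ a).trans (congrArg (· * _) (T.τ_F α)))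
    fun a => (map_mul (D.τ α).f a _).trans (congrArg (_ * ·) (T.τ_F α))

theorem TD.n_m (T : TD D) {i j : I} (α : i ⟶ j) (a : (TwA (T.F i)).R) (k l : Fin 2) :
    TwA.m ((T.n α).f a) k l = T.g α k * ((D.τ α).f (TwA.m a k l) * (T.g α l)⁻¹.1) := rfl

/-- The diagram of the twisted matrix algebras. -/
def Tw (T : TD D) : DD I where
  A i := TwA (T.F i)
  τ α := ⟨AlgHom.ofLinearMap (T.n α).f (TwA.ext fun k l => by
      rw [T.n_m]
      by_cases h : k = l
      · subst h
        simp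
      · simp [h]) (T.n α).mul, (T.n α).comm, (T.n α).deg⟩
  τ_id i a := TwA.ext fun k l => (T.n_m _ a k l).trans (by simp [T.g_id, D.τ_id])
  τ_comp α β a := TwA.ext fun k l => (T.n_m _ a k l).trans (by
    refine Eq.trans ?_ (T.n_m β ((T.n α).f a) k l).symm
    simp only [T.n_m, T.g_comp, D.τ_comp, map_mul, mul_inv_rev, Units.val_mul, mul_assoc,
      ← map_inv, Units.coe_map]
    rfl)

theorem Tw_m (T : TD D) {i j : I} (α : i ⟶ j) (a : (TwA (T.F i)).R) (k l : Fin 2) :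
    TwA.m (((Tw T).τ α).f a) k l = T.g α k * ((D.τ α).f (TwA.m a k l) * (T.g α l)⁻¹.1) := rfl

/-- The scalar matrices. -/
def TwA.sc (F : CZ A) : A.R →ₐ[ℂ] (TwA F).R := (TwA.of F).toAlgHom.comp (Matrix.scalarAlgHom _ ℂ)

theorem TwA.sc_m (F : CZ A) (a : A.R) (k l : Fin 2) :
    TwA.m (TwA.sc F a) k l = if k = l then a else 0 := Matrix.diagonal_apply _ _ _

theorem TwA.sc_mem (F : CZ A) {n : ℤ} {a : A.R} (h : a ∈ A.gr n) :
    TwA.sc F a ∈ (TwA F).gr n := by
  simp [TwA.mem4, TwA.sc_m, h]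

theorem TwA.d_sc (F : CZ A) {a : A.R} (hd : A.d a = 0) (h : F.x * a = A.sg a * F.x) :
    (TwA F).d (TwA.sc F a) = 0 := by
  refine TwA.ext4 ?_ ?_ ?_ ?_ <;> simp [TwA.d00, TwA.d01, TwA.d10, TwA.d11, TwA.sc_m, hd, h]

theorem TD.n_sc (T : TD D) {i j : I} (α : i ⟶ j) (a : (D.A i).R)
    (h : (T.u α).1 * (D.τ α).f a = (D.τ α).f a * T.u α) :
    (T.n α).f (TwA.sc (T.F i) a) = TwA.sc (T.F j) ((D.τ α).f a) := by
  have e : (T.u α).1 * ((D.τ α).f a * (T.u α)⁻¹.1) = (D.τ α).f a := by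
    rw [← mul_assoc, h, Units.mul_inv_cancel_right]
  refine TwA.ext4 ?_ ?_ ?_ ?_ <;> simp [TD.n_m, TwA.sc_m, e]

/-- The base rings, as scalar matrices. -/
def Base.tw (b : Base D R) (T : TD D) (hF : ∀ i z, (T.F i).x * b.ι i z = b.ι i z * (T.F i).x)
    (hu : ∀ {i j : I} (α : i ⟶ j) z, (T.u α).1 * b.ι j z = b.ι j z * T.u α) : Base (Tw T) R where
  ι i := (TwA.sc (T.F i)).comp (b.ι i)
  gr i z := TwA.sc_mem _ (b.gr i z)
  d i z := TwA.d_sc _ (b.d i z) ((hF i z).trans (congrArg (· * _) (sg_zero (b.gr i z)).symm))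
  τ_ι {i _} α z := (T.n_sc α (b.ι i z) (by rw [b.τ_ι, hu])).trans (congrArg _ (b.τ_ι α z))

theorem Base.tw_ι (b : Base D R) (T : TD D) (hF hu) (i : I) (z : R.C i) :
    (b.tw T hF hu).ι i z = TwA.sc (T.F i) (b.ι i z) := rfl

/-- The entrywise homomorphism of diagrams. -/
def DHom.tw (f : DHom DA DB') (T : TD DA) (T' : TD DB')
    (hl : ∀ i a, (f.φ i).f ((T.F i).x * a) = (T'.F i).x * (f.φ i).f a)
    (hr : ∀ i a, (f.φ i).f (a * (T.F i).x) = (f.φ i).f a * (T'.F i).x)
    (ul : ∀ {i j : I} (α : i ⟶ j) a, (f.φ j).f (T.u α * a) = T'.u α * (f.φ j).f a)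
    (ur : ∀ {i j : I} (α : i ⟶ j) a, (f.φ j).f (a * T.u α) = (f.φ j).f a * T'.u α) :
    DHom (Tw T) (Tw T') where
  φ i := (f.φ i).tw1 _ _ (hl i) (hr i)
  nat {i j} α a := by
    have e : ∀ a, (f.φ j).f (a * (T.u α)⁻¹.1) = (f.φ j).f a * (T'.u α)⁻¹.1 := fun a => by
      rw [Units.eq_mul_inv_iff_mul_eq, ← ur, Units.inv_mul_cancel_right]
    have h : ∀ a : (TwA (T.F i)).R, (T'.n α).f (twl (f.φ i).f (T.F i) (T'.F i) a) =
        twl (f.φ j).f (T.F j) (T'.F j) ((T.n α).f a) := fun a => by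
      refine TwA.ext4 ?_ ?_ ?_ ?_ <;> simp [TD.n_m, twl_m, f.nat, ul, e]
    exact h a

end

end Vale.Agent.P286EK
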