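import Vale.Agent.P286.H710.TenQ
import Vale.Agent.P286.H353.GlueG

/-!
# DG algebras, DG modules, diagrams of these
-/

namespace Vale.Agent.P286EK

open CategoryTheory Vale.Agent.P286.H847 Vale.Agent.P286.H353 Vale.Agent.P286.H710

noncomputable section

universe u v

/-- A DG algebra. -/
structure DGA : Type 1 where
  R : Type
  [ring : Ring R]
  [alg : Algebra ℂ R]
  d : R →ₗ[ℂ] R
  gr : ℤ → Submodule ℂ R
  sg : R →ₐ[ℂ] R
  dd : ∀ x, d (d x) = 0
  dgr : ∀ (m : ℤ) (x : R), x ∈ gr m → d x ∈ gr (m + 1)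
  sg_gr : ∀ (m : ℤ) (x : R), x ∈ gr m → sg x = (m.negOnePow : ℤ) • x
  leib : ∀ a b, d (a * b) = d a * b + sg a * d b
  mul_gr : ∀ (i j : ℤ) (a b : R), a ∈ gr i → b ∈ gr j → a * b ∈ gr (i + j)
  one_gr : (1 : R) ∈ gr 0
  int : DirectSum.IsInternal gr

attribute [instance] DGA.ring DGA.alg

theorem neg1_sq (m : ℤ) : (m.negOnePow : ℤ) * (m.negOnePow : ℤ) = 1 := by
  rw [← Units.val_mul, Int.units_mul_self, Units.val_one]

theorem neg1_succ (m : ℤ) : ((m + 1).negOnePow : ℤ) = - (m.negOnePow : ℤ) := by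
  rw [Int.negOnePow_succ, Units.val_neg]

theorem neg1_add (m n : ℤ) : ((m + n).negOnePow : ℤ) = (m.negOnePow : ℤ) * (n.negOnePow : ℤ) := by
  rw [Int.negOnePow_add, Units.val_mul]

namespace DGA

variable (A : DGA)

/-- The underlying graded differential space. -/
abbrev G : GD := ⟨A.R, A.d, A.dd, A.gr, A.dgr⟩

theorem ind {Q : A.R → Prop} (zero : Q 0) (hom : ∀ m, ∀ x ∈ A.gr m, Q x)
    (add : ∀ x y, Q x → Q y → Q (x + y)) (x : A.R) : Q x :=
  Prj.ind (M := A.G) (iSup_of_internal (M := A.G) A.int) zero hom add x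

theorem sg_mem {m : ℤ} {x : A.R} (h : x ∈ A.gr m) : A.sg x ∈ A.gr m := by
  rw [A.sg_gr m x h]
  exact zsmul_mem h _

@[simp] theorem sg_sg (x : A.R) : A.sg (A.sg x) = x := by
  induction x using A.ind with
  | zero => simp
  | hom m x hx => rw [A.sg_gr m x hx, map_zsmul, A.sg_gr m x hx, smul_smul, neg1_sq, one_smul]
  | add x y hx hy => rw [map_add, map_add, hx, hy]

theorem sg_d (x : A.R) : A.sg (A.d x) = - A.d (A.sg x) := by
  induction x using A.ind with
  | zero => simp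
  | hom m x hx =>
    rw [A.sg_gr m x hx, A.sg_gr _ _ (A.dgr m x hx), map_zsmul, neg1_succ, neg_smul]
  | add x y hx hy => rw [map_add, map_add, map_add, map_add, hx, hy, neg_add]

theorem d_sg (x : A.R) : A.d (A.sg x) = - A.sg (A.d x) := by rw [A.sg_d, neg_neg]

@[simp] theorem d_one : A.d 1 = 0 := by
  have h := A.leib 1 1
  rw [mul_one, mul_one, map_one A.sg, one_mul] at h
  exact left_eq_add.1 h

/-- The underlying space with its sign operator. -/
abbrev S : SGD where
  toGD := A.G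
  sg := A.sg.toLinearMap
  sg_sg := A.sg_sg
  sg_d := A.sg_d
  sg_gr := A.sg_gr

/-- The power `n` of the sign automorphism. -/
def sz (n : ℤ) : A.R →ₐ[ℂ] A.R := if Even n then AlgHom.id ℂ _ else A.sg

theorem sz_even {n : ℤ} (h : Even n) (w : A.R) : A.sz n w = w := by
  rw [sz, if_pos h]; rfl

theorem sz_odd {n : ℤ} (h : ¬ Even n) (w : A.R) : A.sz n w = A.sg w := by
  rw [sz, if_neg h]

@[simp] theorem sz_zero (w : A.R) : A.sz 0 w = w := A.sz_even (by simp) w

theorem sz_sz (m n : ℤ) (w : A.R) : A.sz m (A.sz n w) = A.sz (m + n) w := by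
  by_cases h1 : Even m <;> by_cases h2 : Even n
  · rw [A.sz_even h1, A.sz_even h2, A.sz_even (h1.add h2)]
  · rw [A.sz_even h1, A.sz_odd h2, A.sz_odd (fun h => h2 ((Int.even_add.1 h).1 h1))]
  · rw [A.sz_odd h1, A.sz_even h2, A.sz_odd (fun h => h1 ((Int.even_add.1 h).2 h2))]
  · rw [A.sz_odd h1, A.sz_odd h2, A.sg_sg, A.sz_even]
    exact Int.even_add.2 ⟨fun h => absurd h h1, fun h => absurd h h2⟩

theorem sz_one (w : A.R) : A.sz 1 w = A.sg w := A.sz_odd (by decide) w

theorem sz_sg (n : ℤ) (w : A.R) : A.sz n (A.sg w) = A.sz (n + 1) w := by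
  rw [← A.sz_one, A.sz_sz]

theorem sg_sz (n : ℤ) (w : A.R) : A.sg (A.sz n w) = A.sz (n + 1) w := by
  rw [← A.sz_one, A.sz_sz, add_comm]

theorem sz_mem (n : ℤ) {m : ℤ} {w : A.R} (hw : w ∈ A.gr m) : A.sz n w ∈ A.gr m := by
  by_cases h : Even n
  · rwa [A.sz_even h]
  · rw [A.sz_odd h]; exact A.sg_mem hw

theorem d_sz (n : ℤ) (w : A.R) : A.d (A.sz n w) = (n.negOnePow : ℤ) • A.sz n (A.d w) := by
  by_cases h : Even n
  · rw [A.sz_even h, A.sz_even h, Int.negOnePow_even n h]
    simp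
  · rw [A.sz_odd h, A.sz_odd h, A.d_sg, Int.negOnePow_odd n (Int.not_even_iff_odd.1 h)]
    simp

/-- An algebra, in degree `0`. -/
def ofAlg (R : Type) [Ring R] [Algebra ℂ R] : DGA where
  R := R
  d := 0
  gr m := if m = 0 then ⊤ else ⊥
  sg := AlgHom.id ℂ R
  dd _ := rfl
  dgr _ _ _ := zero_mem _
  sg_gr m x hx := by
    by_cases h : m = 0
    · subst h; simp
    · rw [if_neg h, Submodule.mem_bot] at hx
      subst hx; simp
  leib a b := by simp
  mul_gr i j a b ha hb := by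
    by_cases h : i = 0
    · by_cases h' : j = 0
      · subst h h'; simp
      · rw [if_neg h', Submodule.mem_bot] at hb
        subst hb; simp
    · rw [if_neg h, Submodule.mem_bot] at ha
      subst ha; simp
  one_gr := by simp
  int := by
    refine Prj.internal (M := ⟨R, 0, fun _ => rfl, fun m => if m = 0 then ⊤ else ⊥,
      fun _ _ _ => zero_mem _⟩) ⟨fun m => if m = 0 then LinearMap.id else 0, ?_, ?_, ?_, ?_⟩
    · intro m x
      by_cases h : m = 0
      · simp [h]
      · simp [h]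
    · intro m x hx
      by_cases h : m = 0
      · simp [h]
      · simp only [if_neg h, Submodule.mem_bot] at hx
        simp [h, hx]
    · intro m n hmn x hx
      by_cases h : m = 0
      · subst h
        simp [hmn.symm]
      · simp only [if_neg h, Submodule.mem_bot] at hx
        simp [hx]
    · exact eq_top_iff.2 (le_iSup_of_le 0 (by simp))

end DGA

/-- A homomorphism of DG algebras which need not preserve the unit. -/
structure NHom (A B : DGA) where
  f : A.R →ₗ[ℂ] B.R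
  mul : ∀ a b, f (a * b) = f a * f b
  comm : ∀ a, f (A.d a) = B.d (f a)
  deg : ∀ (m : ℤ) (a : A.R), a ∈ A.gr m → f a ∈ B.gr m

/-- The morphism of graded differential spaces. -/
def NHom.hom {A B : DGA} (φ : NHom A B) : GD.Hom A.G B.G := ⟨φ.f, φ.comm, φ.deg⟩

theorem NHom.sg {A B : DGA} (φ : NHom A B) (a : A.R) : φ.f (A.sg a) = B.sg (φ.f a) :=
  sgC_of_sup (E := A.S) (E' := B.S) (iSup_of_internal (M := A.G) A.int) φ.hom a

theorem NHom.sz {A B : DGA} (φ : NHom A B) (n : ℤ) (a : A.R) :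
    φ.f (A.sz n a) = B.sz n (φ.f a) := by
  by_cases h : Even n
  · rw [A.sz_even h, B.sz_even h]
  · rw [A.sz_odd h, B.sz_odd h, φ.sg]

/-- The identity. -/
def NHom.id (A : DGA) : NHom A A := ⟨LinearMap.id, fun _ _ => rfl, fun _ => rfl, fun _ _ h => h⟩

/-- A homomorphism of DG algebras. -/
structure AHom (A B : DGA) where
  f : A.R →ₐ[ℂ] B.R
  comm : ∀ a, f (A.d a) = B.d (f a)
  deg : ∀ (m : ℤ) (a : A.R), a ∈ A.gr m → f a ∈ B.gr m

/-- The homomorphism, with the unit forgotten. -/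
def AHom.n {A B : DGA} (φ : AHom A B) : NHom A B := ⟨φ.f.toLinearMap, map_mul φ.f, φ.comm, φ.deg⟩

@[simp] theorem AHom.n_f {A B : DGA} (φ : AHom A B) (a : A.R) : φ.n.f a = φ.f a := rfl

theorem AHom.sg {A B : DGA} (φ : AHom A B) (a : A.R) : φ.f (A.sg a) = B.sg (φ.f a) := φ.n.sg a

theorem AHom.sz {A B : DGA} (φ : AHom A B) (n : ℤ) (a : A.R) :
    φ.f (A.sz n a) = B.sz n (φ.f a) := φ.n.sz n a

/-- A left DG module. -/
structure DGM (A : DGA) : Type 1 extends GD where
  act : A.R →ₐ[ℂ] Module.End ℂ V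
  leib : ∀ a x, d (act a x) = act (A.d a) x + act (A.sg a) (d x)
  act_gr : ∀ (i m : ℤ) (a : A.R) (x : V), a ∈ A.gr i → x ∈ gr m → act a x ∈ gr (i + m)

theorem DGM.act_mul {A : DGA} (N : DGM A) (a b : A.R) (x : N.V) :
    N.act (a * b) x = N.act a (N.act b x) := by rw [map_mul]; rfl

@[simp] theorem DGM.act_one {A : DGA} (N : DGM A) (x : N.V) : N.act 1 x = x := by
  rw [map_one]; rfl

/-- A right DG module; the unit need not act as the identity.  `ra a p` is the product `p a`. -/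
structure RM (A : DGA) : Type 1 extends SGD where
  ra : A.R →ₗ[ℂ] V →ₗ[ℂ] V
  ra_mul : ∀ a b p, ra (a * b) p = ra b (ra a p)
  leib : ∀ a p, d (ra a p) = ra a (d p) + ra (A.d a) (sg p)
  sg_ra : ∀ a p, sg (ra a p) = ra (A.sg a) (sg p)
  ra_gr : ∀ (m i : ℤ) (p : V) (a : A.R), p ∈ gr m → a ∈ A.gr i → ra a p ∈ gr (m + i)

/-- The algebra `B` as a right module over `A`. -/
abbrev NHom.rm {A B : DGA} (φ : NHom A B) : RM A where
  toSGD := B.S
  ra := (LinearMap.mul ℂ B.R).flip.comp φ.f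
  ra_mul a b p := by
    change p * φ.f (a * b) = p * φ.f a * φ.f b
    rw [φ.mul, mul_assoc]
  leib a p := by
    change B.d (p * φ.f a) = B.d p * φ.f a + B.sg p * φ.f (A.d a)
    rw [B.leib, φ.comm]
  sg_ra a p := by
    change B.sg (p * φ.f a) = B.sg p * φ.f (A.sg a)
    rw [map_mul, φ.sg]
  ra_gr m i p a hp ha := B.mul_gr m i p _ hp (φ.deg i a ha)

/-- A diagram of DG algebras. -/
structure DD (I : Type u) [Category.{v} I] : Type (max 1 u v) where
  A : I → DGA
  τ : ∀ {i j : I}, (i ⟶ j) → AHom (A i) (A j)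
  τ_id : ∀ (i : I) (a : (A i).R), (τ (𝟙 i)).f a = a
  τ_comp : ∀ {i j k : I} (α : i ⟶ j) (β : j ⟶ k) (a : (A i).R),
    (τ (α ≫ β)).f a = (τ β).f ((τ α).f a)

variable {I : Type u} [Category.{v} I]

/-- A module over a diagram of DG algebras. -/
structure DM (D : DD I) : Type (max 1 u v) where
  M : ∀ i : I, DGM (D.A i)
  ρ : ∀ {i j : I}, (i ⟶ j) → GD.Hom (M i).toGD (M j).toGD
  ρ_act : ∀ {i j : I} (α : i ⟶ j) (a : (D.A i).R) (x : (M i).V),
    (ρ α).f ((M i).act a x) = (M j).act ((D.τ α).f a) ((ρ α).f x)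
  ρ_id : ∀ (i : I) (x : (M i).V), (ρ (𝟙 i)).f x = x
  ρ_comp : ∀ {i j k : I} (α : i ⟶ j) (β : j ⟶ k) (x : (M i).V),
    (ρ (α ≫ β)).f x = (ρ β).f ((ρ α).f x)

namespace DM

variable {D : DD I}

/-- Cochains of degree `n`. -/
@[ext]
structure Coch (F F' : DM D) (n : ℤ) : Type u where
  f : ∀ i : I, (F.M i).V →ₗ[ℂ] (F'.M i).V
  deg : ∀ (i : I) (m : ℤ) (x : (F.M i).V), x ∈ (F.M i).gr m → f i x ∈ (F'.M i).gr (m + n)
  act : ∀ (i : I) (a : (D.A i).R) (x : (F.M i).V),
    f i ((F.M i).act a x) = (F'.M i).act ((D.A i).sz n a) (f i x)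
  tr : ∀ {i j : I} (α : i ⟶ j) (x : (F.M i).V), f j ((F.ρ α).f x) = (F'.ρ α).f (f i x)

namespace Coch

variable {F F' F'' : DM D} {n : ℤ}

instance : Zero (Coch F F' n) := ⟨⟨fun _ => 0, fun _ _ _ _ => zero_mem _, by simp, by simp⟩⟩
instance : Add (Coch F F' n) := ⟨fun z w => ⟨fun X => z.f X + w.f X,
  fun X m x h => add_mem (z.deg X m x h) (w.deg X m x h), by simp [z.act, w.act],
  by simp [z.tr, w.tr]⟩⟩
instance : Neg (Coch F F' n) := ⟨fun z => ⟨fun X => - z.f X,
  fun X m x h => neg_mem (z.deg X m x h), by simp [z.act], by simp [z.tr]⟩⟩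
instance : Sub (Coch F F' n) := ⟨fun z w => ⟨fun X => z.f X - w.f X,
  fun X m x h => sub_mem (z.deg X m x h) (w.deg X m x h), by simp [z.act, w.act],
  by simp [z.tr, w.tr]⟩⟩
instance : SMul ℂ (Coch F F' n) := ⟨fun c z => ⟨fun X => c • z.f X,
  fun X m x h => Submodule.smul_mem _ c (z.deg X m x h), by simp [z.act], by simp [z.tr]⟩⟩
instance : SMul ℕ (Coch F F' n) := ⟨nsmulRec⟩
instance : SMul ℤ (Coch F F' n) := ⟨zsmulRec⟩

@[simp] theorem zero_f (X : I) : (0 : Coch F F' n).f X = 0 := rfl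
@[simp] theorem add_f (z w : Coch F F' n) (X : I) : (z + w).f X = z.f X + w.f X := rfl
@[simp] theorem neg_f (z : Coch F F' n) (X : I) : (-z).f X = - z.f X := rfl
@[simp] theorem sub_f (z w : Coch F F' n) (X : I) : (z - w).f X = z.f X - w.f X := rfl
@[simp] theorem smul_f (c : ℂ) (z : Coch F F' n) (X : I) : (c • z).f X = c • z.f X := rfl

theorem ext' {z w : Coch F F' n} (h : ∀ X x, z.f X x = w.f X x) : z = w :=
  Coch.ext (funext fun X => LinearMap.ext (h X))

instance : AddCommGroup (Coch F F' n) where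
  add_assoc f g h := by apply ext'; intro X x; simp [add_assoc]
  zero_add f := by apply ext'; intro X x; simp
  add_zero f := by apply ext'; intro X x; simp
  neg_add_cancel f := by apply ext'; intro X x; simp
  add_comm f g := by apply ext'; intro X x; simp [add_comm]
  sub_eq_add_neg f g := by apply ext'; intro X x; simp [sub_eq_add_neg]
  nsmul := nsmulRec
  zsmul := zsmulRec

instance : Module ℂ (Coch F F' n) where
  one_smul f := by apply ext'; intro X x; simp
  mul_smul c c' f := by apply ext'; intro X x; simp [mul_smul]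
  smul_zero c := by apply ext'; intro X x; simp
  smul_add c f g := by apply ext'; intro X x; simp
  add_smul c c' f := by apply ext'; intro X x; simp [add_smul]
  zero_smul f := by apply ext'; intro X x; simp

/-- The identity. -/
def one (F : DM D) : Coch F F 0 :=
  ⟨fun _ => LinearMap.id, fun _ m x h => by simpa using h, fun _ w x => by simp,
    fun _ _ => rfl⟩

/-- The composition (first `z`, then `w`). -/
def cmp {m n p : ℤ} (z : Coch F F' m) (w : Coch F' F'' n) (h : m + n = p) : Coch F F'' p :=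
  ⟨fun X => (w.f X).comp (z.f X), fun X k x hx => by
      have := w.deg X _ _ (z.deg X k x hx)
      rwa [add_assoc, h] at this,
    fun X a x => by
      rw [LinearMap.comp_apply, z.act, w.act, DGA.sz_sz, add_comm n m, h]
      rfl,
    fun φ x => by simp [z.tr, w.tr]⟩

/-- The differential of cochains. -/
def dl {n p : ℤ} (z : Coch F F' n) (h : n + 1 = p) : Coch F F' p :=
  ⟨fun X => (F'.M X).d.comp (z.f X) - (n.negOnePow : ℤ) • (z.f X).comp (F.M X).d,
    fun X k x hx => by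
      have h1 := (F'.M X).toGD.dgr' (n := k + p) (by omega) (z.deg X k x hx)
      have h2 := z.deg X _ _ ((F.M X).dgr k x hx)
      rw [show k + 1 + n = k + p by omega] at h2
      exact sub_mem h1 (zsmul_mem h2 _),
    fun X a x => by
      simp only [LinearMap.sub_apply, LinearMap.comp_apply, LinearMap.smul_apply, z.act,
        (F.M X).leib, (F'.M X).leib, map_add, smul_add, map_sub, map_zsmul]
      rw [DGA.sg_sz, DGA.sz_sg, h, DGA.d_sz, map_zsmul, LinearMap.smul_apply]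
      abel,
    fun {X Y} φ x => by
      simp only [LinearMap.sub_apply, LinearMap.comp_apply, LinearMap.smul_apply, map_sub,
        map_zsmul]
      rw [z.tr, ← (F'.ρ φ).comm, ← (F.ρ φ).comm, z.tr]⟩

end Coch

end DM

variable {D : DD I}

/-- The differential of cochains. -/
def mdl {F F' : DM D} (m n : ℤ) (z : DM.Coch F F' m) : DM.Coch F F' n :=
  if h : m + 1 = n then z.dl h else 0

theorem mdl_eq {F F' : DM D} {m n : ℤ} (h : m + 1 = n) (z : DM.Coch F F' m) :
    mdl m n z = z.dl h := dif_pos h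

theorem mdl_ne {F F' : DM D} {m n : ℤ} (h : ¬ m + 1 = n) (z : DM.Coch F F' m) :
    mdl m n z = 0 := dif_neg h

theorem mdl_f {F F' : DM D} {m n : ℤ} (h : m + 1 = n) (z : DM.Coch F F' m) (X : I)
    (x : (F.M X).V) :
    (mdl m n z).f X x = (F'.M X).d (z.f X x) - (m.negOnePow : ℤ) • z.f X ((F.M X).d x) := by
  rw [mdl_eq h]
  rfl

/-- The DG category of the modules over a diagram of DG algebras. -/
def mdc (D : DD I) : DGC.{max 1 u v, u} where
  Obj := DM D
  Hom F F' n := DM.Coch F F' n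
  one F := DM.Coch.one F
  comp h z w := z.cmp w h
  d m n z := mdl m n z
  one_comp f := DM.Coch.ext' fun _ _ => rfl
  comp_one f := DM.Coch.ext' fun _ _ => rfl
  assoc f g h := DM.Coch.ext' fun _ _ => rfl
  d_one F := DM.Coch.ext' fun X x => by
    rw [mdl_f (zero_add 1)]
    simp [DM.Coch.one]
  d_comp {F F' F''} f g hf hg := DM.Coch.ext' fun X x => by
    rw [mdl_f (zero_add 1)]
    have h1 := congrArg (fun z : DM.Coch F F' 1 => z.f X x) hf
    have h2 := congrArg (fun z : DM.Coch F' F'' 1 => z.f X (f.f X x)) hg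
    simp only [mdl_f (zero_add 1), DM.Coch.zero_f, LinearMap.zero_apply] at h1 h2
    simp only [DM.Coch.cmp, DM.Coch.zero_f, LinearMap.zero_apply, LinearMap.comp_apply]
    rw [Int.negOnePow_zero, Units.val_one, one_smul, sub_eq_zero] at h1 h2 ⊢
    rw [← h1, h2]

/-- The module of an object. -/
def mo (F : Z0 (mdc D)) : DM D := F

/-- The cochain of a closed morphism. -/
def mz {F F' : Z0 (mdc D)} (a : F ⟶ F') : DM.Coch (mo F) (mo F') 0 := zf a

theorem mz_cl {F F' : Z0 (mdc D)} (a : F ⟶ F') : mdl 0 1 (mz a) = 0 := zf_cl a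

/-- The component of a closed morphism. -/
def mh {F F' : Z0 (mdc D)} (a : F ⟶ F') (i : I) :
    GD.Hom ((mo F).M i).toGD ((mo F').M i).toGD where
  f := (mz a).f i
  comm x := by
    have h1 := congrArg (fun z : DM.Coch (mo F) (mo F') 1 => z.f i x) (mz_cl a)
    simp only [mdl_f (zero_add 1), DM.Coch.zero_f, LinearMap.zero_apply] at h1
    rw [Int.negOnePow_zero, Units.val_one, one_smul, sub_eq_zero] at h1
    exact h1.symm
  deg m x hx := by
    have h1 := (mz a).deg i m x hx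
    rwa [add_zero] at h1

theorem mh_act {F F' : Z0 (mdc D)} (a : F ⟶ F') (i : I) (r : (D.A i).R) (x : ((mo F).M i).V) :
    (mh a i).f (((mo F).M i).act r x) = ((mo F').M i).act r ((mh a i).f x) := by
  have h := (mz a).act i r x
  rw [DGA.sz_zero] at h
  exact h

theorem mh_tr {F F' : Z0 (mdc D)} (a : F ⟶ F') {i j : I} (α : i ⟶ j) (x : ((mo F).M i).V) :
    (mh a j).f (((mo F).ρ α).f x) = ((mo F').ρ α).f ((mh a i).f x) := (mz a).tr α x

theorem mh_id (F : Z0 (mdc D)) (i : I) : mh (𝟙 F) i = GD.Hom.id _ := rfl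

theorem mh_comp {F F' F'' : Z0 (mdc D)} (a : F ⟶ F') (b : F' ⟶ F'') (i : I) :
    mh (a ≫ b) i = (mh b i).comp (mh a i) := rfl

theorem m_ext {F F' : Z0 (mdc D)} {a b : F ⟶ F'} (h : ∀ i x, (mh a i).f x = (mh b i).f x) :
    a = b := z_ext (DM.Coch.ext' h)

/-- The quasi-isomorphisms. -/
def mqis (D : DD I) : MorphismProperty (Z0 (mdc D)) := fun _ _ a => ∀ i, GD.Qis (mh a i)

/-- A closed cochain given by its components. -/
def mcoch {F F' : DM D} (u : ∀ i, GD.Hom (F.M i).toGD (F'.M i).toGD)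
    (ha : ∀ (i : I) (a : (D.A i).R) (x : (F.M i).V),
      (u i).f ((F.M i).act a x) = (F'.M i).act a ((u i).f x))
    (ht : ∀ {i j : I} (α : i ⟶ j) (x : (F.M i).V),
      (u j).f ((F.ρ α).f x) = (F'.ρ α).f ((u i).f x)) : DM.Coch F F' 0 where
  f i := (u i).f
  deg i m x hx := by
    rw [add_zero]
    exact (u i).deg m x hx
  act i a x := by rw [DGA.sz_zero, ha]
  tr α x := ht α x

theorem mdl_mcoch {F F' : DM D} (u : ∀ i, GD.Hom (F.M i).toGD (F'.M i).toGD)
    (ha : ∀ (i : I) (a : (D.A i).R) (x : (F.M i).V),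
      (u i).f ((F.M i).act a x) = (F'.M i).act a ((u i).f x))
    (ht : ∀ {i j : I} (α : i ⟶ j) (x : (F.M i).V),
      (u j).f ((F.ρ α).f x) = (F'.ρ α).f ((u i).f x)) : mdl 0 1 (mcoch u ha ht) = 0 :=
  DM.Coch.ext' fun X x => by
    rw [mdl_f (zero_add 1), Int.negOnePow_zero, Units.val_one, one_smul]
    change (F'.M X).d ((u X).f x) - (u X).f ((F.M X).d x) = 0
    rw [(u X).comm, sub_self]

/-- A closed morphism given by its components. -/
def mmk {F F' : DM D} (u : ∀ i, GD.Hom (F.M i).toGD (F'.M i).toGD)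
    (ha : ∀ (i : I) (a : (D.A i).R) (x : (F.M i).V),
      (u i).f ((F.M i).act a x) = (F'.M i).act a ((u i).f x))
    (ht : ∀ {i j : I} (α : i ⟶ j) (x : (F.M i).V),
      (u j).f ((F.ρ α).f x) = (F'.ρ α).f ((u i).f x)) :
    zo (C := mdc D) F ⟶ zo (C := mdc D) F' :=
  zmk (C := mdc D) (X := zo (C := mdc D) F) (Y := zo (C := mdc D) F') (mcoch u ha ht)
    (mdl_mcoch u ha ht)

theorem mh_mmk {F F' : DM D} (u : ∀ i, GD.Hom (F.M i).toGD (F'.M i).toGD)
    (ha : ∀ (i : I) (a : (D.A i).R) (x : (F.M i).V),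
      (u i).f ((F.M i).act a x) = (F'.M i).act a ((u i).f x))
    (ht : ∀ {i j : I} (α : i ⟶ j) (x : (F.M i).V),
      (u j).f ((F.ρ α).f x) = (F'.ρ α).f ((u i).f x)) (i : I) : mh (mmk u ha ht) i = u i := rfl

end

end Vale.Agent.P286EK
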