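import Vale.Agent.P286EK.Tn

/-!
# The two-sided bar construction
-/

namespace Vale.Agent.P286EK

open Vale.Agent.P286.H847 Vale.Agent.P286.H847.GD Vale.Agent.P286.H847.SGD Vale.Agent.P286.H710
open TensorProduct DirectSum U0

noncomputable section

variable {A B C : DGA}

/-- The space `T(sA) ⊗ N` of a module. -/
abbrev UU (N : DGM A) : GD := U0 A N.toGD

section Act

variable (N : DGM A)

/-- The action of the algebra on `T(sA) ⊗ N`. -/
def ua : A.R →ₗ[ℂ] (UU N).V →ₗ[ℂ] (UU N).V where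
  toFun a := (i0 A N.toGD).comp ((N.act a).comp (p0 A N.toGD)) +
    (TensorProduct.lift (σ A N.toGD)).comp
      (((LinearMap.mulLeft ℂ (A.sg a)).rTensor _).comp (Δ A N.toGD))
  map_add' a b := LinearMap.ext fun x => by
    induction x using U0.ind with
    | base n => simp
    | step c x _ => simp [add_mul]
    | add x y hx hy => rw [LinearMap.map_add _ x y, LinearMap.map_add _ x y, hx, hy]
  map_smul' c a := LinearMap.ext fun x => by
    induction x using U0.ind with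
    | base n => simp
    | step c x _ => simp
    | add x y hx hy => rw [LinearMap.map_add _ x y, LinearMap.map_add _ x y, hx, hy]

@[simp] theorem ua_i0 (a : A.R) (n : N.V) :
    ua N a (i0 A N.toGD n) = i0 A N.toGD (N.act a n) := by simp [ua]

@[simp] theorem ua_σ (a c : A.R) (x : (UU N).V) :
    ua N a (σ A N.toGD c x) = σ A N.toGD (A.sg a * c) x := by simp [ua]

theorem ua_mul (a c : A.R) (x : (UU N).V) : ua N (a * c) x = ua N a (ua N c x) := by
  induction x using U0.ind with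
  | base n => simp
  | step e x _ => simp [mul_assoc]
  | add x y hx hy => simp only [map_add, hx, hy]

theorem ua_one (x : (UU N).V) : ua N 1 x = x := by
  induction x using U0.ind with
  | base n => simp
  | step e x _ => simp
  | add x y hx hy => simp only [map_add, hx, hy]

theorem d_ua (a : A.R) (x : (UU N).V) :
    (UU N).d (ua N a x) = ua N (A.d a) x + ua N (A.sg a) ((UU N).d x) := by
  induction x using U0.ind with
  | base n => simp [N.leib]
  | step e x _ => simp [A.leib, A.d_sg]; abel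
  | add x y hx hy => simp only [map_add, hx, hy]; abel

theorem p0_ua (a : A.R) (x : (UU N).V) : p0 A N.toGD (ua N a x) = N.act a (p0 A N.toGD x) := by
  induction x using U0.ind with
  | base n => simp
  | step e x _ => simp
  | add x y hx hy => simp only [map_add, hx, hy]

theorem π_ua (k : ℕ) (a : A.R) (x : (UU N).V) :
    π A N.toGD k (ua N a x) = ua N a (π A N.toGD k x) := by
  induction x using U0.ind with
  | base n => rcases k with _ | k <;> simp
  | step e x _ => rcases k with _ | k <;> simp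
  | add x y hx hy => simp only [map_add, hx, hy]

theorem ua_mem {i j : ℤ} {a : A.R} {x : (UU N).V} (ha : a ∈ A.gr i) (hx : x ∈ (UU N).gr j) :
    ua N a x ∈ (UU N).gr (i + j) :=
  gr_ind (fun j => ((UU N).gr (i + j)).comap (ua N a))
    (fun m n hn => by simpa using i0_mem (N.act_gr i m a n ha hn))
    (fun k l c x hc hx _ => by
      simpa using σ_mem (by omega) (A.mul_gr i k _ c (A.sg_mem ha) hc) hx) hx

/-- The bar differential. -/
def ub : (UU N).V →ₗ[ℂ] (UU N).V := urec 0 (ua N) (-(σ A N.toGD).comp A.sg.toLinearMap)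

@[simp] theorem ub_i0 (n : N.V) : ub N (i0 A N.toGD n) = 0 := urec_i0 _ _ _ n

@[simp] theorem ub_σ (a : A.R) (x : (UU N).V) :
    ub N (σ A N.toGD a x) = ua N a x - σ A N.toGD (A.sg a) (ub N x) := by
  rw [ub, urec_σ, sub_eq_add_neg]
  rfl

theorem ub_ua (a : A.R) (x : (UU N).V) : ub N (ua N a x) = ua N (A.sg a) (ub N x) := by
  induction x using U0.ind with
  | base n => simp
  | step e x _ => simp [ua_mul]
  | add x y hx hy => simp only [map_add, hx, hy]

theorem ub_ub (x : (UU N).V) : ub N (ub N x) = 0 := by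
  induction x using U0.ind with
  | base n => simp
  | step e x h => simp [ub_ua, h]
  | add x y hx hy => simp only [map_add, hx, hy, add_zero]

theorem d_ub (x : (UU N).V) : (UU N).d (ub N x) = - ub N ((UU N).d x) := by
  induction x using U0.ind with
  | base n => simp
  | step e x h => simp [d_ua, h, A.d_sg]; abel
  | add x y hx hy => simp only [map_add, hx, hy, neg_add]

theorem π_ub (k : ℕ) (x : (UU N).V) : π A N.toGD k (ub N x) = ub N (π A N.toGD (k + 1) x) := by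
  induction x using U0.ind generalizing k with
  | base n => simp
  | step e x h =>
    rw [ub_σ, map_sub, π_ua, π_σ, ub_σ]
    rcases k with _ | k <;> simp [h]
  | add x y hx hy => simp only [map_add, hx, hy]

theorem ub_mem {m : ℤ} {x : (UU N).V} (hx : x ∈ (UU N).gr m) : ub N x ∈ (UU N).gr (m + 1) :=
  gr_ind (fun m => ((UU N).gr (m + 1)).comap (ub N)) (fun m n hn => by simp)
    (fun i j a x ha hx h => by
      have h1 := ua_mem N ha hx
      rw [show i + j = i + j - 1 + 1 by omega] at h1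
      simpa using sub_mem h1 (σ_mem (by omega) (A.sg_mem ha) h)) hx

theorem p0_ub_σ (a : A.R) (x : (UU N).V) :
    p0 A N.toGD (ub N (σ A N.toGD a x)) = N.act a (p0 A N.toGD x) := by simp [p0_ua]

end Act

/-- The map on the letters for a cochain of degree `n`. -/
def al (τ : NHom A B) (n : ℤ) : A.R →ₗ[ℂ] B.R :=
  (n.negOnePow : ℤ) • (B.sz n).toLinearMap.comp τ.f

theorem al_apply (τ : NHom A B) (n : ℤ) (a : A.R) :
    al τ n a = (n.negOnePow : ℤ) • B.sz n (τ.f a) := rfl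

theorem al_zero (τ : NHom A B) (a : A.R) : al τ 0 a = τ.f a := by simp [al_apply]

theorem al_mem (τ : NHom A B) (n i : ℤ) (a : A.R) (ha : a ∈ A.gr i) : al τ n a ∈ B.gr i :=
  zsmul_mem (B.sz_mem n (τ.deg i a ha)) _

theorem al_al {τ : NHom A B} {τ' : NHom B C} {τ'' : NHom A C} (h : ∀ a, τ'.f (τ.f a) = τ''.f a)
    {m n p : ℤ} (hp : m + n = p) (a : A.R) : al τ' n (al τ m a) = al τ'' p a := by
  rw [al_apply, al_apply, al_apply, map_zsmul, map_zsmul, τ'.sz, h, C.sz_sz, smul_smul,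
    ← neg1_add, add_comm n m, hp]

section Mp

variable {N : DGM A} {N' : DGM B} (τ : NHom A B) (n : ℤ) (u : N.V →ₗ[ℂ] N'.V)

theorem mp_ua (hu : ∀ a x, u (N.act a x) = N'.act (B.sz n (τ.f a)) (u x)) (a : A.R)
    (x : (UU N).V) : mp (al τ n) u (ua N a x) = ua N' (B.sz n (τ.f a)) (mp (al τ n) u x) := by
  induction x using U0.ind with
  | base y => simp [hu]
  | step e x _ =>
    rw [ua_σ, mp_σ, mp_σ, ua_σ, al_apply, al_apply, τ.mul, map_mul, τ.sg, B.sz_sg, B.sg_sz,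
      mul_smul_comm]
  | add x y hx hy => simp only [map_add, hx, hy]

theorem ub_mp (hu : ∀ a x, u (N.act a x) = N'.act (B.sz n (τ.f a)) (u x)) (x : (UU N).V) :
    ub N' (mp (al τ n) u x) = (n.negOnePow : ℤ) • mp (al τ n) u (ub N x) := by
  induction x using U0.ind with
  | base y => simp
  | step e x h =>
    rw [mp_σ, ub_σ, ub_σ, map_sub, mp_ua τ n u hu, mp_σ, h, al_apply, al_apply, τ.sg, B.sz_sg,
      map_zsmul, map_zsmul, map_zsmul, B.sg_sz, smul_sub]
    rfl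
  | add x y hx hy => simp only [map_add, hx, hy, smul_add]

theorem d_mp {N N' : GD} (u u' : N.V →ₗ[ℂ] N'.V)
    (hu : ∀ y, u' y = N'.d (u y) - (n.negOnePow : ℤ) • u (N.d y)) (x : (U0 A N).V) :
    (U0 B N').d (mp (al τ n) u x) =
      (n.negOnePow : ℤ) • mp (al τ n) u ((U0 A N).d x) + mp (al τ (n + 1)) u' x := by
  induction x using U0.ind with
  | base y => simp [hu]
  | step e x h =>
    have e1 : B.d (al τ n e) = (n.negOnePow : ℤ) • al τ n (A.d e) := by
      rw [al_apply, al_apply, map_zsmul, B.d_sz, τ.comm]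
    have e2 : B.sg (al τ n e) = al τ n (A.sg e) := by
      rw [al_apply, al_apply, map_zsmul, τ.sg, B.sz_sg, B.sg_sz]
    have e3 : al τ (n + 1) e = - al τ n (A.sg e) := by
      rw [al_apply, al_apply, τ.sg, B.sz_sg, neg1_succ, neg_smul]
    rw [mp_σ, d_σ, d_σ, h, e1, e2, mp_σ, e3]
    simp only [map_add, map_sub, map_neg, map_zsmul, mp_σ, LinearMap.smul_apply,
      LinearMap.neg_apply, smul_sub, smul_neg]
    abel
  | add x y hx hy => simp only [map_add, hx, hy, smul_add]; abel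

end Mp

/-- The power `n` of the sign operator. -/
def ssz (E : SGD) (n : ℤ) : E.V →ₗ[ℂ] E.V := if Even n then LinearMap.id else E.sg

theorem ssz_even {E : SGD} {n : ℤ} (h : Even n) (w : E.V) : ssz E n w = w := by
  rw [ssz, if_pos h]; rfl

theorem ssz_odd {E : SGD} {n : ℤ} (h : ¬ Even n) (w : E.V) : ssz E n w = E.sg w := by
  rw [ssz, if_neg h]

@[simp] theorem ssz_zero {E : SGD} (w : E.V) : ssz E 0 w = w := ssz_even (by simp) w

theorem ssz_ssz {E : SGD} (m n : ℤ) (w : E.V) : ssz E m (ssz E n w) = ssz E (m + n) w := by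
  by_cases h1 : Even m <;> by_cases h2 : Even n
  · rw [ssz_even h1, ssz_even h2, ssz_even (h1.add h2)]
  · rw [ssz_even h1, ssz_odd h2, ssz_odd (fun h => h2 ((Int.even_add.1 h).1 h1))]
  · rw [ssz_odd h1, ssz_even h2, ssz_odd (fun h => h1 ((Int.even_add.1 h).2 h2))]
  · rw [ssz_odd h1, ssz_odd h2, E.sg_sg, ssz_even]
    exact Int.even_add.2 ⟨fun h => absurd h h1, fun h => absurd h h2⟩

theorem ssz_one {E : SGD} (w : E.V) : ssz E 1 w = E.sg w := ssz_odd (by decide) w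

theorem ssz_sg {E : SGD} (n : ℤ) (w : E.V) : ssz E n (E.sg w) = ssz E (n + 1) w := by
  rw [← ssz_one, ssz_ssz]

theorem sg_ssz {E : SGD} (n : ℤ) (w : E.V) : E.sg (ssz E n w) = ssz E (n + 1) w := by
  rw [← ssz_one, ssz_ssz, add_comm]

theorem ssz_mem {E : SGD} (n : ℤ) {m : ℤ} {w : E.V} (hw : w ∈ E.gr m) : ssz E n w ∈ E.gr m := by
  by_cases h : Even n
  · rwa [ssz_even h]
  · rw [ssz_odd h]; exact E.sg_mem hw

theorem d_ssz {E : SGD} (n : ℤ) (w : E.V) :
    E.d (ssz E n w) = (n.negOnePow : ℤ) • ssz E n (E.d w) := by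
  by_cases h : Even n
  · rw [ssz_even h, ssz_even h, Int.negOnePow_even n h]
    simp
  · rw [ssz_odd h, ssz_odd h, E.sg_d, Int.negOnePow_odd n (Int.not_even_iff_odd.1 h)]
    simp

theorem ssz_comm {E E' : SGD} {f : E.V →ₗ[ℂ] E'.V} (h : ∀ p, f (E.sg p) = E'.sg (f p)) (n : ℤ)
    (p : E.V) : f (ssz E n p) = ssz E' n (f p) := by
  by_cases hn : Even n
  · rw [ssz_even hn, ssz_even hn]
  · rw [ssz_odd hn, ssz_odd hn, h]

theorem RM.ssz_ra (P : RM A) (n : ℤ) (a : A.R) (p : P.V) :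
    ssz P.toSGD n (P.ra a p) = P.ra (A.sz n a) (ssz P.toSGD n p) := by
  by_cases hn : Even n
  · rw [ssz_even hn, ssz_even hn, A.sz_even hn]
  · rw [ssz_odd hn, ssz_odd hn, A.sz_odd hn, P.sg_ra]

section Bar

variable (P : RM A) (N : DGM A)

/-- The first letter acts on the right module. -/
def nu : P.V ⊗[ℂ] (UU N).V →ₗ[ℂ] P.V ⊗[ℂ] (UU N).V :=
  ((TensorProduct.lift P.ra.flip).rTensor _).comp
    ((TensorProduct.assoc ℂ P.V A.R (UU N).V).symm.toLinearMap.comp
      (TensorProduct.map P.sg (Δ A N.toGD)))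

@[simp] theorem nu_i0 (p : P.V) (n : N.V) : nu P N (p ⊗ₜ[ℂ] i0 A N.toGD n) = 0 := by simp [nu]

@[simp] theorem nu_σ (p : P.V) (a : A.R) (x : (UU N).V) :
    nu P N (p ⊗ₜ[ℂ] σ A N.toGD a x) = P.ra a (P.sg p) ⊗ₜ[ℂ] x := by simp [nu]

variable {N} in
theorem bind {W : Type} [AddCommGroup W] [Module ℂ W] {Q : W ⊗[ℂ] (UU N).V → Prop}
    (base : ∀ p n, Q (p ⊗ₜ[ℂ] i0 A N.toGD n)) (step : ∀ p a x, Q (p ⊗ₜ[ℂ] σ A N.toGD a x))
    (add : ∀ x y, Q x → Q y → Q (x + y)) (z : W ⊗[ℂ] (UU N).V) : Q z := by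
  induction z using TensorProduct.induction_on with
  | zero => simpa using base 0 0
  | add x y hx hy => exact add x y hx hy
  | tmul p x =>
    induction x using U0.ind with
    | base n => exact base p n
    | step a x _ => exact step p a x
    | add x y hx hy => rw [tmul_add]; exact add _ _ hx hy

/-- The outer differential. -/
def bp : P.V ⊗[ℂ] (UU N).V →ₗ[ℂ] P.V ⊗[ℂ] (UU N).V := TensorProduct.map P.sg (ub N) - nu P N

theorem bp_tmul (p : P.V) (x : (UU N).V) :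
    bp P N (p ⊗ₜ[ℂ] x) = P.sg p ⊗ₜ[ℂ] ub N x - nu P N (p ⊗ₜ[ℂ] x) := rfl

theorem nu_ua (p : P.V) (a : A.R) (x : (UU N).V) :
    nu P N (p ⊗ₜ[ℂ] ua N a x) = nu P N (P.ra a p ⊗ₜ[ℂ] x) := by
  induction x using U0.ind with
  | base n => simp
  | step c x _ => simp [P.ra_mul, P.sg_ra]
  | add x y hx hy => simp only [map_add, tmul_add, hx, hy]

theorem nu_mem {i j : ℤ} {p : P.V} {x : (UU N).V} (hp : p ∈ P.gr i) (hx : x ∈ (UU N).gr j) :
    nu P N (p ⊗ₜ[ℂ] x) ∈ tgr P.toGD (UU N) (i + j + 1) :=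
  gr_ind (fun j => (tgr P.toGD (UU N) (i + j + 1)).comap
      ((nu P N).comp (TensorProduct.mk ℂ _ _ p))) (fun m n hn => by simp)
    (fun k l a x ha hx _ => by
      simpa using tmul_mem (E := P.toGD) (by omega)
        (P.ra_gr i k _ a (P.toSGD.sg_mem hp) ha) hx) hx

/-- The outer differential, as a perturbation. -/
def barP : Pert (tens P.toSGD (UU N)) where
  p := bp P N
  π k := (π A N.toGD k).lTensor P.V
  p_gr m z hz := map_tgr (E := P.toGD) (E' := P.toGD) (F := UU N) (F' := UU N) (bp P N)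
    (fun i j p x hij hp hx => by
      rw [bp_tmul, ← hij]
      exact sub_mem (tmul_mem (by omega) (P.toSGD.sg_mem hp) (ub_mem N hx)) (nu_mem P N hp hx)) hz
  π_gr k m z hz := map_tgr (E := P.toGD) (E' := P.toGD) (F := UU N) (F' := UU N) _
    (fun i j p x hij hp hx => tmul_mem hij hp (π_mem k hx)) hz
  dp z := by
    change td P.toSGD (UU N) (bp P N z) = - bp P N (td P.toSGD (UU N) z)
    induction z using bind with
    | base p n => simp [bp_tmul, td_tmul]
    | step p a x =>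
      simp only [td_tmul, bp_tmul, map_add, map_sub, d_ub, P.sg_sg, P.sg_d, nu_σ, tmul_neg,
        neg_tmul, P.leib, add_tmul, P.sg_ra, map_neg]
      simp only [d_σ, tmul_sub, tmul_neg, map_sub, map_neg, nu_σ, P.sg_sg]
      abel
    | add x y hx hy => simp only [map_add, hx, hy, neg_add]
  pp z := by
    change bp P N (bp P N z) = 0
    induction z using bind with
    | base p n => simp [bp_tmul]
    | step p a x =>
      simp only [bp_tmul, map_sub, ub_ub, tmul_zero, nu_σ, P.sg_ra, P.sg_sg]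
      simp only [ub_σ, tmul_sub, map_sub, nu_σ, nu_ua, P.sg_sg]
      abel
    | add x y hx hy => simp only [map_add, hx, hy, add_zero]
  fin z := by
    induction z using TensorProduct.induction_on with
    | zero => exact ⟨0, fun _ _ => map_zero _⟩
    | tmul p x =>
      obtain ⟨n, h⟩ := π_lev x
      exact ⟨n, fun k hk => by simp [(h k hk).1]⟩
    | add x y hx hy =>
      obtain ⟨n, hx⟩ := hx
      obtain ⟨n', hy⟩ := hy
      exact ⟨max n n', fun k hk => by
        rw [map_add, hx k (le_of_max_le_left hk), hy k (le_of_max_le_right hk), add_zero]⟩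
  sep z h := by
    have h1 : ∀ z : P.V ⊗[ℂ] (UU N).V, ∃ n, ∀ k, n ≤ k →
        ∑ l ∈ Finset.range k, (π A N.toGD l).lTensor P.V z = z := by
      intro z
      induction z using TensorProduct.induction_on with
      | zero => exact ⟨0, fun _ _ => by simp⟩
      | tmul p x =>
        obtain ⟨n, h⟩ := π_lev x
        exact ⟨n, fun k hk => by simp [← tmul_sum, (h k hk).2]⟩
      | add x y hx hy =>
        obtain ⟨n, hx⟩ := hx
        obtain ⟨n', hy⟩ := hy
        exact ⟨max n n', fun k hk => by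
          simp [Finset.sum_add_distrib, hx k (le_of_max_le_left hk), hy k (le_of_max_le_right hk)]⟩
    obtain ⟨n, hn⟩ := h1 z
    rw [← hn n le_rfl]
    exact Finset.sum_eq_zero fun l _ => h l
  ππ k l z := by
    induction z using TensorProduct.induction_on with
    | zero => simp
    | tmul p x =>
      simp only [LinearMap.lTensor_tmul, π_π]
      split_ifs <;> simp
    | add x y hx hy =>
      rw [map_add, map_add, hx, hy]
      split_ifs <;> simp
  πd k z := by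
    change (π A N.toGD k).lTensor P.V (td P.toSGD (UU N) z) =
      td P.toSGD (UU N) ((π A N.toGD k).lTensor P.V z)
    induction z using TensorProduct.induction_on with
    | zero => simp
    | tmul p x => simp only [td_tmul, map_add, LinearMap.lTensor_tmul, π_d]
    | add x y hx hy => simp only [map_add, hx, hy]
  πp k z := by
    change (π A N.toGD k).lTensor P.V (bp P N z) = bp P N ((π A N.toGD (k + 1)).lTensor P.V z)
    induction z using bind with
    | base p n => simp [bp_tmul]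
    | step p a x =>
      simp only [bp_tmul, map_sub, LinearMap.lTensor_tmul, π_ub, nu_σ, π_σ]
    | add x y hx hy => simp only [map_add, hx, hy]

/-- The two-sided bar construction. -/
abbrev Bar : GD := (barP P N).tot

/-- The differential of the bar construction. -/
def bD : P.V ⊗[ℂ] (UU N).V →ₗ[ℂ] P.V ⊗[ℂ] (UU N).V := td P.toSGD (UU N) + bp P N

theorem Bar_d (z : P.V ⊗[ℂ] (UU N).V) : (Bar P N).d z = bD P N z := rfl

theorem bD_tmul (p : P.V) (x : (UU N).V) : bD P N (p ⊗ₜ[ℂ] x) = P.d p ⊗ₜ[ℂ] x +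
    P.sg p ⊗ₜ[ℂ] (UU N).d x + (P.sg p ⊗ₜ[ℂ] ub N x - nu P N (p ⊗ₜ[ℂ] x)) := rfl

theorem bD_i0 (p : P.V) (n : N.V) : bD P N (p ⊗ₜ[ℂ] i0 A N.toGD n) =
    P.d p ⊗ₜ[ℂ] i0 A N.toGD n + P.sg p ⊗ₜ[ℂ] i0 A N.toGD (N.d n) := by simp [bD_tmul]

theorem Bar_gr (m : ℤ) : (Bar P N).gr m = tgr P.toGD (UU N) m := rfl

end Bar

section Bm

variable {P : RM A} {N : DGM A} {P' : RM B} {N' : DGM B} {P'' : RM C} {N'' : DGM C}

/-- The map of bar constructions defined by `f : P → P'`, the homomorphism `τ` and a map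
`u : N → N'` of degree `n`. -/
def bm (f : P.V →ₗ[ℂ] P'.V) (τ : NHom A B) (n : ℤ) (u : N.V →ₗ[ℂ] N'.V) :
    P.V ⊗[ℂ] (UU N).V →ₗ[ℂ] P'.V ⊗[ℂ] (UU N').V :=
  TensorProduct.map (f.comp (ssz P.toSGD n)) (mp (al τ n) u)

theorem bm_tmul (f : P.V →ₗ[ℂ] P'.V) (τ : NHom A B) (n : ℤ) (u : N.V →ₗ[ℂ] N'.V) (p : P.V)
    (x : (UU N).V) : bm f τ n u (p ⊗ₜ[ℂ] x) = f (ssz P.toSGD n p) ⊗ₜ[ℂ] mp (al τ n) u x := rfl

theorem bm_add (f : P.V →ₗ[ℂ] P'.V) (τ : NHom A B) (n : ℤ) (u v : N.V →ₗ[ℂ] N'.V) :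
    bm f τ n (u + v) = bm f τ n u + bm f τ n v := by
  rw [bm, mp_add, TensorProduct.map_add_right]; rfl

theorem bm_smul (f : P.V →ₗ[ℂ] P'.V) (τ : NHom A B) (n : ℤ) (c : ℂ) (u : N.V →ₗ[ℂ] N'.V) :
    bm f τ n (c • u) = c • bm f τ n u := by
  rw [bm, mp_smul, TensorProduct.map_smul_right]; rfl

theorem bm_zero (f : P.V →ₗ[ℂ] P'.V) (τ : NHom A B) (n : ℤ) :
    bm f τ n (0 : N.V →ₗ[ℂ] N'.V) = 0 := by
  rw [bm, mp_zero, TensorProduct.map_zero_right]

theorem bm_zero' (τ : NHom A B) (n : ℤ) (u : N.V →ₗ[ℂ] N'.V) :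
    bm (0 : P.V →ₗ[ℂ] P'.V) τ n u = 0 := by
  rw [bm, LinearMap.zero_comp, TensorProduct.map_zero_left]

theorem bm_mem {f : P.V →ₗ[ℂ] P'.V} (τ : NHom A B) {k n : ℤ} {u : N.V →ₗ[ℂ] N'.V}
    (hf : ∀ i, ∀ p ∈ P.gr i, f p ∈ P'.gr (i + k)) (hu : ∀ m, ∀ x ∈ N.gr m, u x ∈ N'.gr (m + n))
    {m m' : ℤ} (hm : m' = m + k + n) {z : P.V ⊗[ℂ] (UU N).V} (hz : z ∈ (Bar P N).gr m) :
    bm f τ n u z ∈ (Bar P' N').gr m' :=
  map_tgr (E := P.toGD) (E' := P'.toGD) (F := UU N) (F' := UU N') _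
    (fun i j p x hij hp hx => tmul_mem (by omega) (hf i _ (ssz_mem n hp))
      (mp_mem (al_mem τ n) hu hx)) hz

theorem bm_bm {f : P.V →ₗ[ℂ] P'.V} {τ : NHom A B} {m : ℤ} {u : N.V →ₗ[ℂ] N'.V}
    {g : P'.V →ₗ[ℂ] P''.V} {τ' : NHom B C} {n : ℤ} {v : N'.V →ₗ[ℂ] N''.V}
    {h : P.V →ₗ[ℂ] P''.V} {τ'' : NHom A C} {k : ℤ} {w : N.V →ₗ[ℂ] N''.V} (hk : m + n = k)
    (hf : ∀ p, g (ssz P'.toSGD n (f p)) = h (ssz P.toSGD n p))
    (hτ : ∀ a, τ'.f (τ.f a) = τ''.f a) (hu : ∀ x, v (u x) = w x) (z : P.V ⊗[ℂ] (UU N).V) :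
    bm g τ' n v (bm f τ m u z) = bm h τ'' k w z := by
  induction z using TensorProduct.induction_on with
  | zero => simp
  | tmul p x =>
    rw [bm_tmul, bm_tmul, bm_tmul, hf, ssz_ssz, add_comm n m, hk, mp_mp (al_al hτ hk) hu]
  | add x y hx hy => simp only [map_add, hx, hy]

theorem bm_rT {P' : RM A} (f : P.V →ₗ[ℂ] P'.V) {τ : NHom A A} {u : N.V →ₗ[ℂ] N.V}
    (hτ : ∀ a, τ.f a = a) (hu : ∀ x, u x = x) (z : P.V ⊗[ℂ] (UU N).V) :
    bm f τ 0 u z = f.rTensor _ z := by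
  induction z using TensorProduct.induction_on with
  | zero => simp
  | tmul p x =>
    rw [bm_tmul, ssz_zero, mp_id (fun a => (al_zero τ a).trans (hτ a)) hu, LinearMap.rTensor_tmul]
  | add x y hx hy => simp only [map_add, hx, hy]

theorem bp_bm {f g : P.V →ₗ[ℂ] P'.V} {τ : NHom A B} {n : ℤ} {u : N.V →ₗ[ℂ] N'.V}
    (hf : ∀ p, P'.sg (f p) = g (P.sg p)) (hg : ∀ a p, g (P.ra a p) = P'.ra (τ.f a) (g p))
    (hu : ∀ a x, u (N.act a x) = N'.act (B.sz n (τ.f a)) (u x)) (z : P.V ⊗[ℂ] (UU N).V) :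
    bp P' N' (bm f τ n u z) = (n.negOnePow : ℤ) • bm g τ n u (bp P N z) := by
  induction z using bind with
  | base p y => simp [bm_tmul, bp_tmul]
  | step p a x =>
    rw [bm_tmul, bp_tmul, bp_tmul, ub_mp τ n u hu, map_sub, bm_tmul, mp_σ, nu_σ, nu_σ, bm_tmul,
      hf, P.ssz_ra, hg, τ.sz, al_apply, sg_ssz, ssz_sg, map_zsmul, smul_sub, tmul_smul]
    rfl
  | add x y hx hy => simp only [map_add, hx, hy, smul_add]

theorem td_bm {f g f' : P.V →ₗ[ℂ] P'.V} {τ : NHom A B} {n : ℤ} {u u' : N.V →ₗ[ℂ] N'.V}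
    (hf : ∀ p, P'.sg (f p) = g (P.sg p)) (hf' : ∀ p, f' p = P'.d (f p) - g (P.d p))
    (hu' : ∀ y, u' y = N'.d (u y) - (n.negOnePow : ℤ) • u (N.d y)) (z : P.V ⊗[ℂ] (UU N).V) :
    td P'.toSGD (UU N') (bm f τ n u z) = (n.negOnePow : ℤ) • bm g τ n u (td P.toSGD (UU N) z) +
      bm f' τ n u z + bm g τ (n + 1) u' z := by
  induction z using TensorProduct.induction_on with
  | zero => simp
  | tmul p x =>
    rw [bm_tmul, td_tmul, td_tmul, d_mp τ n u u' hu', map_add, bm_tmul, bm_tmul, bm_tmul, bm_tmul,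
      hf, hf', d_ssz, sg_ssz, ssz_sg, map_zsmul, sub_tmul, tmul_add, tmul_smul, smul_add,
      ← smul_tmul']
    abel
  | add x y hx hy => simp only [map_add, hx, hy, smul_add]; abel

/-- The commutator with the differentials. -/
theorem bD_bm {f g f' : P.V →ₗ[ℂ] P'.V} {τ : NHom A B} {n : ℤ} {u u' : N.V →ₗ[ℂ] N'.V}
    (hf : ∀ p, P'.sg (f p) = g (P.sg p)) (hg : ∀ a p, g (P.ra a p) = P'.ra (τ.f a) (g p))
    (hf' : ∀ p, f' p = P'.d (f p) - g (P.d p))
    (hu : ∀ a x, u (N.act a x) = N'.act (B.sz n (τ.f a)) (u x))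
    (hu' : ∀ y, u' y = N'.d (u y) - (n.negOnePow : ℤ) • u (N.d y)) (z : P.V ⊗[ℂ] (UU N).V) :
    bD P' N' (bm f τ n u z) = (n.negOnePow : ℤ) • bm g τ n u (bD P N z) +
      bm f' τ n u z + bm g τ (n + 1) u' z := by
  rw [bD, bD, LinearMap.add_apply, LinearMap.add_apply, td_bm hf hf' hu', bp_bm hf hg hu, map_add,
    smul_add]
  abel

/-- Left operators. -/
theorem bD_rT {P' : RM A} {f g f' : P.V →ₗ[ℂ] P'.V} (hf : ∀ p, P'.sg (f p) = g (P.sg p))
    (hg : ∀ a p, g (P.ra a p) = P'.ra a (g p)) (hf' : ∀ p, f' p = P'.d (f p) - g (P.d p))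
    (z : P.V ⊗[ℂ] (UU N).V) :
    bD P' N (f.rTensor _ z) = f'.rTensor _ z + g.rTensor _ (bD P N z) := by
  have h := bD_bm (τ := NHom.id A) (n := 0) (u := LinearMap.id) (u' := 0) (N := N) (N' := N)
    hf hg hf' (fun a x => by rw [A.sz_zero]; rfl) (fun y => by simp) z
  rw [bm_rT _ (fun _ => rfl) (fun _ => rfl), bm_rT _ (fun _ => rfl) (fun _ => rfl),
    bm_rT _ (fun _ => rfl) (fun _ => rfl), bm_zero] at h
  rw [h]
  simp [add_comm]

/-- A morphism of right modules over the homomorphism `τ`. -/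
structure RHom (τ : NHom A B) (P : RM A) (P' : RM B) where
  t : Hom P.toGD P'.toGD
  sg : ∀ p, t.f (P.sg p) = P'.sg (t.f p)
  ra : ∀ a p, t.f (P.ra a p) = P'.ra (τ.f a) (t.f p)

/-- The morphism for the inner differentials. -/
def bh0 {τ : NHom A B} (t : RHom τ P P') (u : Hom N.toGD N'.toGD) :
    Hom (tens P.toSGD (UU N)) (tens P'.toSGD (UU N')) where
  f := bm t.t.f τ 0 u.f
  comm z := by
    have h := td_bm (τ := τ) (n := 0) (u := u.f) (u' := 0) (f' := 0) (fun p => (t.sg p).symm)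
      (fun p => by simp [t.t.comm]) (fun y => by simp [u.comm]) z
    rw [bm_zero, bm_zero'] at h
    simpa using h.symm
  deg m z hz := bm_mem (k := 0) τ (fun i p hp => by simpa using t.t.deg i p hp)
    (fun i p hp => by simpa using u.deg i p hp) (by simp) hz

theorem bh0_p {τ : NHom A B} (t : RHom τ P P') (u : Hom N.toGD N'.toGD)
    (hu : ∀ a x, u.f (N.act a x) = N'.act (τ.f a) (u.f x)) (z : P.V ⊗[ℂ] (UU N).V) :
    (bh0 t u).f ((barP P N).p z) = (barP P' N').p ((bh0 t u).f z) := by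
  have h := bp_bm (n := 0) (u := u.f) (fun p => (t.sg p).symm) t.ra
    (fun a x => by rw [B.sz_zero, hu]) z
  rw [Int.negOnePow_zero, Units.val_one, one_smul] at h
  exact h.symm

/-- The morphism of bar constructions. -/
def bh {τ : NHom A B} (t : RHom τ P P') (u : Hom N.toGD N'.toGD)
    (hu : ∀ a x, u.f (N.act a x) = N'.act (τ.f a) (u.f x)) : Hom (Bar P N) (Bar P' N') :=
  (barP P N).hom (barP P' N') (bh0 t u) (bh0_p t u hu)

theorem bh_f {τ : NHom A B} (t : RHom τ P P') (u : Hom N.toGD N'.toGD)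
    (hu : ∀ a x, u.f (N.act a x) = N'.act (τ.f a) (u.f x)) (z : P.V ⊗[ℂ] (UU N).V) :
    (bh t u hu).f z = bm t.t.f τ 0 u.f z := rfl

theorem qis_bh0 {τ : NHom A B} (t : RHom τ P P') (u : Hom N.toGD N'.toGD)
    (hu : ∀ a x, u.f (N.act a x) = N'.act (τ.f a) (u.f x)) (h : Qis (bh0 t u)) :
    Qis (bh t u hu) := by
  refine Pert.qis _ _ _ _ (fun k z => ?_) h
  change bm t.t.f τ 0 u.f ((π A N.toGD k).lTensor P.V z) =
    (π B N'.toGD k).lTensor P'.V (bm t.t.f τ 0 u.f z)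
  induction z using TensorProduct.induction_on with
  | zero => simp
  | tmul p x => simp only [LinearMap.lTensor_tmul, bm_tmul, π_mp]
  | add x y hx hy => simp only [map_add, hx, hy]

/-- The bar construction preserves quasi-isomorphisms. -/
theorem qis_bh {P' : RM A} {N' : DGM A} {τ : NHom A A} (hτ : ∀ a, τ.f a = a) (t : RHom τ P P')
    (u : Hom N.toGD N'.toGD) (hu : ∀ a x, u.f (N.act a x) = N'.act (τ.f a) (u.f x))
    (hP : IsInternal P.gr) (hP' : IsInternal P'.gr) (ht : Qis t.t) (h : Qis u) :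
    Qis (bh t u hu) := by
  refine qis_bh0 t u hu (qis_congr (u := (tmap (Hom.id P'.toGD) (sgC_id P'.toSGD)
    (U0.hom A u)).comp (tmap t.t t.sg (Hom.id (UU N)))) (fun z => ?_)
    ((qis_tens_right' P'.toSGD hP' _ (qis_hom A h)).comp (qis_tens_left _ _ _ hP hP' ht)))
  induction z using TensorProduct.induction_on with
  | zero => simp
  | tmul p x =>
    change t.t.f p ⊗ₜ[ℂ] (U0.hom A u).f x = bm t.t.f τ 0 u.f (p ⊗ₜ[ℂ] x)
    rw [bm_tmul, ssz_zero, hom_f (fun a => (al_zero τ a).trans (hτ a))]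
  | add x y hx hy => simp only [map_add, hx, hy]

end Bm

section Ev

variable {P : RM A} {N : DGM A} {M : GD}

/-- The map defined by a pairing. -/
def evL {W : Type} [AddCommGroup W] [Module ℂ W] (N : DGM A) (β : P.V →ₗ[ℂ] N.V →ₗ[ℂ] W) :
    P.V ⊗[ℂ] (UU N).V →ₗ[ℂ] W := (TensorProduct.lift β).comp ((p0 A N.toGD).lTensor P.V)

theorem evL_tmul {W : Type} [AddCommGroup W] [Module ℂ W] (β : P.V →ₗ[ℂ] N.V →ₗ[ℂ] W) (p : P.V)
    (x : (UU N).V) : evL N β (p ⊗ₜ[ℂ] x) = β p (p0 A N.toGD x) := rfl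

theorem evL_bp {W : Type} [AddCommGroup W] [Module ℂ W] (β : P.V →ₗ[ℂ] N.V →ₗ[ℂ] W)
    (hb : ∀ a p n, β (P.ra a p) n = β p (N.act a n)) (z : P.V ⊗[ℂ] (UU N).V) :
    evL N β (bp P N z) = 0 := by
  induction z using bind with
  | base p n => simp [bp_tmul]
  | step p a x => rw [bp_tmul, map_sub, evL_tmul, p0_ub_σ, nu_σ, evL_tmul, hb, sub_self]
  | add x y hx hy => simp only [map_add, hx, hy, add_zero]

/-- The morphism defined by a balanced pairing. -/
def ev (β : P.V →ₗ[ℂ] N.V →ₗ[ℂ] M.V) (hb : ∀ a p n, β (P.ra a p) n = β p (N.act a n))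
    (hd : ∀ p n, M.d (β p n) = β (P.d p) n + β (P.sg p) (N.d n))
    (hg : ∀ i j p n, p ∈ P.gr i → n ∈ N.gr j → β p n ∈ M.gr (i + j)) : Hom (Bar P N) M where
  f := evL N β
  comm z := by
    change evL N β (td P.toSGD (UU N) z + bp P N z) = _
    rw [map_add, evL_bp β hb, add_zero]
    induction z using TensorProduct.induction_on with
    | zero => simp
    | tmul p x => rw [td_tmul, map_add, evL_tmul, evL_tmul, evL_tmul, hd, p0_d]
    | add x y hx hy => simp only [map_add, hx, hy]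
  deg m z hz := tgr_le (E := P.toGD) (F := UU N) (P := (M.gr m).comap (evL N β))
    (fun i j p x hij hp hx => by subst hij; exact hg i j p _ hp (p0_mem hx)) hz

/-- The algebra as a right module. -/
abbrev DGA.rm (A : DGA) : RM A := (NHom.id A).rm

/-- The augmentation of the bar resolution. -/
def eps (N : DGM A) : Hom (Bar A.rm N) N.toGD :=
  ev (P := A.rm) N.act.toLinearMap (fun a p n => N.act_mul p a n) N.leib N.act_gr

theorem eps_tmul (N : DGM A) (a : A.R) (x : (UU N).V) :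
    (eps N).f (a ⊗ₜ[ℂ] x : A.R ⊗[ℂ] (UU N).V) = N.act a (p0 A N.toGD x) := rfl

/-- The section of the augmentation. -/
def sec (N : DGM A) : Hom N.toGD (Bar A.rm N) where
  f := (TensorProduct.mk ℂ A.R (UU N).V 1).comp (i0 A N.toGD)
  comm n := by
    refine Eq.trans ?_ (bD_i0 A.rm N 1 n).symm
    change _ = A.d 1 ⊗ₜ[ℂ] _ + A.sg 1 ⊗ₜ[ℂ] _
    rw [A.d_one, map_one A.sg, zero_tmul, zero_add]
    rfl
  deg m n hn := tmul_mem (E := A.G) (F := UU N) (zero_add m) A.one_gr (i0_mem hn)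

theorem qis_eps (N : DGM A) : Qis (eps N) := by
  let h : A.R ⊗[ℂ] (UU N).V →ₗ[ℂ] A.R ⊗[ℂ] (UU N).V :=
    (TensorProduct.mk ℂ A.R (UU N).V 1).comp (TensorProduct.lift (σ A N.toGD))
  have hh : ∀ a x, h (a ⊗ₜ[ℂ] x) = 1 ⊗ₜ[ℂ] σ A N.toGD a x := fun _ _ => rfl
  refine Qis.of_htpy _ (sec N) (-h) (fun m z hz => ?_) ?_ 0 (fun _ _ _ => zero_mem _) ?_
  · exact neg_mem (map_tgr (E := A.G) (E' := A.G) (F := UU N) (F' := UU N) h
      (fun i j p x hij hp hx => tmul_mem (zero_add _) A.one_gr (σ_mem (by omega) hp hx)) hz)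
  · rintro m z -
    change bD A.rm N (-h z) + -h (bD A.rm N z) = z - (sec N).f ((eps N).f z)
    have e1 : ∀ (a : A.R) (x : (UU N).V), bD A.rm N (a ⊗ₜ[ℂ] x) = A.d a ⊗ₜ[ℂ] x +
      A.sg a ⊗ₜ[ℂ] (UU N).d x + (A.sg a ⊗ₜ[ℂ] ub N x - nu A.rm N (a ⊗ₜ[ℂ] x)) := fun _ _ => rfl
    have e2 : ∀ (a c : A.R) (x : (UU N).V), nu A.rm N (a ⊗ₜ[ℂ] σ A N.toGD c x) =
      (A.sg a * c) ⊗ₜ[ℂ] x := fun a c x => nu_σ A.rm N a c x
    have e3 : ∀ (a : A.R) (n : N.V), nu A.rm N (a ⊗ₜ[ℂ] i0 A N.toGD n) = 0 :=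
      fun a n => nu_i0 A.rm N a n
    have e4 : ∀ n, (sec N).f n = ((1 : A.R) ⊗ₜ[ℂ] i0 A N.toGD n : A.R ⊗[ℂ] (UU N).V) :=
      fun _ => rfl
    induction z using bind (W := A.R) with
    | base p n =>
      rw [eps_tmul, e4, map_neg, hh, e1, e1, e2, e3]
      simp [hh, tmul_sub, tmul_neg]
      abel
    | step p a x =>
      rw [eps_tmul, e4, map_neg, hh, e1, e1, e2, e2, ub_σ N p, d_σ p]
      simp only [map_add, map_sub, hh, tmul_sub, tmul_neg, A.d_one, map_one, ua_σ, p0_σ, map_zero,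
        zero_tmul, tmul_zero, one_mul]
      abel
    | add x y hx hy =>
      simp only [map_add, neg_add] at hx hy ⊢
      rw [add_add_add_comm, hx, hy]
      abel
  · rintro m n -
    change N.d 0 + 0 = n - N.act 1 (p0 A N.toGD (i0 A N.toGD n))
    simp

end Ev

end

end Vale.Agent.P286EK
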