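import Vale.Agent.P286E.Eqv
import Vale.Agent.P286.H353.DGFull

/-!
# Formal criteria for inverse functors up to zigzags
-/

namespace Vale.Agent.P286EK

open CategoryTheory Vale.Agent.P286.H353 Vale.Agent.P286E

noncomputable section

universe u₁ v₁ u₂ v₂ u₃ v₃

section Cat

variable {C : Type u₁} {D : Type u₂} {E : Type u₃} [Category.{v₁} C] [Category.{v₂} D]
  [Category.{v₃} E]

/-- The two out of three property. -/
def T3 (V : MorphismProperty C) : Prop := ∀ ⦃X Y Z : C⦄ (f : X ⟶ Y) (g : Y ⟶ Z),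
  (V f → V g → V (f ≫ g)) ∧ (V f → V (f ≫ g) → V g) ∧ (V g → V (f ≫ g) → V f)

theorem T3.sq {V : MorphismProperty C} (h : T3 V) {X Y X' Y' : C} {u : X ⟶ Y} {u' : X' ⟶ Y'}
    {a : X ⟶ X'} {b : Y ⟶ Y'} (e : u ≫ b = a ≫ u') (ha : V a) (hb : V b) : V u ↔ V u' :=
  ⟨fun hu => (h a u').2.1 ha (e ▸ (h u b).1 hu hb), fun hu => (h u b).2.2 hb (e ▸ (h a u').1 ha hu)⟩

theorem T3.comap {V : MorphismProperty C} (h : T3 V) (G : D ⥤ C) {W : MorphismProperty D}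
    (hW : ∀ ⦃X Y : D⦄ (u : X ⟶ Y), W u ↔ V (G.map u)) : T3 W := fun X Y Z f g => by
  rw [hW, hW, hW, G.map_comp]
  exact h _ _

theorem zig_mono {W V : MorphismProperty D} (h : ∀ ⦃X Y : D⦄ (u : X ⟶ Y), W u → V u)
    {F G : C ⥤ D} (z : Zig W F G) : Zig V F G := z.right (𝟭 D) h

theorem zig_iff {V : MorphismProperty D} (h : T3 V) {F G : C ⥤ D} (z : Zig V F G) {X Y : C}
    (u : X ⟶ Y) : V (F.map u) ↔ V (G.map u) := by
  induction z with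
  | rel F G z =>
    obtain ⟨η, z⟩ := z
    exact h.sq (η.naturality u) (z X) (z Y)
  | refl F => exact Iff.rfl
  | symm F G _ ih => exact ih.symm
  | trans F G H _ _ ih ih' => exact ih.trans ih'

theorem zig_obj {W : MorphismProperty D} {P : D → Prop}
    (h : ∀ ⦃X Y : D⦄ (u : X ⟶ Y), W u → (P X ↔ P Y)) {F G : C ⥤ D} (z : Zig W F G) (X : C) :
    P (F.obj X) ↔ P (G.obj X) := by
  induction z with
  | rel F G z =>
    obtain ⟨η, z⟩ := z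
    exact h _ (z X)
  | refl F => exact Iff.rfl
  | symm F G _ ih => exact ih.symm
  | trans F G H _ _ ih ih' => exact ih.trans ih'

/-- The formal criterion; the counit is a zigzag through `M`. -/
theorem form' {V : MorphismProperty C} {W : MorphismProperty D} (hV : T3 V) (Θ : C ⥤ D)
    (Ξ : D ⥤ C) (hW : ∀ ⦃X Y : D⦄ (u : X ⟶ Y), W u ↔ V (Ξ.map u)) (Q : C ⥤ C) (M : D ⥤ D)
    (η : Q ⟶ Θ ⋙ Ξ) (ε : Q ⟶ 𝟭 C) (c : Ξ ⋙ Θ ⟶ M) (m : 𝟭 D ⟶ M)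
    (tri : ∀ Y, η.app (Ξ.obj Y) ≫ Ξ.map (c.app Y) = ε.app (Ξ.obj Y) ≫ Ξ.map (m.app Y))
    (hη : ∀ X, V (η.app X)) (hε : ∀ X, V (ε.app X)) (hm : ∀ Y, W (m.app Y)) : Inv V W Θ Ξ where
  pF X Y u hu := (hW _).2 ((hV.sq (η.naturality u) (hη X) (hη Y)).1
    ((hV.sq (ε.naturality u) (hε X) (hε Y)).2 hu))
  pG _ _ u hu := (hW u).1 hu
  un := (NatW.zig ⟨η, hη⟩).symm.trans (NatW.zig ⟨ε, hε⟩)
  co := (NatW.zig ⟨c, fun Y => (hW _).2 ((hV _ _).2.1 (hη _)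
    (tri Y ▸ (hV _ _).1 (hε _) ((hW _).1 (hm Y))))⟩).trans (NatW.zig ⟨m, hm⟩).symm

/-- The formal criterion. -/
theorem form {V : MorphismProperty C} {W : MorphismProperty D} (hV : T3 V) (Θ : C ⥤ D)
    (Ξ : D ⥤ C) (hW : ∀ ⦃X Y : D⦄ (u : X ⟶ Y), W u ↔ V (Ξ.map u)) (Q : C ⥤ C)
    (η : Q ⟶ Θ ⋙ Ξ) (ε : Q ⟶ 𝟭 C) (c : Ξ ⋙ Θ ⟶ 𝟭 D)
    (tri : ∀ Y, η.app (Ξ.obj Y) ≫ Ξ.map (c.app Y) = ε.app (Ξ.obj Y))
    (hη : ∀ X, V (η.app X)) (hε : ∀ X, V (ε.app X)) : Inv V W Θ Ξ where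
  pF X Y u hu := (hW _).2 ((hV.sq (η.naturality u) (hη X) (hη Y)).1
    ((hV.sq (ε.naturality u) (hε X) (hε Y)).2 hu))
  pG _ _ u hu := (hW u).1 hu
  un := (NatW.zig ⟨η, hη⟩).symm.trans (NatW.zig ⟨ε, hε⟩)
  co := NatW.zig ⟨c, fun Y => (hW _).2 ((hV _ _).2.1 (hη _) (tri Y ▸ hε _))⟩

/-- Bigger classes of weak equivalences. -/
theorem inv_big {W V : MorphismProperty C} {W' V' : MorphismProperty D} {F : C ⥤ D} {G : D ⥤ C}
    (h : Inv W W' F G) (hW : ∀ ⦃X Y : C⦄ (u : X ⟶ Y), W u → V u) (hV : T3 V)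
    (hV' : ∀ ⦃X Y : D⦄ (u : X ⟶ Y), V' u ↔ V (G.map u)) : Inv V V' F G where
  pF _ _ u hu := (hV' _).2 ((zig_iff hV (zig_mono hW h.un) u).2 hu)
  pG _ _ u hu := (hV' u).1 hu
  un := zig_mono hW h.un
  co := zig_mono (fun _ _ u hu => (hV' u).2 (hW _ (h.pG u hu))) h.co

/-- Equal classes of weak equivalences. -/
theorem inv_congr {W V : MorphismProperty C} {W' V' : MorphismProperty D} {F : C ⥤ D} {G : D ⥤ C}
    (h : Inv W W' F G) (hW : ∀ ⦃X Y : C⦄ (u : X ⟶ Y), W u ↔ V u)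
    (hW' : ∀ ⦃X Y : D⦄ (u : X ⟶ Y), W' u ↔ V' u) : Inv V V' F G where
  pF _ _ u hu := (hW' _).1 (h.pF u ((hW u).2 hu))
  pG _ _ u hu := (hW _).1 (h.pG u ((hW' u).2 hu))
  un := zig_mono (fun _ _ u => (hW u).1) h.un
  co := zig_mono (fun _ _ u => (hW' u).1) h.co

end Cat

section Full

variable {C : DGC.{u₁, v₁}} {D : DGC.{u₂, v₂}} {P : C.Obj → Prop} {Q : D.Obj → Prop}
  {W : MorphismProperty (Z0 C)} {W' : MorphismProperty (Z0 D)}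

/-- The weak equivalences of a full subcategory. -/
def fullW (W : MorphismProperty (Z0 C)) (P : C.Obj → Prop) : MorphismProperty (Z0 (C.full P)) :=
  fun _ _ a => W (zup a)

/-- The property is invariant under weak equivalences. -/
def Invt (W : MorphismProperty (Z0 C)) (P : C.Obj → Prop) : Prop :=
  ∀ ⦃X Y : Z0 C⦄ (u : X ⟶ Y), W u → (P (ob X) ↔ P (ob Y))

theorem zig_lift {E : Type u₃} [Category.{v₃} E] (h : Invt W P) {F G : E ⥤ Z0 C} (z : Zig W F G)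
    (hF : ∀ X, P (ob (F.obj X))) (hG : ∀ X, P (ob (G.obj X))) :
    Zig (fullW W P) (zlift F hF) (zlift G hG) := by
  induction z with
  | rel F G z =>
    obtain ⟨η, z⟩ := z
    exact NatW.zig ⟨zliftT hF hG η, z⟩
  | refl F => exact Relation.EqvGen.refl _
  | symm F G _ ih => exact (ih hG hF).symm
  | trans F G H z _ ih ih' =>
    have hm : ∀ X, P (ob (G.obj X)) := fun X =>
      (zig_obj (P := fun X => P (ob X)) h z X).1 (hF X)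
    exact (ih hF hm).trans (ih' hm hG)

/-- Restriction to invariant full subcategories. -/
theorem inv_full {Φ : DGF C D} {Ψ : DGF D C} (h : Inv W W' Φ.z0 Ψ.z0) (hP : Invt W P)
    (hQ : Invt W' Q) (hΦ : ∀ X, P X → Q (Φ.obj X)) (hΨ : ∀ Y, Q Y → P (Ψ.obj Y)) :
    Inv (fullW W P) (fullW W' Q) (Φ.restr hΦ).z0 (Ψ.restr hΨ).z0 where
  pF _ _ a ha := h.pF (zup a) ha
  pG _ _ a ha := h.pG (zup a) ha
  un := zig_lift hP (h.un.left (DGF.incl C P).z0) (fun X => hΨ _ (hΦ _ (ob X).2))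
    (fun X => (ob X).2)
  co := zig_lift hQ (h.co.left (DGF.incl D Q).z0) (fun X => hΦ _ (hΨ _ (ob X).2))
    (fun X => (ob X).2)

theorem obj_of_iff {Φ : DGF C D} {Ψ : DGF D C} (h : Inv W W' Φ.z0 Ψ.z0) (hP : Invt W P)
    (hΨ : ∀ Y, Q Y ↔ P (Ψ.obj Y)) (X : C.Obj) (hX : P X) : Q (Φ.obj X) :=
  (hΨ _).2 ((zig_obj (P := fun X => P (ob X)) hP h.un (zo X)).2 hX)

theorem invt_of_iff {Φ : DGF C D} {Ψ : DGF D C} (h : Inv W W' Φ.z0 Ψ.z0) (hP : Invt W P)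
    (hΨ : ∀ Y, Q Y ↔ P (Ψ.obj Y)) : Invt W' Q := fun _ _ u hu =>
  (hΨ _).trans ((hP _ (h.pG u hu)).trans (hΨ _).symm)

/-- Restriction to the full subcategories defined by an invariant property and its pull back. -/
theorem inv_full' {Φ : DGF C D} {Ψ : DGF D C} (h : Inv W W' Φ.z0 Ψ.z0) (hP : Invt W P)
    (hΨ : ∀ Y, Q Y ↔ P (Ψ.obj Y)) :
    Inv (fullW W P) (fullW W' Q) (Φ.restr (obj_of_iff h hP hΨ)).z0
      (Ψ.restr fun Y => (hΨ Y).1).z0 :=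
  inv_full h hP (invt_of_iff h hP hΨ) _ _

end Full

/-- A full subcategory. -/
def wfull (X : WD.{u₁, v₁}) (P : X.C.Obj → Prop) : WD.{u₁, v₁} :=
  ⟨X.C.full P, fullW X.W P, fun Y => X.wid (zo (ob Y).1)⟩

theorem eqv_full {X : WD.{u₁, v₁}} {Y : WD.{u₂, v₂}} {P : X.C.Obj → Prop} {Q : Y.C.Obj → Prop}
    {Φ : DGF X.C Y.C} {Ψ : DGF Y.C X.C} (h : Inv X.W Y.W Φ.z0 Ψ.z0) (hP : Invt X.W P)
    (hΨ : ∀ N, Q N ↔ P (Ψ.obj N)) : EQV (wfull X P) (wfull Y Q) := ⟨_, _, inv_full' h hP hΨ⟩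

end

end Vale.Agent.P286EK
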