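import Vale.Agent.P286EK.Twq

/-!
# The idealiser of a right ideal and the endomorphisms of the cone
-/

set_option linter.unusedSectionVars false

namespace Vale.Agent.P286EK

open CategoryTheory Vale.Agent.P286.H353 Vale.Agent.P286E Vale.Agent.P286EG
open Vale.Agent.P286.H847 Vale.Agent.P286.H847.GD Vale.Agent.P286.H710

noncomputable section

universe u v

variable {A B : DGA}

/-- A DG subalgebra. -/
abbrev DGA.sub (A : DGA) (S : Subalgebra ℂ A.R) (hd : ∀ x ∈ S, A.d x ∈ S)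
    (hs : ∀ x ∈ S, A.sg x ∈ S) (P : Prj A.G) (hP : ∀ m, ∀ x ∈ S, P.P m x ∈ S) : DGA where
  R := S
  d := A.d.restrict (p := S.toSubmodule) (q := S.toSubmodule) hd
  gr m := (A.gr m).comap S.val.toLinearMap
  sg := (A.sg.comp S.val).codRestrict S fun x => hs x.1 x.2
  dd x := Subtype.ext (A.dd x.1)
  dgr m x hx := A.dgr m x.1 hx
  sg_gr m x hx := Subtype.ext (A.sg_gr m x.1 hx)
  leib a b := Subtype.ext (A.leib a.1 b.1)
  mul_gr i j a b := A.mul_gr i j a.1 b.1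
  one_gr := A.one_gr
  int := by
    refine Prj.internal (M := ⟨S, 0, fun _ => rfl, fun m => (A.gr m).comap S.val.toLinearMap,
      fun _ _ _ => zero_mem _⟩)
      ⟨fun m => (P.P m).restrict (p := S.toSubmodule) (q := S.toSubmodule) (hP m),
        fun m x => P.mem m x.1, fun m x hx => Subtype.ext (P.eq m x.1 hx),
        fun m n h x hx => Subtype.ext (P.ne m n h x.1 hx), eq_top_iff.2 fun x _ => ?_⟩
    have key : ∀ y : A.R, ∃ s : Finset ℤ, ∀ t, s ⊆ t → ∑ m ∈ t, P.P m y = y := by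
      intro y
      induction y using A.ind with
      | zero => exact ⟨∅, fun t _ => by simp⟩
      | hom m y hy =>
        refine ⟨{m}, fun t ht => ?_⟩
        rw [Finset.sum_eq_single_of_mem m (ht (Finset.mem_singleton_self m))
          fun n _ hn => P.ne m n hn.symm y hy, P.eq m y hy]
      | add y z hy hz =>
        obtain ⟨s, hy⟩ := hy
        obtain ⟨s', hz⟩ := hz
        refine ⟨s ∪ s', fun t ht => ?_⟩
        simp only [map_add, Finset.sum_add_distrib, hy t (Finset.union_subset_left ht),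
          hz t (Finset.union_subset_right ht)]
    obtain ⟨s, hs⟩ := key x.1
    have e : x = ∑ m ∈ s, (⟨P.P m x.1, hP m x.1 x.2⟩ : S) :=
      Subtype.ext ((hs s subset_rfl).symm.trans (map_sum S.val
        (fun m => (⟨P.P m x.1, hP m x.1 x.2⟩ : S)) s).symm)
    rw [e]
    exact sum_mem fun m _ => Submodule.mem_iSup_of_mem m (P.mem m x.1)

theorem prj_comm {X Y : GD} (P : Prj X) (Q : Prj Y) (f : X.V →ₗ[ℂ] Y.V) (k : ℤ)
    (h : ∀ m, ∀ x ∈ X.gr m, f x ∈ Y.gr (m + k)) (m : ℤ) (x : X.V) :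
    Q.P (m + k) (f x) = f (P.P m x) := by
  induction x using Prj.ind P.sup with
  | zero => simp
  | hom n x hx =>
    by_cases e : n = m
    · subst e
      rw [P.eq _ _ hx, Q.eq _ _ (h _ _ hx)]
    · rw [P.ne _ _ e _ hx, Q.ne _ _ (by omega) _ (h _ _ hx), map_zero]
  | add x y hx hy => simp only [map_add, hx, hy]

theorem prj_comm0 {X Y : GD} (P : Prj X) (Q : Prj Y) (f : X.V →ₗ[ℂ] Y.V)
    (h : ∀ m, ∀ x ∈ X.gr m, f x ∈ Y.gr m) (m : ℤ) (x : X.V) : Q.P m (f x) = f (P.P m x) := by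
  have := prj_comm P Q f 0 (fun m x hx => by rw [add_zero]; exact h m x hx) m x
  rwa [add_zero] at this

theorem CZ.mul_mem (F : CZ A) {m : ℤ} {x : A.R} (h : x ∈ A.gr m) : F.x * x ∈ A.gr m := by
  simpa using A.mul_gr 0 m _ x F.gr h

theorem CZ.mul_mem' (F : CZ A) {m : ℤ} {x : A.R} (h : x ∈ A.gr m) : x * F.x ∈ A.gr m := by
  simpa using A.mul_gr m 0 x _ h F.gr

open TwA

/-- The lower triangular matrices whose diagonal is closed. -/
def nS (F : CZ A) : Subalgebra ℂ (TwA F).R where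
  carrier := {a | m a 0 1 = 0 ∧ F.x * m a 1 1 = A.sg (m a 0 0) * F.x}
  mul_mem' := by
    rintro a b ⟨h1, h2⟩ ⟨h3, h4⟩
    refine ⟨?_, ?_⟩ <;> simp only [m_mul, Matrix.mul_apply, Fin.sum_univ_two, h1, h3, mul_zero,
      zero_mul, add_zero, zero_add, map_mul]
    rw [← mul_assoc, h2, mul_assoc, h4, mul_assoc]
  add_mem' := by
    rintro a b ⟨h1, h2⟩ ⟨h3, h4⟩
    refine ⟨?_, ?_⟩ <;>
      simp only [m_add, Matrix.add_apply, h1, h2, h3, h4, add_zero, mul_add, add_mul, map_add]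
  algebraMap_mem' c := by
    rw [Algebra.algebraMap_eq_smul_one]
    refine ⟨?_, ?_⟩ <;> simp

theorem mem_nS {F : CZ A} {a : (TwA F).R} :
    a ∈ nS F ↔ m a 0 1 = 0 ∧ F.x * m a 1 1 = A.sg (m a 0 0) * F.x := Iff.rfl

/-- The entry of a matrix. -/
def TwA.en (F : CZ A) (k l : Fin 2) : (TwA F).R →ₗ[ℂ] A.R where
  toFun a := m a k l
  map_add' _ _ := rfl
  map_smul' _ _ := rfl

/-- The DG algebra of these matrices. -/
def NA (F : CZ A) : DGA := (TwA F).sub (nS F)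
  (by
    rintro a ⟨h1, h2⟩
    have h3 := congrArg A.d h2
    rw [A.leib, A.leib, F.d, F.sg, zero_mul, zero_add, mul_zero, add_zero] at h3
    refine ⟨by rw [d01, h1, h2, map_zero, zero_add, sub_self], ?_⟩
    rw [d11, d00, mul_add, mul_neg, h3, map_add, A.sg_d, map_mul, F.sg, add_mul, neg_mul,
      mul_assoc])
  (by
    rintro a ⟨h1, h2⟩
    have h3 := congrArg A.sg h2
    rw [map_mul, map_mul, F.sg] at h3
    refine ⟨by rw [sg_m, h1, map_zero, smul_zero], ?_⟩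
    simpa [sg_m] using h3)
  (Prj.nonempty (M := (TwA F).G) (TwA F).int).some (by
    rintro n a ⟨h1, h2⟩
    obtain ⟨Q⟩ := Prj.nonempty (M := A.G) A.int
    generalize (Prj.nonempty (M := (TwA F).G) (TwA F).int).some = P
    have e1 := prj_comm P Q (TwA.en F 0 1) (-1) (fun n x hx => (((mem4 n x).1 hx).2.1)) n a
    have e2 := prj_comm0 P Q ((LinearMap.mulLeft ℂ F.x).comp (TwA.en F 1 1))
      (fun n x hx => F.mul_mem ((mem4 n x).1 hx).2.2.2) n a
    have e3 := prj_comm0 P Q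
      ((LinearMap.mulRight ℂ F.x).comp (A.sg.toLinearMap.comp (TwA.en F 0 0)))
      (fun n x hx => F.mul_mem' (A.sg_mem ((mem4 n x).1 hx).1)) n a
    exact ⟨e1.symm.trans ((congrArg _ h1).trans (map_zero _)),
      e2.symm.trans ((congrArg _ h2).trans e3)⟩)

/-- The inclusion. -/
def NA.incl (F : CZ A) : AHom (NA F) (TwA F) := ⟨(nS F).val, fun _ => rfl, fun _ _ h => h⟩

theorem NA.qis (F : CZ A)
    (hs : ∀ n, ∀ x ∈ A.gr n, ∃ a ∈ A.gr n, ∃ b ∈ A.gr n, x = F.x * b - a * F.x) :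
    Qis (NA.incl F).n.hom := by
  have key : ∀ n, ∀ z ∈ (TwA F).gr n, m ((TwA F).d z) 0 1 = 0 →
      ∃ w ∈ (TwA F).gr (n - 1), z - (TwA F).d w ∈ nS F := by
    intro n z hz hd
    obtain ⟨a, ha, b, hb, e⟩ := hs _ _ ((mem4 n z).1 hz).2.1
    have h1 : m (z - (TwA F).d (TwA.of F !![A.sg a, 0; 0, b])) 0 1 = 0 := by
      simp [d01, e]
    refine ⟨TwA.of F !![A.sg a, 0; 0, b], (mem4 _ _).2 (by simp [hb, A.sg_mem ha]), h1, ?_⟩
    have h2 := d01 (z - (TwA F).d (TwA.of F !![A.sg a, 0; 0, b]))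
    rw [h1, map_sub, (TwA F).dd, sub_zero, hd, map_zero, zero_add] at h2
    exact sub_eq_zero.1 h2.symm
  intro n
  refine ⟨?_, fun z hz hd => ?_⟩
  · rintro x - - ⟨y, hy, e⟩
    obtain ⟨w, hw, h⟩ := key _ y hy ((congrArg (fun a => m (F := F) a 0 1) e).trans x.2.1)
    refine ⟨⟨_, h⟩, sub_mem hy ((TwA F).G.dgr' (by ring) hw), Subtype.ext ?_⟩
    change (TwA F).d (y - (TwA F).d w) = x.1
    rw [map_sub, (TwA F).dd, sub_zero]
    exact e
  · obtain ⟨w, hw, h⟩ := key _ z hz (congrArg (fun a => m (F := F) a 0 1) hd)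
    refine ⟨⟨_, h⟩, sub_mem hz ((TwA F).G.dgr' (by ring) hw), Subtype.ext ?_, w, hw,
      (sub_sub_cancel _ _).symm⟩
    change (TwA F).d (z - (TwA F).d w) = 0
    rw [map_sub, (TwA F).dd, sub_zero]
    exact hd

variable {I : Type u} [Category.{v} I] {D U : DD I} {R : RD I}

theorem TD.n_mem (T : TD D) {i j : I} (α : i ⟶ j) {a : (TwA (T.F i)).R} (h : a ∈ nS (T.F i)) :
    (T.n α).f a ∈ nS (T.F j) := by
  have h2 := congrArg (D.τ α).f h.2
  rw [map_mul, map_mul, T.τ_F, (D.τ α).sg] at h2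
  refine ⟨by simp [TD.n_m, h.1], ?_⟩
  simp only [TD.n_m, TD.g_zero, TD.g_one, inv_one, Units.val_one, one_mul, mul_one]
  rw [← mul_assoc, ← mul_assoc, h2, mul_assoc, Units.mul_inv_cancel_right]

/-- The diagram of the triangular matrices. -/
def ND (T : TD D) : DD I where
  A i := NA (T.F i)
  τ {i j} α := ⟨(((Tw T).τ α).f.comp (nS (T.F i)).val).codRestrict (nS (T.F j))
      fun a => T.n_mem α a.2, fun a => Subtype.ext (((Tw T).τ α).comm a.1),
    fun n a ha => ((Tw T).τ α).deg n a.1 ha⟩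
  τ_id i a := Subtype.ext ((Tw T).τ_id i a.1)
  τ_comp α β a := Subtype.ext ((Tw T).τ_comp α β a.1)

/-- The inclusion. -/
def ND.incl (T : TD D) : DHom (ND T) (Tw T) := ⟨fun i => (NA.incl (T.F i)).n, fun _ _ => rfl⟩

/-- The base rings. -/
def Base.nd (b : Base D R) (T : TD D) (hF : ∀ i z, (T.F i).x * b.ι i z = b.ι i z * (T.F i).x)
    (hu : ∀ {i j : I} (α : i ⟶ j) z, (T.u α).1 * b.ι j z = b.ι j z * T.u α) : Base (ND T) R where
  ι i := ((b.tw T hF hu).ι i).codRestrict (nS (T.F i)) fun z =>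
    ⟨rfl, (hF i z).trans (congrArg (· * _) (sg_zero (b.gr i z)).symm)⟩
  gr i z := (b.tw T hF hu).gr i z
  d i z := Subtype.ext ((b.tw T hF hu).d i z)
  τ_ι α z := Subtype.ext ((b.tw T hF hu).τ_ι α z)

/-- The algebras `U i` are the quotients of the idealisers of the right ideals generated by the
elements `F i`; `S i` is the graph of the projection. -/
structure KD (T : TD D) (U : DD I) where
  S : ∀ i, (U.A i).R → (D.A i).R → Prop
  one : ∀ i, S i 1 1
  add : ∀ {i u u' a a'}, S i u a → S i u' a' → S i (u + u') (a + a')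
  smul : ∀ {i u a} (c : ℂ), S i u a → S i (c • u) (c • a)
  mul : ∀ {i u u' a a'}, S i u a → S i u' a' → S i (u * u') (a * a')
  d : ∀ {i u a}, S i u a → S i ((U.A i).d u) ((D.A i).d a)
  τ : ∀ {i j : I} (α : i ⟶ j) {u a}, S i u a → S j ((U.τ α).f u) ((D.τ α).f a)
  F : ∀ i x, S i 0 ((T.F i).x * x)
  tot : ∀ i (n : ℤ) a b, a ∈ (D.A i).gr n → (T.F i).x * b = (D.A i).sg a * (T.F i).x →
    ∃ u ∈ (U.A i).gr n, S i u a
  uniq : ∀ i u, S i u 0 → u = 0
  ker : ∀ i a, S i 0 a → ∃ x, a = (T.F i).x * x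
  surj : ∀ i (n : ℤ), ∀ u ∈ (U.A i).gr n, ∃ a ∈ (D.A i).gr n, ∃ b,
    (T.F i).x * b = (D.A i).sg a * (T.F i).x ∧ S i u a
  reg : ∀ i x, (T.F i).x * x = 0 → x = 0
  hs : ∀ i (n : ℤ), ∀ x ∈ (D.A i).gr n, ∃ a ∈ (D.A i).gr n, ∃ b ∈ (D.A i).gr n,
    x = (T.F i).x * b - a * (T.F i).x

namespace KD

variable {T : TD D} (K : KD T U)

theorem sub {i u u' a a'} (h : K.S i u a) (h' : K.S i u' a') : K.S i (u - u') (a - a') := by
  simpa [sub_eq_add_neg] using K.add h (K.smul (-1) h')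

theorem eq {i u u' a} (h : K.S i u a) (h' : K.S i u' a) : u = u' :=
  sub_eq_zero.1 (K.uniq i _ (by simpa using K.sub h h'))

theorem zero (i : I) : K.S i 0 0 := by simpa using K.F i 0

theorem cast {i u a a'} (e : a' = a) (h : K.S i u a) : K.S i u a' := e ▸ h

theorem ex (i : I) (a : (NA (T.F i)).R) : ∃ u, K.S i u (m a.1 0 0) := by
  induction a using (NA (T.F i)).ind with
  | zero => exact ⟨0, K.zero i⟩
  | hom n a ha =>
    obtain ⟨u, -, h⟩ := K.tot i n _ _ ((mem4 n a.1).1 ha).1 a.2.2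
    exact ⟨u, h⟩
  | add a b ha hb =>
    obtain ⟨u, ha⟩ := ha
    obtain ⟨u', hb⟩ := hb
    exact ⟨u + u', K.add ha hb⟩

/-- The projection. -/
def r (i : I) (a : (NA (T.F i)).R) : (U.A i).R := (K.ex i a).choose

theorem r_S (i : I) (a : (NA (T.F i)).R) : K.S i (K.r i a) (m a.1 0 0) := (K.ex i a).choose_spec

/-- The projection. -/
def rho : DHom (ND T) U where
  φ i :=
    { f := ⟨⟨K.r i, fun a b => K.eq (K.r_S i _) (K.add (K.r_S i a) (K.r_S i b))⟩,
        fun c a => K.eq (K.r_S i _) (K.smul c (K.r_S i a))⟩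
      mul := fun (a b : (NA (T.F i)).R) => K.eq (K.r_S i _) (by
        have e : m (a * b).1 0 0 = m a.1 0 0 * m b.1 0 0 := by
          change (m a.1 * m b.1) 0 0 = _
          rw [Matrix.mul_apply, Fin.sum_univ_two, a.2.1, zero_mul, add_zero]
        exact K.cast e (K.mul (K.r_S i a) (K.r_S i b)))
      comm := fun (a : (NA (T.F i)).R) => K.eq (K.r_S i _) (by
        have h := K.add (K.d (K.r_S i a)) (K.F i (m a.1 1 0))
        rw [add_zero] at h
        exact K.cast (d00 a.1) h)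
      deg := fun n (a : (NA (T.F i)).R) ha => by
        obtain ⟨u, hu, h⟩ := K.tot i n _ _ ((mem4 n a.1).1 ha).1 a.2.2
        have e := K.eq h (K.r_S i a)
        rw [e] at hu
        exact hu }
  nat {i j} α (a : (NA (T.F i)).R) := K.eq (by
    have e : m (((ND T).τ α).f a).1 0 0 = (D.τ α).f (m a.1 0 0) :=
      (T.n_m α a.1 0 0).trans (by simp)
    exact K.cast e (K.τ α (K.r_S i a))) (K.r_S j _)

theorem rho_f (i : I) (a : (NA (T.F i)).R) : (K.rho.φ i).f a = K.r i a := rfl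

theorem qis_rho (i : I) : Qis (K.rho.φ i).hom := by
  obtain ⟨Q⟩ := Prj.nonempty (M := (D.A i).G) (D.A i).int
  have hom : ∀ n x, (T.F i).x * x ∈ (D.A i).gr n → x ∈ (D.A i).gr n := fun n x h => by
    have e := prj_comm0 Q Q (LinearMap.mulLeft ℂ (T.F i).x) (fun _ _ => (T.F i).mul_mem) n x
    have e' : (T.F i).x * (x - Q.P n x) = 0 := by
      rw [mul_sub, sub_eq_zero]
      exact (Q.eq n _ h).symm.trans e
    rw [sub_eq_zero.1 (K.reg i _ e')]
    exact Q.mem n x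
  have sur : ∀ n, ∀ u ∈ (U.A i).gr n, ∃ a ∈ (NA (T.F i)).gr n, K.r i a = u := by
    intro n u hu
    obtain ⟨a, ha, b, e, h⟩ := K.surj i n u hu
    have hb := hom n b (e ▸ (T.F i).mul_mem' ((D.A i).sg_mem ha))
    exact ⟨⟨TwA.of _ !![a, 0; 0, b], rfl, e⟩, (mem4 _ _).2 (by simp [ha, hb]),
      K.eq (K.r_S i _) h⟩
  have acy : ∀ n, ∀ a ∈ (NA (T.F i)).gr n, (NA (T.F i)).d a = 0 → K.r i a = 0 →
      ∃ y ∈ (NA (T.F i)).gr (n - 1), K.r i y = 0 ∧ (NA (T.F i)).d y = a := by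
    intro n a ha hd h0
    obtain ⟨x, e⟩ := K.ker i _ (h0 ▸ K.r_S i a)
    have hx := hom n x (e ▸ ((mem4 n a.1).1 ha).1)
    have h1 : m a.1 1 1 = (D.A i).sg x * (T.F i).x := sub_eq_zero.1 (K.reg i _ (by
      rw [mul_sub, a.2.2, e, map_mul, (T.F i).sg, mul_assoc, sub_self]))
    have h2 : m a.1 1 0 = - (D.A i).d x := eq_neg_of_add_eq_zero_right (K.reg i _ (by
      have := (d00 a.1).symm.trans (congrArg (fun z : (NA (T.F i)).R => m z.1 0 0) hd)
      rwa [e, (D.A i).leib, (T.F i).d, (T.F i).sg, zero_mul, zero_add, ← mul_add] at this))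
    refine ⟨⟨TwA.of _ !![0, 0; x, 0], rfl, by simp⟩, (mem4 _ _).2 (by simp [hx]),
      K.eq (K.r_S i _) (K.zero i), Subtype.ext (ext4 ?_ ?_ ?_ ?_)⟩
    · exact (d00 _).trans (by simp [e])
    · exact (d01 _).trans (by simp [a.2.1])
    · exact (d10 _).trans (by simp [h2])
    · exact (d11 _).trans (by simp [h1])
  intro n
  refine ⟨?_, fun u hu hd => ?_⟩
  · rintro (x : (NA (T.F i)).R) hx hd ⟨u, hu, e⟩
    obtain ⟨a, ha, rfl⟩ := sur _ u hu
    obtain ⟨y, hy, -, e'⟩ := acy n (x - (NA (T.F i)).d a)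
      (sub_mem hx ((NA (T.F i)).G.dgr' (by ring) ha))
      (by rw [map_sub, (NA (T.F i)).dd, sub_zero]; exact hd)
      ((map_sub (K.rho.φ i).f _ _).trans (sub_eq_zero.2 (e.symm.trans ((K.rho.φ i).comm a).symm)))
    exact ⟨y + a, add_mem hy ha, (map_add _ _ _).trans (eq_sub_iff_add_eq.1 e')⟩
  · obtain ⟨a, ha, rfl⟩ := sur _ u hu
    obtain ⟨y, hy, h0, e'⟩ := acy (n + 1) ((NA (T.F i)).d a) ((NA (T.F i)).dgr _ _ ha)
      ((NA (T.F i)).dd a) (((K.rho.φ i).comm a).trans hd)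
    rw [add_sub_cancel_right] at hy
    refine ⟨a - y, sub_mem ha hy, (map_sub _ _ _).trans (sub_eq_zero.2 e'.symm), 0, zero_mem _, ?_⟩
    rw [map_zero, eq_comm, sub_eq_zero]
    exact ((map_sub (K.rho.φ i).f a y).trans ((congrArg (_ - ·) h0).trans (sub_zero _))).symm

/-- The theorem of Kashiwara type. -/
theorem eqc {b : Base D R} {b' : Base U R} (hF hu) (h : ∀ i z, K.S i (b'.ι i z) (b.ι i z)) :
    EQV (wc (b.tw T hF hu)) (wc b') :=
  ((ND.incl T).eqc1 (b := b.nd T hF hu) (b' := b.tw T hF hu) (fun _ => rfl)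
    (fun i => NA.qis _ (K.hs i)) fun _ _ => rfl).symm.trans
  (K.rho.eqc1 (fun i => K.eq (K.r_S i _) (K.one i)) K.qis_rho
    fun i z => K.eq (K.r_S i _) (h i z))

end KD

/-- Algebras `K i` which map to the idealisers and onto the algebras `U i`. -/
structure NK (T : TD D) (U : DD I) where
  K : I → DGA
  φ : ∀ i, AHom (K i) (D.A i)
  π : ∀ i, AHom (K i) (U.A i)
  cm : ∀ i k, (φ i).f k * (T.F i).x = (T.F i).x * (φ i).f k
  sur : ∀ i, Function.Surjective (π i).f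
  reg : ∀ i x, (T.F i).x * x = 0 → x = 0
  a : ∀ i x, ∃ a b, x = (T.F i).x * b + a * (T.F i).x
  b : ∀ i x y, x * (T.F i).x = (T.F i).x * y → ∃ k z, x = (φ i).f k + (T.F i).x * z
  c : ∀ i k, (π i).f k = 0 ↔ ∃ z, (φ i).f k = (T.F i).x * z

namespace NK

variable {T : TD D} (N : NK T U)

/-- The graph of the projection. -/
def S (i : I) : Subalgebra ℂ ((U.A i).R × (D.A i).R) where
  carrier := {p | ∃ k z, p.1 = (N.π i).f k ∧ p.2 = (N.φ i).f k + (T.F i).x * z}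
  mul_mem' := by
    rintro p q ⟨k, z, h1, h2⟩ ⟨k', z', h3, h4⟩
    refine ⟨k * k', (N.φ i).f k * z' + z * q.2, by rw [Prod.fst_mul, h1, h3, map_mul], ?_⟩
    rw [Prod.snd_mul, h2, add_mul, mul_add _ _ (z * q.2), ← mul_assoc, ← N.cm, ← mul_assoc,
      ← add_assoc, map_mul, mul_assoc _ (T.F i).x z', ← mul_add, ← h4]
  add_mem' := by
    rintro p q ⟨k, z, h1, h2⟩ ⟨k', z', h3, h4⟩
    exact ⟨k + k', z + z', by rw [Prod.fst_add, h1, h3, map_add],
      by rw [Prod.snd_add, h2, h4, map_add, mul_add, add_add_add_comm]⟩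
  algebraMap_mem' c := ⟨algebraMap ℂ _ c, 0, ((N.π i).f.commutes c).symm, by
    rw [mul_zero, add_zero]; exact ((N.φ i).f.commutes c).symm⟩

theorem mem_S {i : I} {u a} :
    (u, a) ∈ N.S i ↔ ∃ k z, u = (N.π i).f k ∧ a = (N.φ i).f k + (T.F i).x * z := Iff.rfl

/-- The elements for which the transition maps are compatible. -/
def ds {i j : I} (α : i ⟶ j) : Subalgebra ℂ (N.K i).R :=
  (N.S j).comap (((U.τ α).f.comp (N.π i).f).prod ((D.τ α).f.comp (N.φ i).f))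

theorem mem_ds {i j : I} (α : i ⟶ j) (k : (N.K i).R) : k ∈ N.ds α ↔ ∃ k' z,
    (U.τ α).f ((N.π i).f k) = (N.π j).f k' ∧
      (D.τ α).f ((N.φ i).f k) = (N.φ j).f k' + (T.F j).x * z := Iff.rfl

/-- The data in terms of the graph. -/
def kd (h : ∀ {i j : I} (α : i ⟶ j) k, k ∈ N.ds α) : KD T U where
  S i u a := (u, a) ∈ N.S i
  one i := one_mem (N.S i)
  add h h' := add_mem h h'
  smul c h := Subalgebra.smul_mem _ h c
  mul h h' := mul_mem h h'
  d := by
    rintro i _ _ ⟨k, z, rfl, rfl⟩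
    refine ⟨(N.K i).d k, (D.A i).d z, ((N.π i).comm k).symm, ?_⟩
    change (D.A i).d ((N.φ i).f k + (T.F i).x * z) = _
    rw [map_add, (D.A i).leib, (T.F i).d, (T.F i).sg, zero_mul, zero_add, (N.φ i).comm]
  τ := by
    rintro i j α _ _ ⟨k, z, rfl, rfl⟩
    obtain ⟨k', z', e, e'⟩ := h α k
    refine ⟨k', z' + T.u α * (D.τ α).f z, e, ?_⟩
    change (D.τ α).f ((N.φ i).f k + (T.F i).x * z) = _
    rw [map_add, map_mul, T.τ_F, mul_add, ← add_assoc, mul_assoc]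
    exact congrArg (· + _) e'
  F i x := ⟨0, x, (map_zero _).symm, by rw [map_zero, zero_add]⟩
  tot i n a b ha e := by
    obtain ⟨P⟩ := Prj.nonempty (M := (N.K i).G) (N.K i).int
    obtain ⟨Q⟩ := Prj.nonempty (M := (D.A i).G) (D.A i).int
    have e1 := congrArg (D.A i).sg e
    rw [map_mul, map_mul, (T.F i).sg, (D.A i).sg_sg] at e1
    obtain ⟨k, z, e2⟩ := N.b i a _ e1.symm
    refine ⟨_, (N.π i).deg n _ (P.mem n k), P.P n k, Q.P n z, rfl, ?_⟩
    exact (Q.eq n a ha).symm.trans ((congrArg (Q.P n) e2).trans ((map_add _ _ _).trans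
      (congrArg₂ (· + ·) (prj_comm0 P Q (N.φ i).f.toLinearMap (N.φ i).deg n k)
        (prj_comm0 Q Q (LinearMap.mulLeft ℂ (T.F i).x) (fun _ _ => (T.F i).mul_mem) n z))))
  uniq := by
    rintro i _ ⟨k, z, rfl, e⟩
    exact (N.c i k).2 ⟨-z, by rw [mul_neg]; exact eq_neg_of_add_eq_zero_left e.symm⟩
  ker := by
    rintro i _ ⟨k, z, e, rfl⟩
    obtain ⟨y, e'⟩ := (N.c i k).1 e.symm
    exact ⟨y + z, by rw [mul_add, ← e']⟩
  surj i n u hu := by
    obtain ⟨P⟩ := Prj.nonempty (M := (N.K i).G) (N.K i).int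
    obtain ⟨Q⟩ := Prj.nonempty (M := (U.A i).G) (U.A i).int
    obtain ⟨k, rfl⟩ := N.sur i u
    refine ⟨_, (N.φ i).deg n _ (P.mem n k), (N.φ i).f ((N.K i).sg (P.P n k)), ?_, P.P n k, 0,
      (Q.eq n _ hu).symm.trans (prj_comm0 P Q (N.π i).f.toLinearMap (N.π i).deg n k),
      by rw [mul_zero, add_zero]⟩
    rw [← N.cm, (N.φ i).sg]
  reg := N.reg
  hs i n x hx := by
    obtain ⟨Q⟩ := Prj.nonempty (M := (D.A i).G) (D.A i).int
    obtain ⟨a, b, e⟩ := N.a i x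
    refine ⟨- Q.P n a, neg_mem (Q.mem n a), Q.P n b, Q.mem n b, ?_⟩
    rw [neg_mul, sub_neg_eq_add]
    exact (Q.eq n x hx).symm.trans ((congrArg (Q.P n) e).trans ((map_add _ _ _).trans
      (congrArg₂ (· + ·)
        (prj_comm0 Q Q (LinearMap.mulLeft ℂ (T.F i).x) (fun _ _ => (T.F i).mul_mem) n b)
        (prj_comm0 Q Q (LinearMap.mulRight ℂ (T.F i).x) (fun _ _ => (T.F i).mul_mem') n a))))

/-- The theorem of Kashiwara type. -/
theorem eqc (h : ∀ {i j : I} (α : i ⟶ j) k, k ∈ N.ds α) {b : Base D R} {b' : Base U R} (hF hu)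
    (hb : ∀ i z, ∃ k, b'.ι i z = (N.π i).f k ∧ b.ι i z = (N.φ i).f k) :
    EQV (wc (b.tw T hF hu)) (wc b') :=
  (N.kd h).eqc hF hu fun i z => by
    obtain ⟨k, e, e'⟩ := hb i z
    exact ⟨k, 0, e, by rw [mul_zero, add_zero]; exact e'⟩

end NK

end

end Vale.Agent.P286EK
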