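import Vale.Agent.P286EK.Bar
import Vale.Agent.P286EK.Form

/-!
# Bimodules, and Morita equivalences of diagrams of DG algebras
-/

namespace Vale.Agent.P286EK

open CategoryTheory Vale.Agent.P286.H353 Vale.Agent.P286E
open Vale.Agent.P286.H847 Vale.Agent.P286.H847.GD Vale.Agent.P286.H847.SGD Vale.Agent.P286.H710
open TensorProduct DirectSum U0

noncomputable section

universe u v u₁ v₁

section Rel

variable {A B : DGA} {P P' P'' : RM A}

/-- Morphisms of right modules. -/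
abbrev RH (P P' : RM A) : Type := RHom (NHom.id A) P P'

/-- The identity. -/
def RH.id (P : RM A) : RH P P := ⟨Hom.id _, fun _ => rfl, fun _ _ => rfl⟩

/-- The morphism of bar constructions defined by a morphism of right modules. -/
def bl (t : RH P P') (N : DGM A) : Hom (Bar P N) (Bar P' N) := bh t (Hom.id _) fun _ _ => rfl

theorem bl_f (t : RH P P') (N : DGM A) (z : P.V ⊗[ℂ] (UU N).V) :
    (bl t N).f z = t.t.f.rTensor _ z := bm_rT _ (fun _ => rfl) (fun _ => rfl) z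

theorem qis_bl (t : RH P P') (N : DGM A) (hP : IsInternal P.gr) (hP' : IsInternal P'.gr)
    (ht : Qis t.t) : Qis (bl t N) := qis_bh (fun _ => rfl) t _ _ hP hP' ht (Qis.id _)

theorem rT_rT {X Y Z W : Type} [AddCommGroup X] [Module ℂ X] [AddCommGroup Y] [Module ℂ Y]
    [AddCommGroup Z] [Module ℂ Z] [AddCommGroup W] [Module ℂ W] {f : X →ₗ[ℂ] Y} {g : Y →ₗ[ℂ] Z}
    {h : X →ₗ[ℂ] Z} (e : ∀ x, g (f x) = h x) (z : X ⊗[ℂ] W) :
    g.rTensor W (f.rTensor W z) = h.rTensor W z := by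
  rw [← LinearMap.comp_apply, ← LinearMap.rTensor_comp, show g.comp f = h from LinearMap.ext e]

/-- The fixed points of a projector. -/
abbrev RM.img (l : RH P P) : RM A where
  toGD := Img l.t
  sg := Img.lin l.t (P.sg.comp (Img.incl l.t).f) fun x =>
    (l.sg _).trans (congrArg P.sg (Img.fix x))
  sg_sg x := Subtype.ext (P.sg_sg x.1)
  sg_d x := Subtype.ext (P.sg_d x.1)
  sg_gr m x hx := Subtype.ext (P.sg_gr m x.1 hx)
  ra :=
    { toFun := fun a => Img.lin l.t ((P.ra a).comp (Img.incl l.t).f) fun x =>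
        (l.ra a _).trans (congrArg (P.ra a) (Img.fix x))
      map_add' := fun a b => LinearMap.ext fun x => Subtype.ext
        (LinearMap.congr_fun (map_add P.ra a b) x.1)
      map_smul' := fun c a => LinearMap.ext fun x => Subtype.ext
        (LinearMap.congr_fun (map_smul P.ra c a) x.1) }
  ra_mul a b p := Subtype.ext (P.ra_mul a b p.1)
  leib a p := Subtype.ext (P.leib a p.1)
  sg_ra a p := Subtype.ext (P.sg_ra a p.1)
  ra_gr m i p a hp ha := P.ra_gr m i p.1 a hp ha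

/-- The inclusion. -/
def RM.incl (l : RH P P) : RH (RM.img l) P := ⟨Img.incl l.t, fun _ => rfl, fun _ _ => rfl⟩

/-- A morphism with fixed values. -/
def RM.lift (l : RH P P) (j : RH P' P) (h : ∀ p, l.t.f (j.t.f p) = j.t.f p) : RH P' (RM.img l) :=
  ⟨Img.lift l.t j.t h, fun p => Subtype.ext (j.sg p), fun a p => Subtype.ext (j.ra a p)⟩

/-- The action of the unit. -/
def RM.r1 (P : RM A) : RH P P where
  t :=
    { f := P.ra 1
      comm := fun p => by rw [P.leib, A.d_one, map_zero, LinearMap.zero_apply, add_zero]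
      deg := fun m p hp => by simpa using P.ra_gr m 0 p 1 hp A.one_gr }
  sg p := by
    change P.ra 1 (P.sg p) = P.sg (P.ra 1 p)
    rw [P.sg_ra, map_one A.sg]
  ra a p := by
    change P.ra 1 (P.ra a p) = P.ra a (P.ra 1 p)
    rw [← P.ra_mul, ← P.ra_mul, mul_one, one_mul]

/-- The composition. -/
def RH.comp (g : RH P' P'') (f : RH P P') : RH P P'' :=
  ⟨g.t.comp f.t, fun p => (congrArg g.t.f (f.sg p)).trans (g.sg _),
    fun a p => (congrArg g.t.f (f.ra a p)).trans (g.ra a _)⟩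

/-- The homotopy which contracts the part killed by the unit. -/
def hU (P : RM A) (N : DGM A) : P.V ⊗[ℂ] (UU N).V →ₗ[ℂ] P.V ⊗[ℂ] (UU N).V :=
  TensorProduct.map (P.sg.comp (LinearMap.id - P.ra 1)) (σ A N.toGD 1)

theorem hU_tmul (P : RM A) (N : DGM A) (p : P.V) (x : (UU N).V) :
    hU P N (p ⊗ₜ[ℂ] x) = P.sg (p - P.ra 1 p) ⊗ₜ[ℂ] σ A N.toGD 1 x := rfl

theorem bD_hU (P : RM A) (N : DGM A) (z : P.V ⊗[ℂ] (UU N).V) :
    bD P N (hU P N z) + hU P N (bD P N z) = z - (P.ra 1).rTensor _ z := by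
  have e1 : ∀ p, P.ra 1 (P.sg p) = P.sg (P.ra 1 p) := P.r1.sg
  have e2 : ∀ p, P.ra 1 (P.d p) = P.d (P.ra 1 p) := P.r1.t.comm
  have e3 : ∀ a p, P.ra 1 (P.ra a p) = P.ra a p := fun a p => by rw [← P.ra_mul, mul_one]
  have e4 : ∀ z, hU P N (nu P N z) = 0 := by
    intro z
    induction z using bind with
    | base p n => simp
    | step p a x => simp [hU_tmul, e3]
    | add x y hx hy => simp only [map_add, hx, hy, add_zero]
  induction z using TensorProduct.induction_on with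
  | zero => simp
  | tmul p x =>
    rw [hU_tmul, bD_tmul, bD_tmul, nu_σ, map_add, map_add, map_sub (hU P N), e4, hU_tmul, hU_tmul,
      hU_tmul, e1, e2, d_σ, ub_σ, ua_one, A.d_one, map_one A.sg]
    simp only [map_sub, e1, P.sg_sg, P.sg_d, e3, sub_tmul, tmul_sub, neg_tmul, map_zero,
      LinearMap.zero_apply, neg_zero, tmul_zero, LinearMap.rTensor_tmul]
    abel
  | add x y hx hy =>
    simp only [map_add]
    rw [add_add_add_comm, hx, hy]
    abel

/-- The relative criterion: `j` is a quasi-isomorphism onto the unital part of the image of the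
projector `L`. -/
theorem qis_rel (L : RH P P) (hL : ∀ p, L.t.f (L.t.f p) = L.t.f p) (j : RH P' P)
    (hj : ∀ p, (L.comp P.r1).t.f (j.t.f p) = j.t.f p) (hP : IsInternal P.gr)
    (hP' : IsInternal P'.gr) (hq : Qis (Img.lift (L.comp P.r1).t j.t hj)) (N : DGM A)
    (l : Hom (Bar P N) (Bar P N)) (hl : ∀ z, l.f z = L.t.f.rTensor _ z)
    (h : ∀ z, l.f ((bl j N).f z) = (bl j N).f z) : Qis (Img.lift l (bl j N) h) := by
  have e0 : ∀ p, (L.comp P.r1).t.f p = L.t.f (P.ra 1 p) := fun _ => rfl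
  have e1 : ∀ p, L.t.f (P.ra 1 p) = P.ra 1 (L.t.f p) := L.ra 1
  have e2 : ∀ p, (L.comp P.r1).t.f ((L.comp P.r1).t.f p) = (L.comp P.r1).t.f p := fun p => by
    rw [e0, e0, ← e1, hL, ← P.ra_mul, mul_one]
  have e3 : ∀ z, l.f ((bl (RM.incl (L.comp P.r1)) N).f z) = (bl (RM.incl (L.comp P.r1)) N).f z := by
    intro z
    rw [hl, bl_f]
    refine rT_rT (fun x => ?_) z
    have := Img.fix x
    change L.t.f x.1 = x.1
    rw [← this, e0, hL]
  refine (qis_tri (u := bl (RM.lift _ j hj) N) (v := Img.lift l _ e3) fun z => Subtype.ext ?_).1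
    (qis_bl _ N hP' (Img.internal e2 hP) hq) ?_
  · change (bl _ N).f _ = (bl j N).f z
    rw [bl_f, bl_f, bl_f]
    exact rT_rT (fun _ => rfl) z
  · have e4 : ∀ z, l.f (hU P N z) = hU P N (l.f z) := by
      intro z
      rw [hl, hl]
      induction z using TensorProduct.induction_on with
      | zero => simp
      | tmul p x =>
        rw [hU_tmul, LinearMap.rTensor_tmul, LinearMap.rTensor_tmul, hU_tmul, L.sg, map_sub, e1]
      | add x y hx hy => simp only [map_add, hx, hy]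
    refine Qis.of_htpy _ ((bl (RM.lift _ (L.comp P.r1) e2) N).comp (Img.incl l)) 0
      (fun _ _ _ => zero_mem _) ?_ (Img.lin l ((hU P N).comp (Img.incl l).f) fun z =>
        (e4 _).trans (congrArg (hU P N) (Img.fix z))) (fun m z hz => ?_) ?_
    · rintro m z -
      change _ = z - (bl _ N).f ((bl _ N).f z)
      rw [bl_f, bl_f, rT_rT (h := LinearMap.id) (fun x => Subtype.ext (Img.fix x))]
      simp
    · exact map_tgr (E := P.toGD) (E' := P.toGD) (F := UU N) (F' := UU N) (hU P N)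
        (fun i k p x hik hp hx => tmul_mem (by omega)
          (P.toSGD.sg_mem (sub_mem hp (P.r1.t.deg i p hp))) (σ_mem rfl A.one_gr hx)) hz
    · rintro m z -
      refine Subtype.ext ((bD_hU P N z.1).trans ?_)
      change _ = z.1 - (bl _ N).f ((bl _ N).f z.1)
      rw [bl_f, bl_f, rT_rT (g := (RM.incl (L.comp P.r1)).t.f) (h := (P.ra 1).comp L.t.f) e1,
        LinearMap.rTensor_comp, LinearMap.comp_apply, ← hl, Img.fix]

end Rel

variable {I : Type u} [Category.{v} I] {DA DB : DD I}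

theorem t3_mqis (D : DD I) : T3 (mqis D) := fun _ _ _ f g =>
  ⟨fun hf hg i => (hg i).comp (hf i), fun hf h i => (hf i).of_comp_right (v := mh g i) (h i),
    fun hg h i => (hg i).of_comp_left (u := mh f i) (h i)⟩

/-- The modules over a diagram of DG algebras, with the quasi-isomorphisms. -/
def wm (D : DD I) : WD.{max 1 u v, u} := ⟨mdc D, mqis D, fun _ _ => Qis.id _⟩

/-- A natural transformation of functors with values in modules. -/
def mnat {E : Type u₁} [Category.{v₁} E] {F G : E ⥤ Z0 (mdc DA)} (app : ∀ X, F.obj X ⟶ G.obj X)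
    (h : ∀ ⦃X Y : E⦄ (f : X ⟶ Y) (i : I) x, (mh (app Y) i).f ((mh (F.map f) i).f x) =
      (mh (G.map f) i).f ((mh (app X) i).f x)) : F ⟶ G :=
  ⟨app, fun _ _ f => m_ext (h f)⟩

/-- A DG functor with values in modules, given by its values on cochains. -/
def mkF {C : DGC.{u₁, v₁}} (obj : C.Obj → DM DA)
    (map : ∀ {X Y : C.Obj} (n : ℤ), C.Hom X Y n → DM.Coch (obj X) (obj Y) n)
    (add : ∀ {X Y : C.Obj} (n : ℤ) (a b : C.Hom X Y n) i x,
      (map n (a + b)).f i x = (map n a).f i x + (map n b).f i x)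
    (smul : ∀ {X Y : C.Obj} (n : ℤ) (c : ℂ) (a : C.Hom X Y n) i x,
      (map n (c • a)).f i x = c • (map n a).f i x)
    (one : ∀ X i x, (map 0 (C.one X)).f i x = x)
    (comp : ∀ {X Y Z : C.Obj} {m n p : ℤ} (h : m + n = p) (a : C.Hom X Y m) (b : C.Hom Y Z n) i x,
      (map p (C.comp h a b)).f i x = (map n b).f i ((map m a).f i x))
    (d1 : ∀ {X Y : C.Obj} (m n : ℤ) (a : C.Hom X Y m), m + 1 = n → ∀ i x,
      (map n (C.d m n a)).f i x = ((obj Y).M i).d ((map m a).f i x) -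
        (m.negOnePow : ℤ) • (map m a).f i (((obj X).M i).d x))
    (d0 : ∀ {X Y : C.Obj} (m n : ℤ) (a : C.Hom X Y m), ¬ m + 1 = n → C.d m n a = 0) :
    DGF C (mdc DA) where
  obj := obj
  map {X Y} n := show C.Hom X Y n →ₗ[ℂ] DM.Coch (obj X) (obj Y) n from
    { toFun := map n
      map_add' := fun a b => DM.Coch.ext' (add n a b)
      map_smul' := fun c a => DM.Coch.ext' (smul n c a) }
  map_one X := DM.Coch.ext' (one X)
  map_comp h a b := DM.Coch.ext' (comp h a b)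
  map_d {X Y} m n a := by
    by_cases h : m + 1 = n
    · exact DM.Coch.ext' fun i x => (d1 m n a h i x).trans (mdl_f h _ i x).symm
    · rw [d0 m n a h]
      refine Eq.trans (DM.Coch.ext' fun i x => ?_) (mdl_ne h _).symm
      have h0 := smul n 0 (0 : C.Hom X Y n) i x
      rw [zero_smul, zero_smul] at h0
      exact h0

/-- A diagram of bimodules. -/
structure BM (DB DA : DD I) : Type (max 1 u v) where
  P : ∀ i, RM (DA.A i)
  la : ∀ i, (DB.A i).R →ₐ[ℂ] Module.End ℂ (P i).V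
  la_ra : ∀ i b a p, la i b ((P i).ra a p) = (P i).ra a (la i b p)
  la_d : ∀ i b p, (P i).d (la i b p) = la i ((DB.A i).d b) p + la i ((DB.A i).sg b) ((P i).d p)
  la_sg : ∀ i b p, (P i).sg (la i b p) = la i ((DB.A i).sg b) ((P i).sg p)
  la_gr : ∀ i (k m : ℤ) b p, b ∈ (DB.A i).gr k → p ∈ (P i).gr m → la i b p ∈ (P i).gr (k + m)
  t : ∀ {i j : I} (α : i ⟶ j), RHom (DA.τ α).n (P i) (P j)
  t_la : ∀ {i j : I} (α : i ⟶ j) b p, (t α).t.f (la i b p) = la j ((DB.τ α).f b) ((t α).t.f p)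
  t_id : ∀ i p, (t (𝟙 i)).t.f p = p
  t_comp : ∀ {i j k : I} (α : i ⟶ j) (β : j ⟶ k) p, (t (α ≫ β)).t.f p = (t β).t.f ((t α).t.f p)

namespace BM

variable (X : BM DB DA)

theorem ssz_la (i : I) (n : ℤ) (b : (DB.A i).R) (p : (X.P i).V) :
    ssz (X.P i).toSGD n (X.la i b p) = X.la i ((DB.A i).sz n b) (ssz (X.P i).toSGD n p) := by
  by_cases hn : Even n
  · rw [ssz_even hn, ssz_even hn, DGA.sz_even _ hn]
  · rw [ssz_odd hn, ssz_odd hn, DGA.sz_odd _ hn, X.la_sg]

/-- The bar construction, as a left module. -/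
abbrev barM (i : I) (N : DGM (DA.A i)) : DGM (DB.A i) where
  toGD := Bar (X.P i) N
  act := (Module.End.rTensorAlgHom ℂ (X.P i).V (UU N).V).comp (X.la i)
  leib b z := bD_rT (X.la_sg i b) (X.la_ra i _) (fun p => eq_sub_of_add_eq (X.la_d i b p).symm) z
  act_gr k m b z hb hz := map_tgr (E := (X.P i).toGD) (E' := (X.P i).toGD) (F := UU N) (F' := UU N)
    ((X.la i b).rTensor _) (fun l l' p x h hp hx => tmul_mem (by omega) (X.la_gr i k l b p hb hp) hx)
    hz

/-- The bar construction of a module. -/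
def th (N : DM DA) : DM DB where
  M i := X.barM i (N.M i)
  ρ α := bh (X.t α) (N.ρ α) (N.ρ_act α)
  ρ_act {i j} α b z := by
    change bm _ _ 0 _ ((X.la i b).rTensor _ z) = (X.la j _).rTensor _ (bm _ _ 0 _ z)
    induction z using TensorProduct.induction_on with
    | zero => simp
    | tmul p x => simp only [LinearMap.rTensor_tmul, bm_tmul, ssz_zero, X.t_la]
    | add x y hx hy => simp only [map_add, hx, hy]
  ρ_id i z := by
    refine (bm_rT _ (DA.τ_id i) (N.ρ_id i) z).trans ?_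
    rw [show (X.t (𝟙 i)).t.f = LinearMap.id from LinearMap.ext (X.t_id i), LinearMap.rTensor_id]
    rfl
  ρ_comp α β z := (bm_bm (zero_add 0) (fun p => by rw [ssz_zero, ssz_zero, X.t_comp])
    (fun a => (DA.τ_comp α β a).symm) (fun x => (N.ρ_comp α β x).symm) z).symm

/-- The bar construction of a cochain. -/
def thC {N N' : DM DA} (n : ℤ) (z : DM.Coch N N' n) : DM.Coch (X.th N) (X.th N') n where
  f i := bm (P := X.P i) (P' := X.P i) LinearMap.id (NHom.id _) n (z.f i)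
  deg i m w hw := bm_mem (k := 0) _ (fun _ p hp => by simpa using hp) (z.deg i) (by simp) hw
  act i b w := by
    change bm _ _ n _ ((X.la i b).rTensor _ w) = (X.la i _).rTensor _ (bm _ _ n _ w)
    induction w using TensorProduct.induction_on with
    | zero => simp
    | tmul p x => simp only [LinearMap.rTensor_tmul, bm_tmul, LinearMap.id_apply, X.ssz_la]
    | add x y hx hy => simp only [map_add, hx, hy]
  tr {i j} α w := (bm_bm (h := (X.t α).t.f) (τ'' := (DA.τ α).n)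
      (w := (z.f j).comp (N.ρ α).f) (zero_add n) (fun p => (ssz_comm (X.t α).sg n p).symm)
      (fun _ => rfl) (fun _ => rfl) w).trans
    (bm_bm (add_zero n) (fun p => by rw [ssz_zero, ssz_zero]; rfl) (fun _ => rfl)
      (fun x => (z.tr α x).symm) w).symm

/-- The bar construction, as a DG functor. -/
def Th : DGF (mdc DA) (mdc DB) :=
  mkF X.th X.thC (fun n a b i x => LinearMap.congr_fun (bm_add _ _ n (a.f i) (b.f i)) x)
    (fun n c a i x => LinearMap.congr_fun (bm_smul _ _ n c (a.f i)) x)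
    (fun N i x => (bm_rT _ (fun _ => rfl) (fun _ => rfl) x).trans
      (LinearMap.congr_fun (LinearMap.rTensor_id _ _) x))
    (fun h a b i x => (bm_bm h (fun _ => rfl) (fun _ => rfl) (fun _ => rfl) x).symm)
    (fun m n a h i x => by
      subst h
      have h := bD_bm (P := X.P i) (P' := X.P i) (f := LinearMap.id) (g := LinearMap.id) (f' := 0)
        (τ := NHom.id _) (fun _ => rfl) (fun _ _ => rfl) (fun p => by simp) (a.act i)
        (mdl_f rfl a i) x
      rw [bm_zero'] at h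
      exact eq_sub_of_add_eq' ((congrArg (· + _) (add_zero _).symm).trans h.symm))
    (fun _ _ a h => mdl_ne h a)

theorem pres_Th (h : ∀ i, IsInternal (X.P i).gr) : Pres (mqis DA) (mqis DB) X.Th.z0 :=
  fun _ _ a ha i => qis_congr (fun _ => rfl)
    (qis_bh (fun _ => rfl) (RH.id (X.P i)) (mh a i) (mh_act a i) (h i) (h i) (Qis.id _) (ha i))

end BM

/-- A homomorphism of diagrams of DG algebras, which need not preserve the units. -/
structure DHom (DA DB : DD I) : Type u where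
  φ : ∀ i, NHom (DA.A i) (DB.A i)
  nat : ∀ {i j : I} (α : i ⟶ j) a, (DB.τ α).f ((φ i).f a) = (φ j).f ((DA.τ α).f a)

/-- The identity. -/
def DHom.id (D : DD I) : DHom D D := ⟨fun _ => NHom.id _, fun _ _ => rfl⟩

/-- The bimodule defined by a homomorphism. -/
def DHom.bm (f : DHom DA DB) : BM DB DA where
  P i := (f.φ i).rm
  la i := Algebra.lmul ℂ (DB.A i).R
  la_ra _ b _ p := (mul_assoc b p _).symm
  la_d i b p := (DB.A i).leib b p
  la_sg i b p := map_mul (DB.A i).sg b p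
  la_gr i := (DB.A i).mul_gr
  t α := ⟨(DB.τ α).n.hom, (DB.τ α).sg, fun a p =>
    (map_mul (DB.τ α).f p _).trans (congrArg (_ * ·) (f.nat α a))⟩
  t_la α := map_mul (DB.τ α).f
  t_id := DB.τ_id
  t_comp := DB.τ_comp

/-- The bar resolution. -/
def Res (D : DD I) : DGF (mdc D) (mdc D) := (DHom.id D).bm.Th

theorem eps_act {A : DGA} (N : DGM A) (a : A.R) (z : A.R ⊗[ℂ] (UU N).V) :
    (eps N).f ((LinearMap.mul ℂ A.R a).rTensor _ z) = N.act a ((eps N).f z) := by
  induction z using TensorProduct.induction_on with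
  | zero => simp
  | tmul p x => exact N.act_mul a p _
  | add x y hx hy => simp only [map_add, hx, hy]

theorem evL_bm {A B : DGA} {P : RM A} {N : DGM A} {P' : RM B} {N' : DGM B} {W W' : Type}
    [AddCommGroup W] [Module ℂ W] [AddCommGroup W'] [Module ℂ W'] {β : P.V →ₗ[ℂ] N.V →ₗ[ℂ] W}
    {β' : P'.V →ₗ[ℂ] N'.V →ₗ[ℂ] W'} {f : P.V →ₗ[ℂ] P'.V} {τ : NHom A B} {u : N.V →ₗ[ℂ] N'.V}
    {w : W →ₗ[ℂ] W'} (h : ∀ p x, β' (f p) (u x) = w (β p x)) (z : P.V ⊗[ℂ] (UU N).V) :
    evL N' β' (bm f τ 0 u z) = w (evL N β z) := by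
  induction z using TensorProduct.induction_on with
  | zero => simp
  | tmul p x => rw [bm_tmul, evL_tmul, evL_tmul, ssz_zero, p0_mp, h]
  | add x y hx hy => simp only [map_add, hx, hy]

/-- The augmentation of the bar resolution. -/
def epsT (D : DD I) : (Res D).z0 ⟶ 𝟭 (Z0 (mdc D)) :=
  mnat (fun N => mmk (F := (DHom.id D).bm.th (mo N)) (F' := mo N) (fun i => eps ((mo N).M i))
      (fun _ => eps_act _) fun α z => evL_bm (w := ((mo N).ρ α).f)
        (fun p x => ((mo N).ρ_act α p x).symm) z)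
    fun _ _ f i z => evL_bm (w := (mh f i).f) (fun p x => (mh_act f i p x).symm) z

theorem qis_epsT (D : DD I) (N : Z0 (mdc D)) : mqis D ((epsT D).app N) := fun _ => qis_eps _

section Xi

variable {A B : DGA} (φ : NHom A B)

/-- The image of the unit. -/
def NHom.e : B.R := φ.f 1

theorem NHom.e_mul (a : A.R) : φ.e * φ.f a = φ.f a := by rw [NHom.e, ← φ.mul, one_mul]

theorem NHom.mul_e (a : A.R) : φ.f a * φ.e = φ.f a := by rw [NHom.e, ← φ.mul, mul_one]

theorem NHom.d_e : B.d φ.e = 0 := by rw [NHom.e, ← φ.comm, A.d_one, map_zero]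

theorem NHom.sg_e : B.sg φ.e = φ.e := by rw [NHom.e, ← φ.sg, map_one A.sg]

theorem NHom.sz_e (n : ℤ) : B.sz n φ.e = φ.e := by rw [NHom.e, ← φ.sz, map_one (A.sz n)]

theorem NHom.e_mem : φ.e ∈ B.gr 0 := φ.deg 0 1 A.one_gr

/-- The action of a closed element of degree `0`. -/
def DGM.lm (M : DGM B) (x : B.R) (h0 : x ∈ B.gr 0) (hd : B.d x = 0) : Hom M.toGD M.toGD where
  f := M.act x
  comm y := by rw [M.leib, hd, B.sg_gr 0 x h0]; simp
  deg m y hy := by simpa using M.act_gr 0 m x y h0 hy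

/-- The action of the idempotent. -/
def NHom.le (M : DGM B) : Hom M.toGD M.toGD := M.lm φ.e φ.e_mem φ.d_e

theorem NHom.le_le (M : DGM B) (x : M.V) : (φ.le M).f ((φ.le M).f x) = (φ.le M).f x :=
  (M.act_mul _ _ x).symm.trans (congrArg (M.act · x) (φ.e_mul 1))

/-- The part `e M`, as a module over `A`. -/
abbrev NHom.cut (M : DGM B) : DGM A where
  toGD := Img (φ.le M)
  act := AlgHom.ofLinearMap
    { toFun := fun a => Img.lin (φ.le M) ((M.act (φ.f a)).comp (Img.incl _).f) fun x =>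
        (M.act_mul _ _ x.1).symm.trans (congrArg (M.act · x.1) (φ.e_mul a))
      map_add' := fun a b => LinearMap.ext fun x => Subtype.ext
        ((congrArg (M.act · x.1) (map_add φ.f a b)).trans
          (LinearMap.congr_fun (map_add M.act _ _) x.1))
      map_smul' := fun c a => LinearMap.ext fun x => Subtype.ext
        ((congrArg (M.act · x.1) (map_smul φ.f c a)).trans
          (LinearMap.congr_fun (map_smul M.act _ _) x.1)) }
    (LinearMap.ext fun x => Subtype.ext (Img.fix x))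
    fun a b => LinearMap.ext fun x => Subtype.ext
      ((congrArg (M.act · x.1) (φ.mul a b)).trans (M.act_mul _ _ _))
  leib a x := Subtype.ext ((M.leib _ x.1).trans (by rw [← φ.comm, ← φ.sg]; rfl))
  act_gr i m a x ha hx := M.act_gr i m _ x.1 (φ.deg i a ha) hx

/-- The homomorphism is a quasi-isomorphism onto `e B e`. -/
def MorH : Prop := ∀ m : ℤ,
  (∀ a ∈ A.gr m, A.d a = 0 → (∃ b ∈ B.gr (m - 1), B.d b = φ.f a) →
    ∃ a' ∈ A.gr (m - 1), A.d a' = a) ∧
  (∀ b ∈ B.gr m, B.d b = 0 → ∃ a ∈ A.gr m, A.d a = 0 ∧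
    ∃ b' ∈ B.gr (m - 1), B.d b' = φ.e * (b * φ.e) - φ.f a)

/-- The homomorphism, as a morphism of right modules. -/
def NHom.j : RH A.rm φ.rm := ⟨φ.hom, φ.sg, fun a p => φ.mul p a⟩

/-- Left multiplication with the idempotent. -/
def NHom.L : RH φ.rm φ.rm where
  t :=
    { f := LinearMap.mul ℂ B.R φ.e
      comm := fun p => by
        change φ.e * B.d p = B.d (φ.e * p)
        rw [B.leib, φ.d_e, φ.sg_e, zero_mul, zero_add]
      deg := fun m p hp => by simpa using B.mul_gr 0 m _ p φ.e_mem hp }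
  sg p := by
    change φ.e * B.sg p = B.sg (φ.e * p)
    rw [map_mul, φ.sg_e]
  ra a p := (mul_assoc φ.e p _).symm

theorem NHom.L_L (p : B.R) : φ.L.t.f (φ.L.t.f p) = φ.L.t.f p :=
  (mul_assoc φ.e φ.e p).symm.trans (congrArg (· * p) (φ.e_mul 1))

theorem NHom.L_j (a : A.R) : (φ.L.comp φ.rm.r1).t.f (φ.j.t.f a) = φ.j.t.f a :=
  (congrArg (φ.e * ·) (φ.mul_e a)).trans (φ.e_mul a)

theorem qis_unit (h : MorH φ) (N : DGM A) (l : Hom (Bar φ.rm N) (Bar φ.rm N))
    (hl : ∀ z, l.f z = φ.L.t.f.rTensor _ z) (h' : ∀ z, l.f ((bl φ.j N).f z) = (bl φ.j N).f z) :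
    Qis (Img.lift l (bl φ.j N) h') :=
  qis_rel φ.L φ.L_L φ.j φ.L_j B.int A.int ((Img.qis_lift (fun p => by
    change φ.e * (φ.e * (p * φ.e) * φ.e) = φ.e * (p * φ.e)
    have e : φ.e * φ.e = φ.e := φ.e_mul 1
    rw [mul_assoc, mul_assoc, e, ← mul_assoc, e]) _ _).2 h) N l hl h'

end Xi

namespace DHom

variable (f : DHom DA DB)

theorem τ_e {i j : I} (α : i ⟶ j) : (DB.τ α).f (f.φ i).e = (f.φ j).e :=
  (f.nat α 1).trans (congrArg (f.φ j).f (map_one _))

/-- The part `e M` of a module. -/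
def xi (M : DM DB) : DM DA where
  M i := (f.φ i).cut (M.M i)
  ρ α := Img.map _ _ (M.ρ α) fun x => (M.ρ_act α _ x).trans (by rw [f.τ_e]; rfl)
  ρ_act α a x := Subtype.ext ((M.ρ_act α _ x.1).trans (by rw [f.nat]; rfl))
  ρ_id i x := Subtype.ext (M.ρ_id i x.1)
  ρ_comp α β x := Subtype.ext (M.ρ_comp α β x.1)

/-- The part `e z` of a cochain. -/
def xiC {M M' : DM DB} (n : ℤ) (z : DM.Coch M M' n) : DM.Coch (f.xi M) (f.xi M') n where
  f i := Img.lin ((f.φ i).le (M'.M i)) ((z.f i).comp (Img.incl ((f.φ i).le (M.M i))).f) fun x =>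
    ((congrArg ((M'.M i).act · _) ((f.φ i).sz_e n)).symm.trans (z.act i _ x.1).symm).trans
      (congrArg (z.f i) (Img.fix x))
  deg i m x hx := z.deg i m x.1 hx
  act i a x := Subtype.ext ((z.act i _ x.1).trans (by rw [← NHom.sz]; rfl))
  tr α x := Subtype.ext (z.tr α x.1)

/-- The functor `M ↦ e M`. -/
def Xi : DGF (mdc DB) (mdc DA) :=
  mkF f.xi f.xiC (fun _ _ _ _ _ => rfl) (fun _ _ _ _ _ => rfl) (fun _ _ _ => rfl)
    (fun _ _ _ _ _ => rfl) (fun _ _ a h i x => Subtype.ext (mdl_f h a i x.1))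
    (fun _ _ a h => mdl_ne h a)

theorem le_bl (i : I) (N : DGM (DA.A i)) (z : (DA.A i).R ⊗[ℂ] (UU N).V) :
    ((f.φ i).le (f.bm.barM i N)).f ((bl (f.φ i).j N).f z) = (bl (f.φ i).j N).f z := by
  rw [bl_f]
  exact rT_rT (f.φ i).e_mul z

theorem bl_act (i : I) (N : DGM (DA.A i)) (a : (DA.A i).R) (z : (DA.A i).R ⊗[ℂ] (UU N).V) :
    (bl (f.φ i).j N).f ((LinearMap.mul ℂ (DA.A i).R a).rTensor (UU N).V z) =
      (f.bm.barM i N).act ((f.φ i).f a) ((bl (f.φ i).j N).f z) := by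
  rw [bl_f, bl_f]
  exact (rT_rT (h := (f.φ i).f.comp (LinearMap.mul ℂ _ a)) (fun _ => rfl) z).trans
    (rT_rT (g := LinearMap.mul ℂ _ ((f.φ i).f a)) (f := (f.φ i).f)
      (h := (f.φ i).f.comp (LinearMap.mul ℂ _ a)) (fun p => ((f.φ i).mul a p).symm) z).symm

/-- The unit. -/
def eta : (Res DA).z0 ⟶ f.bm.Th.z0 ⋙ f.Xi.z0 :=
  mnat (fun N => mmk (F := (DHom.id DA).bm.th (mo N)) (F' := f.xi (f.bm.th (mo N)))
      (fun i => Img.lift _ (bl (f.φ i).j ((mo N).M i)) (f.le_bl i _))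
      (fun i a z => Subtype.ext (f.bl_act i _ a z))
      fun {i j} α z => Subtype.ext ((bm_bm (h := (f.φ j).f.comp (DA.τ α).n.f) (τ'' := (DA.τ α).n)
        (w := ((mo N).ρ α).f) (zero_add 0) (fun p => by rw [ssz_zero, ssz_zero]; rfl)
        (fun _ => rfl) (fun _ => rfl) z).trans (bm_bm (zero_add 0)
          (fun p => by rw [ssz_zero, ssz_zero]; exact f.nat α p) (fun _ => rfl) (fun _ => rfl) z).symm))
    fun _ _ a i z => Subtype.ext ((bm_bm (h := (f.φ i).f) (τ'' := NHom.id _)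
      (w := (mh a i).f) (zero_add 0) (fun p => by rw [ssz_zero, ssz_zero]; rfl)
      (fun _ => rfl) (fun _ => rfl) z).trans (bm_bm (zero_add 0)
        (fun p => by rw [ssz_zero, ssz_zero]; rfl) (fun _ => rfl) (fun _ => rfl) z).symm)

/-- The pairing `b ⊗ x ↦ b x`. -/
def pr (i : I) (M : DGM (DB.A i)) :
    (DB.A i).R →ₗ[ℂ] ((f.φ i).cut M).V →ₗ[ℂ] M.V :=
  M.act.toLinearMap.compl₂ (Img.incl ((f.φ i).le M)).f

/-- The evaluation. -/
def evM (i : I) (M : DGM (DB.A i)) : Hom (Bar (f.φ i).rm ((f.φ i).cut M)) M.toGD :=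
  ev (P := (f.φ i).rm) (f.pr i M) (fun _ p x => M.act_mul p _ x.1) (fun p x => M.leib p x.1)
    fun k m p x => M.act_gr k m p x.1

theorem evM_act (i : I) (M : DGM (DB.A i)) (b : (DB.A i).R)
    (z : (DB.A i).R ⊗[ℂ] (UU ((f.φ i).cut M)).V) :
    (f.evM i M).f ((LinearMap.mul ℂ (DB.A i).R b).rTensor _ z) = M.act b ((f.evM i M).f z) := by
  induction z using TensorProduct.induction_on with
  | zero => simp
  | tmul p x => exact M.act_mul b p _
  | add x y hx hy => simp only [map_add, hx, hy]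

theorem evM_bm {i j : I} {M : DGM (DB.A i)} {M' : DGM (DB.A j)} (t : (DB.A i).R →ₗ[ℂ] (DB.A j).R)
    (τ : NHom (DA.A i) (DA.A j)) (u : ((f.φ i).cut M).V →ₗ[ℂ] ((f.φ j).cut M').V)
    (w : M.V →ₗ[ℂ] M'.V) (h : ∀ p x, M'.act (t p) (u x).1 = w (M.act p x.1))
    (z : (DB.A i).R ⊗[ℂ] (UU ((f.φ i).cut M)).V) : (f.evM j M').f
      (P286EK.bm (P := (f.φ i).rm) (P' := (f.φ j).rm) t τ 0 u z) = w ((f.evM i M).f z) :=
  evL_bm (P := (f.φ i).rm) (P' := (f.φ j).rm) (β := f.pr i M) (β' := f.pr j M') h z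

/-- The counit. -/
def cou : f.Xi.z0 ⋙ f.bm.Th.z0 ⟶ 𝟭 (Z0 (mdc DB)) :=
  mnat (fun M => mmk (F := f.bm.th (f.xi (mo M))) (F' := mo M) (fun i => f.evM i ((mo M).M i))
      (fun i => f.evM_act i _)
      fun α z => f.evM_bm _ _ _ ((mo M).ρ α).f (fun p x => ((mo M).ρ_act α p x.1).symm) z)
    fun _ _ a i z => f.evM_bm _ _ _ (mh a i).f (fun p x => (mh_act a i p x.1).symm) z

theorem evM_bl (i : I) (M : DGM (DB.A i)) (z : (DA.A i).R ⊗[ℂ] (UU ((f.φ i).cut M)).V) :
    (f.evM i M).f ((bl (f.φ i).j ((f.φ i).cut M)).f z) = ((eps ((f.φ i).cut M)).f z).1 := by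
  rw [bl_f]
  induction z using TensorProduct.induction_on with
  | zero => simp
  | tmul p x => rfl
  | add x y hx hy => simp only [map_add, hx, hy, Submodule.coe_add]

theorem tri (M : Z0 (mdc DB)) : f.eta.app (f.Xi.z0.obj M) ≫ f.Xi.z0.map (f.cou.app M) =
    (epsT DA).app (f.Xi.z0.obj M) := m_ext fun i z => Subtype.ext (f.evM_bl i _ z)

/-- The Morita theorem: the weak equivalences are the maps `u` such that `e u` is in `V`. -/
theorem mor' (h : ∀ i, MorH (f.φ i)) {V : MorphismProperty (Z0 (mdc DA))} (hV : T3 V)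
    (hq : ∀ ⦃X Y⦄ (u : X ⟶ Y), mqis DA u → V u) {W : MorphismProperty (Z0 (mdc DB))}
    (hW : ∀ ⦃X Y⦄ (u : X ⟶ Y), W u ↔ V (f.Xi.z0.map u)) : Inv V W f.bm.Th.z0 f.Xi.z0 :=
  form hV _ _ hW (Res DA).z0 f.eta (epsT DA) f.cou f.tri
    (fun _ => hq _ fun i => qis_unit (f.φ i) (h i) _ _ (fun _ => rfl) (f.le_bl i _))
    fun N => hq _ (qis_epsT DA N)

end DHom

/-- The idempotent `e` generates the unit ideal up to boundaries. -/
def GenE {B : DGA} (e : B.R) : Prop := ∃ (ι : Type) (_ : Fintype ι) (x y : ι → B.R) (z : B.R),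
  (∀ k, x k ∈ B.gr 0 ∧ B.d (x k) = 0 ∧ y k ∈ B.gr 0 ∧ B.d (y k) = 0) ∧ z ∈ B.gr (-1) ∧
    ∑ k, x k * (e * y k) + B.d z = 1

theorem genE_one (B : DGA) : GenE (1 : B.R) :=
  ⟨Unit, inferInstance, fun _ => 1, fun _ => 1, 0,
    fun _ => ⟨B.one_gr, B.d_one, B.one_gr, B.d_one⟩, zero_mem _, by simp⟩

theorem qis_of_cut {A B : DGA} (φ : NHom A B) (hg : GenE φ.e) {M M' : DGM B}
    (u : Hom M.toGD M'.toGD) (hu : ∀ b x, u.f (M.act b x) = M'.act b (u.f x))
    (h : Qis (Img.map (φ.le M) (φ.le M') u (hu _))) : Qis u := by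
  obtain ⟨ι, _, x, y, z, hxy, hz, e⟩ := hg
  have key : ∀ (M : DGM B) (w : M.V), M.d w = 0 →
      w = ∑ k, M.act (x k) (M.act φ.e (M.act (y k) w)) + M.d (M.act z w) := by
    intro M w hw
    conv_lhs => rw [← M.act_one w, ← e]
    rw [M.leib, hw, map_zero, add_zero, map_add, map_sum, LinearMap.add_apply,
      LinearMap.sum_apply]
    simp only [M.act_mul]
  have gz : ∀ (M : DGM B) (m : ℤ), ∀ w ∈ M.gr m, M.act z w ∈ M.gr (m - 1) := fun M m w hw => by
    have := M.act_gr _ _ z w hz hw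
    rwa [show -1 + m = m - 1 by omega] at this
  let X := fun (M : DGM B) k => M.lm (x k) (hxy k).1 (hxy k).2.1
  let Y := fun (M : DGM B) k =>
    (Img.proj _ (φ.le_le M)).comp (M.lm (y k) (hxy k).2.2.1 (hxy k).2.2.2)
  have hY : ∀ k w, (Img.map (φ.le M) (φ.le M') u (hu _)).f ((Y M k).f w) = (Y M' k).f (u.f w) :=
    fun k w => Subtype.ext ((hu _ _).trans (congrArg _ (hu _ _)))
  intro m
  refine ⟨?_, fun w hw hd => ?_⟩
  · rintro w hw hd ⟨w', hw', e'⟩
    choose s hs es using fun k => (h m).1 ((Y M k).f w) ((Y M k).deg _ _ hw)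
      (by rw [← (Y M k).comm, hd, map_zero]) ⟨(Y M' k).f w', (Y M' k).deg _ _ hw', by
        rw [← (Y M' k).comm, e', hY]⟩
    refine ⟨∑ k, (X M k).f (s k).1 + M.act z w,
      add_mem (sum_mem fun k _ => (X M k).deg _ _ (hs k)) (gz M m w hw), ?_⟩
    rw [map_add, map_sum]
    refine Eq.trans (congrArg (· + _) (Finset.sum_congr rfl fun k _ => ?_)) (key M w hd).symm
    exact ((X M k).comm _).symm.trans (congrArg (X M k).f (congrArg Subtype.val (es k)))
  · choose s hs ds t ht et using fun k => (h m).2 ((Y M' k).f w) ((Y M' k).deg _ _ hw)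
      (by rw [← (Y M' k).comm, hd, map_zero])
    refine ⟨∑ k, (X M k).f (s k).1, sum_mem fun k _ => (X M k).deg _ _ (hs k), ?_,
      ∑ k, (X M' k).f (t k).1 + M'.act z w,
      add_mem (sum_mem fun k _ => (X M' k).deg _ _ (ht k)) (gz M' m w hw), ?_⟩
    · rw [map_sum]
      exact Finset.sum_eq_zero fun k _ => ((X M k).comm _).symm.trans
        ((congrArg (X M k).f (congrArg Subtype.val (ds k))).trans (map_zero _))
    · have e2 : ∀ k, M'.d ((X M' k).f (t k).1) =
          M'.act (x k) (M'.act φ.e (M'.act (y k) w)) - u.f ((X M k).f (s k).1) := fun k =>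
        ((X M' k).comm _).symm.trans ((congrArg (X M' k).f (congrArg Subtype.val (et k))).trans
          ((map_sub (M'.act (x k)) _ _).trans (congrArg (_ - ·) (hu _ _).symm)))
      rw [map_add, map_sum, map_sum, Finset.sum_congr rfl fun k _ => e2 k, Finset.sum_sub_distrib,
        sub_add_eq_add_sub, ← key M' w hd]

theorem DHom.qis_iff (f : DHom DA DB) (hg : ∀ i, GenE (f.φ i).e) ⦃X Y : Z0 (mdc DB)⦄
    (u : X ⟶ Y) : mqis DB u ↔ mqis DA (f.Xi.z0.map u) :=
  ⟨fun h i => Img.qis_map ((f.φ i).le_le _) ((f.φ i).le_le _) (mh u i) (mh_act u i _) (h i),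
    fun h i => qis_of_cut (f.φ i) (hg i) (mh u i) (mh_act u i) (h i)⟩

/-- The Morita theorem for quasi-isomorphisms. -/
theorem DHom.mor (f : DHom DA DB) (h : ∀ i, MorH (f.φ i)) (hg : ∀ i, GenE (f.φ i).e) :
    Inv (mqis DA) (mqis DB) f.bm.Th.z0 f.Xi.z0 :=
  f.mor' h (t3_mqis DA) (fun _ _ _ h => h) (f.qis_iff hg)

theorem DHom.eqv (f : DHom DA DB) (h : ∀ i, MorH (f.φ i)) (hg : ∀ i, GenE (f.φ i).e) :
    EQV (wm DA) (wm DB) := ⟨_, _, f.mor h hg⟩

/-- The Morita theorem for invariant full subcategories. -/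
theorem DHom.eqv_full (f : DHom DA DB) (h : ∀ i, MorH (f.φ i)) (hg : ∀ i, GenE (f.φ i).e)
    {P : DM DA → Prop} {Q : DM DB → Prop} (hP : Invt (mqis DA) P) (hQ : ∀ M, Q M ↔ P (f.xi M)) :
    EQV (wfull (wm DA) P) (wfull (wm DB) Q) :=
  P286EK.eqv_full (X := wm DA) (Y := wm DB) (f.mor h hg) hP hQ

theorem morH_of_qis {A B : DGA} (φ : NHom A B) (h1 : φ.f 1 = 1) (h : Qis φ.hom) : MorH φ := by
  intro m
  refine ⟨(h m).1, fun b hb hd => ?_⟩
  rw [NHom.e, h1, one_mul, mul_one]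
  exact (h m).2 b hb hd

end

end Vale.Agent.P286EK
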