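import Vale.Agent.P286EK.Defs

/-!
# Perturbations, images of projectors, tensor products
-/

namespace Vale.Agent.P286EK

open Vale.Agent.P286.H847 Vale.Agent.P286.H847.GD Vale.Agent.P286.H847.SGD Vale.Agent.P286.H710
open TensorProduct DirectSum

noncomputable section

theorem qis_congr {M N : GD} {u v : Hom M N} (h : ∀ x, u.f x = v.f x) (hu : Qis u) : Qis v := by
  intro m
  refine ⟨fun x hx hd ⟨y, hy, e⟩ => (hu m).1 x hx hd ⟨y, hy, by rw [e, h]⟩, fun y hy hd => ?_⟩
  obtain ⟨x, hx, hdx, y', hy', e⟩ := (hu m).2 y hy hd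
  exact ⟨x, hx, hdx, y', hy', by rw [e, h]⟩

/-- Two out of three for a commutative triangle. -/
theorem qis_tri {M N P : GD} {u : Hom M N} {v : Hom N P} {w : Hom M P}
    (h : ∀ x, v.f (u.f x) = w.f x) :
    (Qis u → Qis v → Qis w) ∧ (Qis u → Qis w → Qis v) ∧ (Qis v → Qis w → Qis u) :=
  ⟨fun hu hv => qis_congr (u := v.comp u) h (hv.comp hu),
    fun hu hw => hu.of_comp_right (qis_congr (fun x => (h x).symm) hw),
    fun hv hw => hv.of_comp_left (qis_congr (fun x => (h x).symm) hw)⟩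

/-- A commutative square with two opposite quasi-isomorphisms. -/
theorem qis_sq {M N M' N' : GD} {u : Hom M N} {u' : Hom M' N'} {a : Hom M M'} {b : Hom N N'}
    (h : ∀ x, b.f (u.f x) = u'.f (a.f x)) (ha : Qis a) (hb : Qis b) : Qis u ↔ Qis u' :=
  ⟨fun hu => ha.of_comp_right (qis_congr (u := b.comp u) h (hb.comp hu)),
    fun hu => hb.of_comp_left (qis_congr (u := u'.comp a) (fun x => (h x).symm) (hu.comp ha))⟩

theorem qis_of_bij {M N : GD} (u : Hom M N) (hi : ∀ m, ∀ x ∈ M.gr m, u.f x = 0 → x = 0)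
    (hs : ∀ m, ∀ y ∈ N.gr m, ∃ x ∈ M.gr m, u.f x = y) : Qis u := by
  intro m
  refine ⟨?_, ?_⟩
  · rintro x hx - ⟨y, hy, e⟩
    obtain ⟨x', hx', rfl⟩ := hs _ y hy
    refine ⟨x', hx', sub_eq_zero.1 (hi m _ (sub_mem (M.dgr' (by ring) hx') hx) ?_)⟩
    rw [map_sub, u.comm, e, sub_self]
  · intro y hy hd
    obtain ⟨x, hx, rfl⟩ := hs _ y hy
    exact ⟨x, hx, hi _ _ (M.dgr _ _ hx) (by rw [u.comm, hd]), 0, zero_mem _, by simp⟩

theorem qis_of_inv {M N : GD} (u : Hom M N) (v : Hom N M) (h : ∀ x, v.f (u.f x) = x)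
    (h' : ∀ y, u.f (v.f y) = y) : Qis u :=
  qis_of_bij u (fun _ x _ e => by rw [← h x, e, map_zero])
    (fun m y hy => ⟨v.f y, v.deg m y hy, h' y⟩)

/-! ### Perturbations which lower a filtration -/

/-- A perturbation `p` of the differential which lowers the level by one; `π k` is the projection
to the level `k`. -/
structure Pert (X : GD) where
  p : X.V →ₗ[ℂ] X.V
  π : ℕ → X.V →ₗ[ℂ] X.V
  p_gr : ∀ (m : ℤ) (x : X.V), x ∈ X.gr m → p x ∈ X.gr (m + 1)
  π_gr : ∀ (k : ℕ) (m : ℤ) (x : X.V), x ∈ X.gr m → π k x ∈ X.gr m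
  dp : ∀ x, X.d (p x) = - p (X.d x)
  pp : ∀ x, p (p x) = 0
  fin : ∀ x, ∃ n, ∀ k, n ≤ k → π k x = 0
  sep : ∀ x, (∀ k, π k x = 0) → x = 0
  ππ : ∀ k l x, π k (π l x) = if k = l then π l x else 0
  πd : ∀ k x, π k (X.d x) = X.d (π k x)
  πp : ∀ k x, π k (p x) = p (π (k + 1) x)

namespace Pert

variable {X Y : GD}

/-- The perturbed space. -/
abbrev tot (P : Pert X) : GD where
  V := X.V
  d := X.d + P.p
  dd x := by
    simp only [LinearMap.add_apply, map_add, X.dd, P.dp, P.pp]
    abel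
  gr := X.gr
  dgr m x hx := add_mem (X.dgr m x hx) (P.p_gr m x hx)

theorem tot_d (P : Pert X) (x : X.V) : P.tot.d x = X.d x + P.p x := rfl

/-- Exactness from the exactness of the first page. -/
theorem exact_E1 (P : Pert X)
    (h : ∀ (k : ℕ) (m : ℤ) (x : X.V), x ∈ X.gr m → P.π k x = x → X.d x = 0 →
      (∃ w ∈ X.gr m, X.d w = P.p x) →
      ∃ y ∈ X.gr (m - 1), ∃ z ∈ X.gr (m - 1), X.d y = 0 ∧ x = P.p y + X.d z) :
    P.tot.Exact := by
  have key : ∀ (n : ℕ) (m : ℤ) (x : X.V), x ∈ X.gr m → X.d x + P.p x = 0 →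
      (∀ k, n ≤ k → P.π k x = 0) → ∃ y ∈ X.gr (m - 1), X.d y + P.p y = x := by
    intro n
    induction n with
    | zero =>
      intro m x _ _ h0
      rw [P.sep x fun k => h0 k (Nat.zero_le k)]
      exact ⟨0, zero_mem _, by simp⟩
    | succ n ih =>
      intro m x hx hd h0
      have e : ∀ k, X.d (P.π k x) + P.p (P.π (k + 1) x) = 0 := fun k => by
        rw [← P.πd, ← P.πp, ← map_add, hd, map_zero]
      have e1 : X.d (P.π n x) = 0 := by
        have := e n
        rwa [h0 (n + 1) le_rfl, map_zero, add_zero] at this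
      have e2 : ∃ w ∈ X.gr m, X.d w = P.p (P.π n x) := by
        rcases n with _ | n
        · refine ⟨0, zero_mem _, ?_⟩
          rw [map_zero]
          refine (P.sep _ fun k => ?_).symm
          rw [P.πp, P.ππ, if_neg (Nat.succ_ne_zero k), map_zero]
        · exact ⟨-P.π n x, neg_mem (P.π_gr _ _ _ hx), by
            rw [map_neg, neg_eq_iff_add_eq_zero, e]⟩
      obtain ⟨y, hy, z, hz, hdy, exy⟩ := h n m (P.π n x) (P.π_gr _ _ _ hx)
        (by rw [P.ππ, if_pos rfl]) e1 e2
      have hw : P.π (n + 1) y + P.π n z ∈ X.gr (m - 1) :=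
        add_mem (P.π_gr _ _ _ hy) (P.π_gr _ _ _ hz)
      have e3 : P.π n x = P.p (P.π (n + 1) y) + X.d (P.π n z) := by
        rw [← P.πp, ← P.πd, ← map_add, ← exy, P.ππ, if_pos rfl]
      obtain ⟨y', hy', e'⟩ := ih m (x - P.tot.d (P.π (n + 1) y + P.π n z))
        (sub_mem hx (P.tot.dgr' (by ring) hw))
        (by
          rw [← P.tot_d, map_sub, P.tot.dd, sub_zero]
          exact hd)
        (by
          intro k hk
          rw [map_sub, P.tot_d, map_add, P.πd, P.πp, map_add, map_add, map_add, map_add, P.ππ,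
            P.ππ, P.ππ, P.ππ, if_neg (show k + 1 ≠ n by omega)]
          rcases hk.eq_or_lt with rfl | hk'
          · rw [if_neg (Nat.succ_ne_self _).symm, if_pos rfl, if_pos rfl, e3]
            simp [add_comm]
          · rw [h0 k hk', if_neg hk'.ne', if_neg (show k + 1 ≠ n + 1 by omega)]
            by_cases hk2 : k = n + 1
            · rw [if_pos hk2, ← P.πd, hdy]
              simp
            · rw [if_neg hk2]
              simp)
      refine ⟨y' + (P.π (n + 1) y + P.π n z), add_mem hy' hw, ?_⟩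
      rw [← P.tot_d, map_add, P.tot_d y', e', sub_add_cancel]
  intro m x hx hd
  obtain ⟨n, hn⟩ := P.fin x
  exact key n m x hx hd hn

theorem exact (P : Pert X) (h : X.Exact) : P.tot.Exact :=
  P.exact_E1 fun _ m x hx _ hd _ => by
    obtain ⟨z, hz, e⟩ := h m x hx hd
    exact ⟨0, zero_mem _, z, hz, map_zero _, by rw [map_zero, zero_add, e]⟩

/-- The morphism of the perturbed spaces. -/
def hom (P : Pert X) (Q : Pert Y) (u : Hom X Y) (hp : ∀ x, u.f (P.p x) = Q.p (u.f x)) :
    Hom P.tot Q.tot where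
  f := u.f
  comm x := by rw [P.tot_d, Q.tot_d, map_add, u.comm, hp]
  deg := u.deg

/-- The perturbation of the cone. -/
def cone (P : Pert X) (Q : Pert Y) (u : Hom X Y) (hp : ∀ x, u.f (P.p x) = Q.p (u.f x))
    (hπ : ∀ k x, u.f (P.π k x) = Q.π k (u.f x)) : Pert (Cone u) where
  p := Q.p.prodMap (-P.p)
  π k := (Q.π k).prodMap (P.π k)
  p_gr m x hx := ⟨Q.p_gr m _ hx.1, neg_mem (P.p_gr _ _ hx.2)⟩
  π_gr k m x hx := ⟨Q.π_gr k m _ hx.1, P.π_gr k _ _ hx.2⟩
  dp x := Prod.ext (by simp [Q.dp, hp, add_comm]) (by simp [P.dp])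
  pp x := Prod.ext (by simp [Q.pp]) (by simp [P.pp])
  fin x := by
    obtain ⟨n, hn⟩ := Q.fin x.1
    obtain ⟨n', hn'⟩ := P.fin x.2
    exact ⟨max n n', fun k hk => Prod.ext (hn k (le_of_max_le_left hk))
      (hn' k (le_of_max_le_right hk))⟩
  sep x h := Prod.ext (Q.sep _ fun k => congrArg Prod.fst (h k))
    (P.sep _ fun k => congrArg Prod.snd (h k))
  ππ k l x := by
    by_cases h : k = l
    · rw [if_pos h]
      exact Prod.ext (by simp [Q.ππ, h]) (by simp [P.ππ, h])
    · rw [if_neg h]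
      exact Prod.ext (by simp [Q.ππ, h]) (by simp [P.ππ, h])
  πd k x := Prod.ext (by simp [Q.πd, hπ]) (by simp [P.πd])
  πp k x := Prod.ext (by simp [Q.πp]) (by simp [P.πp])

/-- A morphism which is a quasi-isomorphism before the perturbation is one after it. -/
theorem qis (P : Pert X) (Q : Pert Y) (u : Hom X Y) (hp : ∀ x, u.f (P.p x) = Q.p (u.f x))
    (hπ : ∀ k x, u.f (P.π k x) = Q.π k (u.f x)) (h : Qis u) : Qis (P.hom Q u hp) := by
  rw [qis_iff_exact_cone] at h ⊢
  have h1 := (P.cone Q u hp hπ).exact h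
  have e : ∀ x : Y.V × X.V, (Cone (P.hom Q u hp)).d x = (P.cone Q u hp hπ).tot.d x := fun x =>
    Prod.ext (by
      change Y.d x.1 + Q.p x.1 + u.f x.2 = Y.d x.1 + u.f x.2 + Q.p x.1
      abel) (by
      change -(X.d x.2 + P.p x.2) = -X.d x.2 + -P.p x.2
      abel)
  intro m x hx hd
  obtain ⟨y, hy, ey⟩ := h1 m x hx ((e x).symm.trans hd)
  exact ⟨y, hy, (e y).trans ey⟩

end Pert

/-! ### The direct sum of the homogeneous parts -/

/-- The differential on the homogeneous parts. -/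
def hd (F : GD) (m : ℤ) : F.gr m →ₗ[ℂ] F.gr (m + 1) := F.d.restrict (F.dgr m)

/-- The direct sum of the homogeneous parts. -/
abbrev hull (F : GD) : GD where
  V := ⨁ m : ℤ, F.gr m
  d := toModule ℂ ℤ _ fun m => (lof ℂ ℤ (fun m => F.gr m) (m + 1)).comp (hd F m)
  dd x := by
    induction x using DirectSum.induction_on with
    | zero => simp
    | of m y =>
      rw [← lof_eq_of ℂ, toModule_lof, LinearMap.comp_apply, toModule_lof, LinearMap.comp_apply,
        show hd F (m + 1) (hd F m y) = 0 from Subtype.ext (F.dd y), map_zero]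
    | add a b ha hb => rw [map_add, map_add, ha, hb, add_zero]
  gr m := LinearMap.range (lof ℂ ℤ (fun m => F.gr m) m)
  dgr m x := by
    rintro ⟨y, rfl⟩
    exact ⟨hd F m y, by rw [toModule_lof]; rfl⟩

theorem hull_int (F : GD) : IsInternal (hull F).gr := by
  refine Prj.internal ⟨fun m => (lof ℂ ℤ (fun m => F.gr m) m).comp
    (component ℂ ℤ (fun m => F.gr m) m), fun m x => ⟨_, rfl⟩, ?_, ?_, ?_⟩
  · rintro m x ⟨y, rfl⟩
    rw [LinearMap.comp_apply, component.lof_self]
  · rintro m n h x ⟨y, rfl⟩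
    rw [LinearMap.comp_apply, component.of, dif_neg h, map_zero]
  · refine eq_top_iff.2 fun x _ => ?_
    induction x using DirectSum.induction_on with
    | zero => exact zero_mem _
    | of m y => exact Submodule.mem_iSup_of_mem m ⟨y, rfl⟩
    | add a b ha hb => exact add_mem (ha trivial) (hb trivial)

/-- The map from the direct sum of the homogeneous parts. -/
def hullC (F : GD) : Hom (hull F) F where
  f := toModule ℂ ℤ _ fun m => (F.gr m).subtype
  comm x := by
    induction x using DirectSum.induction_on with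
    | zero => simp
    | of m y =>
      rw [← lof_eq_of ℂ]
      erw [toModule_lof, toModule_lof, toModule_lof]
      rfl
    | add a b ha hb => rw [map_add, map_add, ha, hb, map_add, map_add]
  deg m x := by
    rintro ⟨y, rfl⟩
    erw [toModule_lof]
    exact y.2

theorem hullC_lof (F : GD) (m : ℤ) (y : F.gr m) :
    (hullC F).f (lof ℂ ℤ (fun m => F.gr m) m y) = y := toModule_lof _ _ _

theorem qis_hullC (F : GD) : Qis (hullC F) := by
  refine qis_of_bij _ ?_ fun m y hy => ⟨_, ⟨⟨y, hy⟩, rfl⟩, hullC_lof F m _⟩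
  rintro m x ⟨y, rfl⟩ h
  rw [hullC_lof] at h
  rw [show y = 0 from Subtype.ext h, map_zero]

/-- The map of the direct sums of the homogeneous parts. -/
def hullM {F F' : GD} (u : Hom F F') : Hom (hull F) (hull F') where
  f := toModule ℂ ℤ _ fun m => (lof ℂ ℤ (fun m => F'.gr m) m).comp (u.f.restrict (u.deg m))
  comm x := by
    induction x using DirectSum.induction_on with
    | zero => simp
    | of m y =>
      rw [← lof_eq_of ℂ]
      erw [toModule_lof, toModule_lof, toModule_lof, toModule_lof]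
      exact congrArg (lof ℂ ℤ (fun m => F'.gr m) (m + 1)) (Subtype.ext (u.comm y))
    | add a b ha hb => rw [map_add, map_add, ha, hb, map_add, map_add]
  deg m x := by
    rintro ⟨y, rfl⟩
    erw [toModule_lof]
    exact ⟨_, rfl⟩

theorem hullC_hullM {F F' : GD} (u : Hom F F') (x : (hull F).V) :
    (hullC F').f ((hullM u).f x) = u.f ((hullC F).f x) := by
  induction x using DirectSum.induction_on with
  | zero => simp
  | of m y =>
    rw [← lof_eq_of ℂ, hullC_lof]
    erw [toModule_lof, hullC_lof]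
    rfl
  | add a b ha hb => rw [map_add, map_add, ha, hb, map_add, map_add]

theorem qis_tens_hull (E : SGD) (hE : IsInternal E.gr) (F : GD) :
    Qis (tmap (Hom.id E.toGD) (sgC_id E) (hullC F)) := by
  classical
  choose r hr using fun j : ℤ => (F.gr j).subtype.exists_leftInverse_of_injective
    (Submodule.ker_subtype _)
  let e := LinearEquiv.ofBijective (coeLinearMap E.gr) hE
  refine qis_of_bij _ ?_ ?_
  · intro m
    let L : E.V ⊗[ℂ] F.V →ₗ[ℂ] E.V ⊗[ℂ] (hull F).V := TensorProduct.lift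
      ((toModule ℂ ℤ _ fun i => ((TensorProduct.mk ℂ E.V (hull F).V).compl₂
        ((lof ℂ ℤ (fun m => F.gr m) (m - i)).comp (r (m - i)))).comp (E.gr i).subtype).comp
        e.symm.toLinearMap)
    have hL : tgr E.toGD (hull F) m ≤ LinearMap.eqLocus
        (L.comp (tmap (Hom.id E.toGD) (sgC_id E) (hullC F)).f) LinearMap.id := by
      refine tgr_le ?_
      rintro i j x _ hij hx ⟨y, rfl⟩
      obtain rfl : j = m - i := by omega
      have h2 : e.symm x = lof ℂ ℤ (fun m => E.gr m) i ⟨x, hx⟩ := by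
        rw [LinearEquiv.symm_apply_eq]
        exact (coeLinearMap_lof E.gr i ⟨x, hx⟩).symm
      change L (x ⊗ₜ (hullC F).f _) = _
      rw [hullC_lof]
      simp only [L, TensorProduct.lift.tmul, LinearMap.comp_apply, LinearEquiv.coe_coe]
      rw [h2, toModule_lof]
      change x ⊗ₜ lof ℂ ℤ (fun m => F.gr m) (m - i) (((r (m - i)).comp (F.gr (m - i)).subtype) y) = _
      rw [hr]
      rfl
    intro z hz h
    have h3 : L ((tmap (Hom.id E.toGD) (sgC_id E) (hullC F)).f z) = z := hL hz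
    rw [← h3, h, map_zero]
  · intro m z hz
    have : tgr E.toGD F m ≤ (tgr E.toGD (hull F) m).map
        (tmap (Hom.id E.toGD) (sgC_id E) (hullC F)).f := by
      refine tgr_le fun i j x y hij hx hy => ⟨x ⊗ₜ lof ℂ ℤ (fun m => F.gr m) j ⟨y, hy⟩,
        tmul_mem (F := hull F) hij hx ⟨_, rfl⟩, ?_⟩
      rw [tmap_tmul, hullC_lof]
      rfl
    exact this hz

/-- Tensoring a graded space with any quasi-isomorphism. -/
theorem qis_tens_right' (E : SGD) (hE : IsInternal E.gr) {F F' : GD} (u : Hom F F')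
    (hq : Qis u) : Qis (tmap (Hom.id E.toGD) (sgC_id E) u) := by
  have h1 : Qis (hullM u) := (qis_sq (hullC_hullM u) (qis_hullC F) (qis_hullC F')).2 hq
  refine (qis_sq (u := tmap (Hom.id E.toGD) (sgC_id E) (hullM u)) ?_ (qis_tens_hull E hE F)
    (qis_tens_hull E hE F')).1 (qis_tens_right E _ (hull_int F) (hull_int F') h1)
  intro z
  induction z using TensorProduct.induction_on with
  | zero => simp
  | tmul x y => exact congrArg (x ⊗ₜ[ℂ] ·) (hullC_hullM u y)
  | add a b ha hb => simp only [map_add, ha, hb]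

/-! ### The image of a projector -/

/-- The fixed points of `l`. -/
abbrev Img {X : GD} (l : Hom X X) : GD where
  V := LinearMap.eqLocus l.f LinearMap.id
  d := X.d.restrict (p := LinearMap.eqLocus l.f LinearMap.id)
    (q := LinearMap.eqLocus l.f LinearMap.id) fun x hx => (l.comm x).trans (congrArg X.d hx)
  dd x := Subtype.ext (X.dd x)
  gr m := (X.gr m).comap (LinearMap.eqLocus l.f LinearMap.id).subtype
  dgr m x hx := X.dgr m x hx

namespace Img

variable {X Y Z : GD} {l : Hom X X}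

theorem fix (x : (Img l).V) : l.f x.1 = x.1 := x.2

/-- The inclusion. -/
def incl (l : Hom X X) : Hom (Img l) X :=
  ⟨(LinearMap.eqLocus l.f LinearMap.id).subtype, fun _ => rfl, fun _ _ h => h⟩

/-- A linear map with fixed values. -/
def lin {W : Type} [AddCommGroup W] [Module ℂ W] (l : Hom X X) (u : W →ₗ[ℂ] X.V)
    (h : ∀ y, l.f (u y) = u y) : W →ₗ[ℂ] (Img l).V :=
  u.codRestrict (LinearMap.eqLocus l.f LinearMap.id) h

/-- A morphism with fixed values. -/
def lift (l : Hom X X) (u : Hom Y X) (h : ∀ y, l.f (u.f y) = u.f y) : Hom Y (Img l) :=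
  ⟨lin l u.f h, fun y => Subtype.ext (u.comm y), fun m y hy => u.deg m y hy⟩

/-- The projection. -/
def proj (l : Hom X X) (h : ∀ x, l.f (l.f x) = l.f x) : Hom X (Img l) := lift l l h

theorem qis_lift (hl : ∀ x, l.f (l.f x) = l.f x) (u : Hom Y X) (h : ∀ y, l.f (u.f y) = u.f y) :
    Qis (lift l u h) ↔ ∀ m : ℤ,
      (∀ y ∈ Y.gr m, Y.d y = 0 → (∃ x ∈ X.gr (m - 1), X.d x = u.f y) →
        ∃ y' ∈ Y.gr (m - 1), Y.d y' = y) ∧
      (∀ x ∈ X.gr m, X.d x = 0 → ∃ y ∈ Y.gr m, Y.d y = 0 ∧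
        ∃ x' ∈ X.gr (m - 1), X.d x' = l.f x - u.f y) := by
  refine forall_congr' fun m => and_congr ⟨?_, ?_⟩ ⟨?_, ?_⟩
  · rintro H y hy hd ⟨x, hx, e⟩
    refine H y hy hd ⟨(proj l hl).f x, (proj l hl).deg _ _ hx, Subtype.ext ?_⟩
    change X.d (l.f x) = u.f y
    rw [← l.comm, e, h]
  · rintro H y hy hd ⟨x, hx, e⟩
    exact H y hy hd ⟨x.1, hx, congrArg Subtype.val e⟩
  · intro H x hx hd
    obtain ⟨y, hy, hdy, x', hx', e⟩ := H ((proj l hl).f x) ((proj l hl).deg _ _ hx)
      (by rw [← (proj l hl).comm, hd, map_zero])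
    exact ⟨y, hy, hdy, x'.1, hx', congrArg Subtype.val e⟩
  · intro H x hx hd
    obtain ⟨y, hy, hdy, x', hx', e⟩ := H x.1 hx (congrArg Subtype.val hd)
    refine ⟨y, hy, hdy, (proj l hl).f x', (proj l hl).deg _ _ hx', Subtype.ext ?_⟩
    change X.d (l.f x') = x.1 - u.f y
    rw [← l.comm, e, map_sub, hl, h, fix]

theorem internal (hl : ∀ x, l.f (l.f x) = l.f x) (hX : IsInternal X.gr) :
    IsInternal (Img l).gr := by
  obtain ⟨P⟩ := Prj.nonempty hX
  have hc : ∀ m x, l.f (P.P m x) = P.P m (l.f x) := by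
    intro m x
    induction x using Prj.ind P.sup with
    | zero => simp
    | hom n x hx =>
      by_cases h : n = m
      · subst h
        rw [P.eq _ _ hx, P.eq _ _ (l.deg _ _ hx)]
      · rw [P.ne _ _ h _ hx, P.ne _ _ h _ (l.deg _ _ hx), map_zero]
    | add x y hx hy => simp only [map_add, hx, hy]
  refine Prj.internal ⟨fun m => lin l ((P.P m).comp (incl l).f)
    fun x => (hc m _).trans (congrArg (P.P m) (fix x)), fun m x => P.mem m x.1,
    fun m x hx => Subtype.ext (P.eq m x.1 hx), fun m n h x hx => Subtype.ext (P.ne m n h x.1 hx), ?_⟩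
  have h1 : ∀ x : X.V, (proj l hl).f x ∈ ⨆ m, (Img l).gr m := by
    intro x
    induction x using Prj.ind P.sup with
    | zero => rw [map_zero]; exact zero_mem _
    | hom n x hx => exact Submodule.mem_iSup_of_mem n ((proj l hl).deg n x hx)
    | add x y hx hy => rw [map_add]; exact add_mem hx hy
  refine eq_top_iff.2 fun x _ => ?_
  rw [show x = (proj l hl).f x.1 from Subtype.ext (fix x).symm]
  exact h1 _

/-- The morphism of the fixed points. -/
def map (l : Hom X X) (l' : Hom Y Y) (u : Hom X Y) (h : ∀ x, u.f (l.f x) = l'.f (u.f x)) :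
    Hom (Img l) (Img l') :=
  lift l' (u.comp (incl l)) fun x => (h x.1).symm.trans (congrArg u.f (fix x))

theorem qis_map {l' : Hom Y Y} (hl : ∀ x, l.f (l.f x) = l.f x) (hl' : ∀ x, l'.f (l'.f x) = l'.f x)
    (u : Hom X Y) (h : ∀ x, u.f (l.f x) = l'.f (u.f x)) (hu : Qis u) : Qis (map l l' u h) := by
  refine (qis_lift hl' _ _).2 fun m => ⟨?_, ?_⟩
  · intro y hy hd hb
    obtain ⟨x, hx, e⟩ := (hu m).1 y.1 hy (congrArg Subtype.val hd) hb
    refine ⟨(proj l hl).f x, (proj l hl).deg _ _ hx, Subtype.ext ?_⟩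
    change X.d (l.f x) = y.1
    rw [← l.comm, e, fix]
  · intro y hy hd
    obtain ⟨x, hx, hdx, y', hy', e⟩ := (hu m).2 y hy hd
    refine ⟨(proj l hl).f x, (proj l hl).deg _ _ hx, by rw [← (proj l hl).comm, hdx, map_zero],
      l'.f y', l'.deg _ _ hy', ?_⟩
    change Y.d (l'.f y') = l'.f y - u.f (l.f x)
    rw [← l'.comm, e, map_sub, h]

end Img

end

end Vale.Agent.P286EK
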