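import Vale.Agent.P286EK.Pert

/-!
# The tensor algebra of the shifted complex, and the spaces `T(sA) ⊗ N`
-/

namespace Vale.Agent.P286EK

open Vale.Agent.P286.H847 Vale.Agent.P286.H847.GD Vale.Agent.P286.H847.SGD Vale.Agent.P286.H710
open TensorProduct DirectSum

noncomputable section

/-- A grading is a direct sum decomposition if it is given by the eigenvalues of an operator. -/
theorem internal_of_deg {V : Type} [AddCommGroup V] [Module ℂ V] (gr : ℤ → Submodule ℂ V)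
    (N : V →ₗ[ℂ] V) (h : ∀ m, ∀ x ∈ gr m, N x = (m : ℂ) • x) (hs : ⨆ m, gr m = ⊤) :
    IsInternal gr := by
  refine isInternal_submodule_of_iSupIndep_of_iSup_eq_top ?_ hs
  refine ((Module.End.eigenspaces_iSupIndep N).comp (f := fun m : ℤ => (m : ℂ))
    Int.cast_injective).mono fun m x hx => ?_
  exact Module.End.mem_eigenspace_iff.2 (h m x hx)

theorem exists_deg {V : Type} [AddCommGroup V] [Module ℂ V] (gr : ℤ → Submodule ℂ V)
    (h : IsInternal gr) : ∃ N : V →ₗ[ℂ] V, ∀ m, ∀ x ∈ gr m, N x = (m : ℂ) • x := by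
  let e := LinearEquiv.ofBijective (coeLinearMap gr) h
  refine ⟨(toModule ℂ ℤ V fun m => (m : ℂ) • (gr m).subtype).comp e.symm.toLinearMap,
    fun m x hx => ?_⟩
  have h2 : e.symm x = lof ℂ ℤ (fun m => gr m) m ⟨x, hx⟩ := by
    rw [LinearEquiv.symm_apply_eq]
    exact (coeLinearMap_lof gr m ⟨x, hx⟩).symm
  rw [LinearMap.comp_apply, LinearEquiv.coe_coe, h2, toModule_lof]
  rfl

section T

variable (A : DGA)

/-- The tensor algebra. -/
abbrev Tv : Type := TensorAlgebra ℂ A.R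

/-- Multiplication with a generator. -/
def tm : A.R →ₗ[ℂ] Tv A →ₗ[ℂ] Tv A := (LinearMap.mul ℂ (Tv A)).comp (TensorAlgebra.ι ℂ)

variable {A}

theorem tm_apply (a : A.R) (t : Tv A) : tm A a t = TensorAlgebra.ι ℂ a * t := rfl

theorem tind {Q : Tv A → Prop} (one : Q 1) (mul : ∀ a t, Q t → Q (tm A a t))
    (add : ∀ s t, Q s → Q t → Q (s + t)) (smul : ∀ (c : ℂ) t, Q t → Q (c • t)) (t : Tv A) :
    Q t := by
  have h : ∀ t : Tv A, ∀ s, Q s → Q (t * s) := by
    intro t
    induction t using TensorAlgebra.induction with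
    | algebraMap c => intro s hs; rw [← Algebra.smul_def]; exact smul c s hs
    | ι a => exact mul a
    | mul x y hx hy => intro s hs; rw [mul_assoc]; exact hx _ (hy s hs)
    | add x y hx hy => intro s hs; rw [add_mul]; exact add _ _ (hx s hs) (hy s hs)
  simpa using h t 1 one

variable {W : Type} [AddCommGroup W] [Module ℂ W]

/-- The auxiliary representation. -/
def trL (Φ : A.R →ₗ[ℂ] Tv A →ₗ[ℂ] W) (Ψ : A.R →ₗ[ℂ] W →ₗ[ℂ] W) :
    Tv A →ₐ[ℂ] Module.End ℂ (Tv A × W) :=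
  TensorAlgebra.lift ℂ
    { toFun := fun a => ((tm A a).comp (LinearMap.fst ℂ _ _)).prod ((Φ a).coprod (Ψ a))
      map_add' := fun a b => LinearMap.ext fun x => Prod.ext (by simp) (by simp; abel)
      map_smul' := fun c a => LinearMap.ext fun x => Prod.ext (by simp) (by simp) }

theorem trL_tm (Φ : A.R →ₗ[ℂ] Tv A →ₗ[ℂ] W) (Ψ : A.R →ₗ[ℂ] W →ₗ[ℂ] W) (a : A.R) (t : Tv A)
    (x : Tv A × W) : trL Φ Ψ (tm A a t) x =
      (tm A a (trL Φ Ψ t x).1, Φ a (trL Φ Ψ t x).1 + Ψ a (trL Φ Ψ t x).2) := by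
  rw [tm_apply, map_mul, trL, TensorAlgebra.lift_ι_apply]
  rfl

theorem trL_fst (Φ : A.R →ₗ[ℂ] Tv A →ₗ[ℂ] W) (Ψ : A.R →ₗ[ℂ] W →ₗ[ℂ] W) (w : W) (t : Tv A) :
    (trL Φ Ψ t (1, w)).1 = t := by
  induction t using tind with
  | one => rw [map_one]; rfl
  | mul a t h => rw [trL_tm, h]
  | add s t hs ht => rw [map_add, LinearMap.add_apply, Prod.fst_add, hs, ht]
  | smul c t h => rw [map_smul, LinearMap.smul_apply, Prod.smul_fst, h]

/-- Recursion on words. -/
def trec (w : W) (Φ : A.R →ₗ[ℂ] Tv A →ₗ[ℂ] W) (Ψ : A.R →ₗ[ℂ] W →ₗ[ℂ] W) : Tv A →ₗ[ℂ] W :=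
  (LinearMap.snd ℂ _ _).comp ((LinearMap.applyₗ ((1, w) : Tv A × W)).comp (trL Φ Ψ).toLinearMap)

theorem trec_one (w : W) (Φ : A.R →ₗ[ℂ] Tv A →ₗ[ℂ] W) (Ψ : A.R →ₗ[ℂ] W →ₗ[ℂ] W) :
    trec w Φ Ψ 1 = w := by
  change (trL Φ Ψ 1 (1, w)).2 = w
  rw [map_one]
  rfl

theorem trec_tm (w : W) (Φ : A.R →ₗ[ℂ] Tv A →ₗ[ℂ] W) (Ψ : A.R →ₗ[ℂ] W →ₗ[ℂ] W) (a : A.R)
    (t : Tv A) : trec w Φ Ψ (tm A a t) = Φ a t + Ψ a (trec w Φ Ψ t) := by
  change (trL Φ Ψ (tm A a t) (1, w)).2 = _
  rw [trL_tm, trL_fst]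
  rfl

/-- The map of tensor algebras. -/
def tmp {B : DGA} (α : A.R →ₗ[ℂ] B.R) : Tv A →ₗ[ℂ] Tv B :=
  (TensorAlgebra.lift ℂ ((TensorAlgebra.ι ℂ).comp α)).toLinearMap

theorem tmp_one {B : DGA} (α : A.R →ₗ[ℂ] B.R) : tmp α 1 = 1 :=
  map_one (TensorAlgebra.lift ℂ ((TensorAlgebra.ι ℂ).comp α))

theorem tmp_tm {B : DGA} (α : A.R →ₗ[ℂ] B.R) (a : A.R) (t : Tv A) :
    tmp α (tm A a t) = tm B (α a) (tmp α t) := by
  change TensorAlgebra.lift ℂ ((TensorAlgebra.ι ℂ).comp α) (TensorAlgebra.ι ℂ a * t) = _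
  rw [map_mul, TensorAlgebra.lift_ι_apply]
  rfl

variable (A)

/-- The differential. -/
def tdf : Tv A →ₗ[ℂ] Tv A := trec 0 (-(tm A).comp A.d) (-(tm A).comp A.sg.toLinearMap)

/-- The sign. -/
def tsg : Tv A →ₗ[ℂ] Tv A := tmp (-A.sg.toLinearMap)

variable {A}

theorem tdf_one : tdf A 1 = 0 := trec_one _ _ _

theorem tdf_tm (a : A.R) (t : Tv A) :
    tdf A (tm A a t) = - tm A (A.d a) t - tm A (A.sg a) (tdf A t) := by
  rw [tdf, trec_tm, sub_eq_add_neg]
  rfl

theorem tsg_one : tsg A 1 = 1 := tmp_one _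

theorem tsg_tm (a : A.R) (t : Tv A) : tsg A (tm A a t) = - tm A (A.sg a) (tsg A t) := by
  rw [tsg, tmp_tm, LinearMap.neg_apply, map_neg]
  rfl

/-- The homogeneous elements. -/
inductive TG (A : DGA) : ℤ → Tv A → Prop
  | one : TG A 0 1
  | mul (i j m : ℤ) (a : A.R) (t : Tv A) : m = i + j - 1 → a ∈ A.gr i → TG A j t →
      TG A m (tm A a t)
  | zero (m : ℤ) : TG A m 0
  | add (m : ℤ) (s t : Tv A) : TG A m s → TG A m t → TG A m (s + t)
  | smul (m : ℤ) (c : ℂ) (t : Tv A) : TG A m t → TG A m (c • t)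

/-- The homogeneous elements. -/
def tgr' (A : DGA) (m : ℤ) : Submodule ℂ (Tv A) where
  carrier := {t | TG A m t}
  add_mem' := TG.add m _ _
  zero_mem' := TG.zero m
  smul_mem' := TG.smul m

theorem tm_mem {i j m : ℤ} {a : A.R} {t : Tv A} (h : m = i + j - 1) (ha : a ∈ A.gr i)
    (ht : t ∈ tgr' A j) : tm A a t ∈ tgr' A m := TG.mul i j m a t h ha ht

/-- The tensor algebra of the shifted complex. -/
def TA (A : DGA) : SGD where
  V := Tv A
  d := tdf A
  dd t := by
    induction t using tind with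
    | one => rw [tdf_one, map_zero]
    | mul a t h => simp [tdf_tm, h, A.dd, A.d_sg]
    | add s t hs ht => rw [map_add, map_add, hs, ht, add_zero]
    | smul c t h => rw [map_smul, map_smul, h, smul_zero]
  gr := tgr' A
  dgr m t ht := by
    induction ht with
    | one => rw [tdf_one]; exact zero_mem _
    | mul i j m a t h ha ht ih =>
      rw [tdf_tm]
      exact sub_mem (neg_mem (tm_mem (by omega) (A.dgr i a ha) ht))
        (tm_mem (by omega) (A.sg_mem ha) ih)
    | zero m => rw [map_zero]; exact zero_mem _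
    | add m s t _ _ hs ht => rw [map_add]; exact add_mem hs ht
    | smul m c t _ h => rw [map_smul]; exact Submodule.smul_mem _ c h
  sg := tsg A
  sg_sg t := by
    induction t using tind with
    | one => rw [tsg_one, tsg_one]
    | mul a t h => simp [tsg_tm, h]
    | add s t hs ht => rw [map_add, map_add, hs, ht]
    | smul c t h => rw [map_smul, map_smul, h]
  sg_d t := by
    induction t using tind with
    | one => simp [tsg_one, tdf_one]
    | mul a t h => simp [tsg_tm, tdf_tm, h, A.d_sg]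
    | add s t hs ht => simp only [map_add, hs, ht, neg_add]
    | smul c t h => simp only [map_smul, h, smul_neg]
  sg_gr m t ht := by
    induction ht with
    | one => simp [tsg_one]
    | mul i j m a t h ha ht ih =>
      have e : ((i + j).negOnePow : ℤ) = - (m.negOnePow : ℤ) := by
        rw [← neg1_succ, h, sub_add_cancel]
      rw [tsg_tm, ih, A.sg_gr i a ha, map_zsmul, map_zsmul, LinearMap.smul_apply, smul_smul,
        mul_comm, ← neg1_add, e, neg_smul, neg_neg]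
    | zero m => simp
    | add m s t _ _ hs ht => rw [map_add, hs, ht, smul_add]
    | smul m c t _ h => rw [map_smul, h, smul_comm]

theorem TA_int (A : DGA) : IsInternal (TA A).gr := by
  obtain ⟨N, hN⟩ := exists_deg A.gr A.int
  refine internal_of_deg (V := Tv A) (tgr' A)
    (trec 0 ((tm A).comp (N - LinearMap.id)) (tm A)) ?_ ?_
  · intro m t ht
    induction ht with
    | one => simp [trec_one]
    | mul i j m a t h ha ht ih =>
      rw [trec_tm, ih, LinearMap.comp_apply, LinearMap.sub_apply, hN i a ha, h]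
      simp only [map_sub, map_smul, LinearMap.sub_apply, LinearMap.smul_apply, LinearMap.id_apply]
      push_cast
      module
    | zero m => simp
    | add m s t _ _ hs ht => rw [map_add, hs, ht, smul_add]
    | smul m c t _ h => rw [map_smul, h, smul_comm]
  · refine eq_top_iff.2 fun t ht => ?_
    clear ht
    induction t using tind with
    | one => exact Submodule.mem_iSup_of_mem 0 TG.one
    | mul a t h =>
      induction a using A.ind with
      | zero => rw [map_zero]; exact zero_mem _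
      | hom i a ha =>
        refine Submodule.iSup_induction (tgr' A) (motive := fun t => tm A a t ∈ ⨆ m, tgr' A m) h
          (fun j t ht => Submodule.mem_iSup_of_mem _ (tm_mem rfl ha ht)) ?_ ?_
        · rw [map_zero]; exact zero_mem _
        · intro x y hx hy
          rw [map_add]; exact add_mem hx hy
      | add x y hx hy => rw [map_add]; exact add_mem hx hy
    | add s t hs ht => exact add_mem hs ht
    | smul c t h => exact Submodule.smul_mem _ c h

end T

/-! ### The spaces `T(sA) ⊗ N` -/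

/-- The space `T(sA) ⊗ N` with the inner differential. -/
def U0 (A : DGA) (N : GD) : GD := tens (TA A) N

namespace U0

variable {A B C : DGA} {N N' N'' : GD}

/-- The words of length zero. -/
def i0 (A : DGA) (N : GD) : N.V →ₗ[ℂ] (U0 A N).V := TensorProduct.mk ℂ (Tv A) N.V 1

/-- One more letter. -/
def σ (A : DGA) (N : GD) : A.R →ₗ[ℂ] (U0 A N).V →ₗ[ℂ] (U0 A N).V :=
  (LinearMap.rTensorHom (R := ℂ) (N := Tv A) (P := Tv A) N.V).comp (tm A)

/-- The element `t ⊗ n`. -/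
def el (t : Tv A) (n : N.V) : (U0 A N).V := (t ⊗ₜ[ℂ] n : Tv A ⊗[ℂ] N.V)

theorem i0_eq (n : N.V) : i0 A N n = el 1 n := rfl

theorem σ_el (a : A.R) (t : Tv A) (n : N.V) : σ A N a (el t n) = el (tm A a t) n := rfl

theorem ind' {Q : (U0 A N).V → Prop} (zero : Q 0) (el : ∀ t n, Q (el t n))
    (add : ∀ x y, Q x → Q y → Q (x + y)) (x : (U0 A N).V) : Q x :=
  TensorProduct.induction_on (motive := Q) (show Tv A ⊗[ℂ] N.V from x) zero el add

theorem ind {Q : (U0 A N).V → Prop} (base : ∀ n, Q (i0 A N n))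
    (step : ∀ a x, Q x → Q (σ A N a x)) (add : ∀ x y, Q x → Q y → Q (x + y))
    (x : (U0 A N).V) : Q x := by
  induction x using ind' with
  | zero => simpa using base 0
  | add x y hx hy => exact add x y hx hy
  | el t n =>
    induction t using tind generalizing n with
    | one => exact base n
    | mul a t h => exact step a _ (h n)
    | add s t hs ht =>
      rw [show (el (s + t) n : (U0 A N).V) = el s n + el t n from add_tmul s t n]
      exact add _ _ (hs n) (ht n)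
    | smul c t h =>
      rw [show (el (c • t) n : (U0 A N).V) = el t (c • n) from smul_tmul c t n]
      exact h _

variable {W : Type} [AddCommGroup W] [Module ℂ W]

/-- Recursion on words. -/
def urec (w : N.V →ₗ[ℂ] W) (Φ : A.R →ₗ[ℂ] (U0 A N).V →ₗ[ℂ] W) (Ψ : A.R →ₗ[ℂ] W →ₗ[ℂ] W) :
    (U0 A N).V →ₗ[ℂ] W :=
  TensorProduct.lift (M := Tv A) (N := N.V) (trec w
    ((TensorProduct.lcurry (RingHom.id ℂ) (Tv A) N.V W).comp Φ)
    ((LinearMap.llcomp ℂ N.V W W).comp Ψ))

theorem urec_i0 (w : N.V →ₗ[ℂ] W) (Φ : A.R →ₗ[ℂ] (U0 A N).V →ₗ[ℂ] W)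
    (Ψ : A.R →ₗ[ℂ] W →ₗ[ℂ] W) (n : N.V) : urec w Φ Ψ (i0 A N n) = w n :=
  LinearMap.congr_fun (trec_one w _ _) n

theorem urec_σ (w : N.V →ₗ[ℂ] W) (Φ : A.R →ₗ[ℂ] (U0 A N).V →ₗ[ℂ] W)
    (Ψ : A.R →ₗ[ℂ] W →ₗ[ℂ] W) (a : A.R) (x : (U0 A N).V) :
    urec w Φ Ψ (σ A N a x) = Φ a x + Ψ a (urec w Φ Ψ x) := by
  induction x using ind' with
  | zero => simp
  | add x y hx hy => simp only [map_add, hx, hy]; abel
  | el t n => exact LinearMap.congr_fun (trec_tm w _ _ a t) n

@[simp] theorem d_i0 (n : N.V) : (U0 A N).d (i0 A N n) = i0 A N (N.d n) := by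
  change (tdf A 1 ⊗ₜ[ℂ] n + tsg A 1 ⊗ₜ[ℂ] N.d n : Tv A ⊗[ℂ] N.V) = 1 ⊗ₜ[ℂ] N.d n
  rw [tdf_one, tsg_one, zero_tmul, zero_add]

@[simp] theorem d_σ (a : A.R) (x : (U0 A N).V) : (U0 A N).d (σ A N a x) =
    - σ A N (A.d a) x - σ A N (A.sg a) ((U0 A N).d x) := by
  induction x using ind' with
  | zero => simp
  | add x y hx hy => simp only [map_add, hx, hy]; abel
  | el t n =>
    have h : σ A N (A.sg a) ((U0 A N).d (el t n)) = (tm A (A.sg a) (tdf A t) ⊗ₜ[ℂ] n +
        tm A (A.sg a) (tsg A t) ⊗ₜ[ℂ] N.d n : Tv A ⊗[ℂ] N.V) := map_add (σ A N (A.sg a)) _ _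
    rw [h]
    change (tdf A (tm A a t) ⊗ₜ[ℂ] n + tsg A (tm A a t) ⊗ₜ[ℂ] N.d n : Tv A ⊗[ℂ] N.V) =
      - (tm A (A.d a) t ⊗ₜ[ℂ] n) - _
    rw [tdf_tm, tsg_tm, sub_tmul, neg_tmul, neg_tmul]
    abel

theorem i0_mem {m : ℤ} {n : N.V} (h : n ∈ N.gr m) : i0 A N n ∈ (U0 A N).gr m :=
  tmul_mem (E := (TA A).toGD) (zero_add m) TG.one h

theorem σ_mem {i j m : ℤ} {a : A.R} {x : (U0 A N).V} (h : m = i + j - 1) (ha : a ∈ A.gr i)
    (hx : x ∈ (U0 A N).gr j) : σ A N a x ∈ (U0 A N).gr m :=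
  map_tgr (E := (TA A).toGD) (E' := (TA A).toGD) (F := N) (F' := N) (σ A N a)
    (fun k l t n hkl ht hn => tmul_mem (E := (TA A).toGD) (i := i + k - 1) (by omega)
      (tm_mem rfl ha ht) hn) hx

theorem gr_ind (Q : ℤ → Submodule ℂ (U0 A N).V) (base : ∀ m, ∀ n ∈ N.gr m, i0 A N n ∈ Q m)
    (step : ∀ i j a x, a ∈ A.gr i → x ∈ (U0 A N).gr j → x ∈ Q j → σ A N a x ∈ Q (i + j - 1))
    {m : ℤ} {x : (U0 A N).V} (hx : x ∈ (U0 A N).gr m) : x ∈ Q m := by
  refine tgr_le (E := (TA A).toGD) (F := N) (P := Q m) ?_ hx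
  rintro i j t n rfl ht hn
  change el t n ∈ Q (i + j)
  clear hx
  induction ht with
  | one => rw [zero_add]; exact base j n hn
  | mul i k m a t h ha ht ih =>
    rw [show m + j = i + (k + j) - 1 by omega]
    exact step i (k + j) a _ ha (tmul_mem (E := (TA A).toGD) rfl ht hn) ih
  | zero m =>
    rw [show (el 0 n : (U0 A N).V) = 0 from zero_tmul (Tv A) n]
    exact zero_mem _
  | add m s t _ _ hs ht =>
    rw [show (el (s + t) n : (U0 A N).V) = el s n + el t n from add_tmul s t n]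
    exact add_mem hs ht
  | smul m c t _ h =>
    rw [show (el (c • t) n : (U0 A N).V) = c • el t n from (smul_tmul' c t n).symm]
    exact Submodule.smul_mem _ c h

/-- The component of length zero. -/
def p0 (A : DGA) (N : GD) : (U0 A N).V →ₗ[ℂ] N.V := urec LinearMap.id 0 0

@[simp] theorem p0_i0 (n : N.V) : p0 A N (i0 A N n) = n := urec_i0 _ _ _ n

@[simp] theorem p0_σ (a : A.R) (x : (U0 A N).V) : p0 A N (σ A N a x) = 0 := by
  rw [p0, urec_σ]; simp

/-- The first letter is split off. -/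
def Δ (A : DGA) (N : GD) : (U0 A N).V →ₗ[ℂ] A.R ⊗[ℂ] (U0 A N).V :=
  urec 0 (TensorProduct.mk ℂ _ _) 0

@[simp] theorem Δ_i0 (n : N.V) : Δ A N (i0 A N n) = 0 := urec_i0 _ _ _ n

@[simp] theorem Δ_σ (a : A.R) (x : (U0 A N).V) : Δ A N (σ A N a x) = a ⊗ₜ[ℂ] x := by
  rw [Δ, urec_σ]; simp

theorem p0_d (x : (U0 A N).V) : p0 A N ((U0 A N).d x) = N.d (p0 A N x) := by
  induction x using ind with
  | base n => simp
  | step a x _ => simp
  | add x y hx hy => simp only [map_add, hx, hy]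

theorem p0_mem {m : ℤ} {x : (U0 A N).V} (hx : x ∈ (U0 A N).gr m) : p0 A N x ∈ N.gr m :=
  gr_ind (fun m => (N.gr m).comap (p0 A N)) (fun m n hn => by simpa using hn)
    (fun i j a x _ _ _ => by simp) hx

/-- The projection to the words of length `k`. -/
def π (A : DGA) (N : GD) : ℕ → (U0 A N).V →ₗ[ℂ] (U0 A N).V
  | 0 => (i0 A N).comp (p0 A N)
  | k + 1 => (TensorProduct.lift (σ A N)).comp (((π A N k).lTensor A.R).comp (Δ A N))

@[simp] theorem π_zero (x : (U0 A N).V) : π A N 0 x = i0 A N (p0 A N x) := rfl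

@[simp] theorem π_i0 (k : ℕ) (n : N.V) : π A N (k + 1) (i0 A N n) = 0 := by simp [π]

@[simp] theorem π_σ (k : ℕ) (a : A.R) (x : (U0 A N).V) :
    π A N (k + 1) (σ A N a x) = σ A N a (π A N k x) := by simp [π]

theorem π_mem (k : ℕ) {m : ℤ} {x : (U0 A N).V} (hx : x ∈ (U0 A N).gr m) :
    π A N k x ∈ (U0 A N).gr m := by
  induction k generalizing m x with
  | zero => exact i0_mem (p0_mem hx)
  | succ k ih =>
    exact gr_ind (fun m => ((U0 A N).gr m).comap (π A N (k + 1))) (fun m n hn => by simp)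
      (fun i j a x ha hx _ => by simpa using σ_mem rfl ha (ih hx)) hx

theorem π_π (k l : ℕ) (x : (U0 A N).V) :
    π A N k (π A N l x) = if k = l then π A N l x else 0 := by
  induction x using ind generalizing k l with
  | base n => rcases k with _ | k <;> rcases l with _ | l <;> simp
  | step a x h =>
    rcases k with _ | k <;> rcases l with _ | l <;> simp [h]
    split_ifs <;> simp
  | add x y hx hy =>
    rw [map_add, map_add, hx, hy]
    split_ifs <;> simp

theorem π_d (k : ℕ) (x : (U0 A N).V) : π A N k ((U0 A N).d x) = (U0 A N).d (π A N k x) := by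
  induction x using ind generalizing k with
  | base n => rcases k with _ | k <;> simp
  | step a x h => rcases k with _ | k <;> simp [h]
  | add x y hx hy => simp only [map_add, hx, hy]

theorem π_lev (x : (U0 A N).V) :
    ∃ n, ∀ k, n ≤ k → π A N k x = 0 ∧ ∑ l ∈ Finset.range k, π A N l x = x := by
  induction x using ind with
  | base n =>
    refine ⟨1, fun k hk => ?_⟩
    obtain ⟨k, rfl⟩ : ∃ l, k = l + 1 := ⟨k - 1, by omega⟩
    simp [Finset.sum_range_succ']
  | step a x h =>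
    obtain ⟨n, h⟩ := h
    refine ⟨n + 1, fun k hk => ?_⟩
    obtain ⟨k, rfl⟩ : ∃ l, k = l + 1 := ⟨k - 1, by omega⟩
    obtain ⟨h1, h2⟩ := h k (by omega)
    simp [Finset.sum_range_succ', ← map_sum, h1, h2]
  | add x y hx hy =>
    obtain ⟨n, hx⟩ := hx
    obtain ⟨n', hy⟩ := hy
    refine ⟨max n n', fun k hk => ?_⟩
    obtain ⟨h1, h2⟩ := hx k (le_of_max_le_left hk)
    obtain ⟨h3, h4⟩ := hy k (le_of_max_le_right hk)
    simp [Finset.sum_add_distrib, h1, h2, h3, h4]

/-- The map defined by a map of the letters and a map of the coefficients. -/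
def mp (α : A.R →ₗ[ℂ] B.R) (u : N.V →ₗ[ℂ] N'.V) : (U0 A N).V →ₗ[ℂ] (U0 B N').V :=
  TensorProduct.map (M := Tv A) (N := N.V) (tmp α) u

@[simp] theorem mp_i0 (α : A.R →ₗ[ℂ] B.R) (u : N.V →ₗ[ℂ] N'.V) (n : N.V) :
    mp α u (i0 A N n) = i0 B N' (u n) := congrArg (fun t => (el t (u n) : (U0 B N').V)) (tmp_one α)

@[simp] theorem mp_σ (α : A.R →ₗ[ℂ] B.R) (u : N.V →ₗ[ℂ] N'.V) (a : A.R) (x : (U0 A N).V) :
    mp α u (σ A N a x) = σ B N' (α a) (mp α u x) := by
  induction x using ind' with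
  | zero => simp
  | add x y hx hy => simp only [map_add, hx, hy]
  | el t n => exact congrArg (fun t => (el t (u n) : (U0 B N').V)) (tmp_tm α a t)

theorem mp_mp {α : A.R →ₗ[ℂ] B.R} {u : N.V →ₗ[ℂ] N'.V} {β : B.R →ₗ[ℂ] C.R}
    {v : N'.V →ₗ[ℂ] N''.V} {γ : A.R →ₗ[ℂ] C.R} {w : N.V →ₗ[ℂ] N''.V}
    (h : ∀ a, β (α a) = γ a) (h' : ∀ n, v (u n) = w n) (x : (U0 A N).V) :
    mp β v (mp α u x) = mp γ w x := by
  induction x using ind with
  | base n => simp [h']
  | step a x hx => simp [h, hx]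
  | add x y hx hy => simp only [map_add, hx, hy]

theorem mp_id {α : A.R →ₗ[ℂ] A.R} {u : N.V →ₗ[ℂ] N.V} (h : ∀ a, α a = a) (h' : ∀ n, u n = n)
    (x : (U0 A N).V) : mp α u x = x := by
  induction x using ind with
  | base n => simp [h']
  | step a x hx => simp [h, hx]
  | add x y hx hy => simp only [map_add, hx, hy]

theorem mp_add (α : A.R →ₗ[ℂ] B.R) (u v : N.V →ₗ[ℂ] N'.V) :
    mp α (u + v) = mp α u + mp α v := TensorProduct.map_add_right _ _ _

theorem mp_smul (α : A.R →ₗ[ℂ] B.R) (c : ℂ) (u : N.V →ₗ[ℂ] N'.V) :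
    mp α (c • u) = c • mp α u := TensorProduct.map_smul_right _ _ _

theorem mp_zero (α : A.R →ₗ[ℂ] B.R) : mp α (0 : N.V →ₗ[ℂ] N'.V) = 0 :=
  TensorProduct.map_zero_right _

theorem p0_mp (α : A.R →ₗ[ℂ] B.R) (u : N.V →ₗ[ℂ] N'.V) (x : (U0 A N).V) :
    p0 B N' (mp α u x) = u (p0 A N x) := by
  induction x using ind with
  | base n => simp
  | step a x _ => simp
  | add x y hx hy => simp only [map_add, hx, hy]

theorem π_mp (α : A.R →ₗ[ℂ] B.R) (u : N.V →ₗ[ℂ] N'.V) (k : ℕ) (x : (U0 A N).V) :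
    π B N' k (mp α u x) = mp α u (π A N k x) := by
  induction x using ind generalizing k with
  | base n => rcases k with _ | k <;> simp
  | step a x h => rcases k with _ | k <;> simp [h]
  | add x y hx hy => simp only [map_add, hx, hy]

theorem mp_mem {α : A.R →ₗ[ℂ] B.R} {u : N.V →ₗ[ℂ] N'.V} {n : ℤ}
    (hα : ∀ i, ∀ a ∈ A.gr i, α a ∈ B.gr i) (hu : ∀ m, ∀ x ∈ N.gr m, u x ∈ N'.gr (m + n))
    {m : ℤ} {x : (U0 A N).V} (hx : x ∈ (U0 A N).gr m) : mp α u x ∈ (U0 B N').gr (m + n) :=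
  gr_ind (fun m => ((U0 B N').gr (m + n)).comap (mp α u))
    (fun m y hy => by simpa using i0_mem (hu m y hy))
    (fun i j a x ha _ hx => by simpa using σ_mem (by omega) (hα i a ha) hx) hx

/-- The morphism defined by a morphism of the coefficients. -/
def hom (A : DGA) (u : Hom N N') : Hom (U0 A N) (U0 A N') :=
  tmap (Hom.id (TA A).toGD) (sgC_id (TA A)) u

theorem hom_f {α : A.R →ₗ[ℂ] A.R} (h : ∀ a, α a = a) (u : Hom N N') (x : (U0 A N).V) :
    (hom A u).f x = mp α u.f x := by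
  induction x using ind' with
  | zero => simp
  | add x y hx hy => simp only [map_add, hx, hy]
  | el t n =>
    refine congrArg (fun t => (el t (u.f n) : (U0 A N').V)) (?_ : t = tmp α t)
    induction t using tind with
    | one => rw [tmp_one]
    | mul a t ht => rw [tmp_tm, h, ← ht]
    | add s t hs ht => rw [map_add, ← hs, ← ht]
    | smul c t ht => rw [map_smul, ← ht]

theorem qis_hom (A : DGA) {u : Hom N N'} (h : Qis u) : Qis (hom A u) :=
  qis_tens_right' (TA A) (TA_int A) u h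

end U0

end

end Vale.Agent.P286EK
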